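import Vale.Agent.P292.P.Fam

/-! P292 P/PolA (split from P/Pol). Linear properties of `Pol`. Helper names start with `ppoa_`.
`Pol.down`: weights by `dv_mono`, `lin_disj`. Given `G, σ` through `x` move them over `range x` to be independent
of `Y` (`aut_move`), apply `D^[e + 1]` of `Thru.spec`, use `lin_disj`, and move back (`θ` fixes `cl (range x)`). -/

open Polynomial Set Matrix

noncomputable section

namespace Vale.Agent.P292

open Vale.Agent.P271 Vale.Agent.P276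

variable {K : Type} [Field K] [Algebra ℂ K] {N n m : ℕ} {t : Fin (N + 1) → K} {S : Cn K N}
  {W : Type} [Field W] [Algebra ℂ W]

variable [IsAlgClosed W] {δ k : ℕ} {G G₀ H : Fin S.M → W[X]} {O : ValuationSubring W}
  {A B Y : Set W} {x : Fin S.M → W} {f g σ : W} {𝓕 : (Fin S.M → W[X]) → Prop}

omit [IsAlgClosed W] [Algebra ℂ W] in
theorem ppoa_fin {α : Type} [Finite α] (F : α → W[X]) : (cf F).Finite := by
  refine (Set.finite_iUnion fun s : α => ((F s).coeffs.finite_toSet.insert 0)).subset ?_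
  rintro _ ⟨s, j, rfl⟩
  refine mem_iUnion.2 ⟨s, ?_⟩
  by_cases h : (F s).coeff j = 0
  · exact Or.inl h
  · exact Or.inr (coeff_mem_coeffs h)

omit [IsAlgClosed W] in
theorem ppoa_cf {α : Type} (F : α → W[X]) (θ : W ≃ₐ[ℂ] W) :
    cf (fun i => (F i).map (θ : W →+* W)) = θ '' cf F := by
  ext a
  constructor
  · rintro ⟨s, j, rfl⟩
    exact ⟨_, ⟨s, j, rfl⟩, (coeff_map (θ : W →+* W) j).symm⟩
  · rintro ⟨_, ⟨s, j, rfl⟩, rfl⟩
    exact ⟨s, j, (coeff_map (θ : W →+* W) j).symm⟩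

omit [IsAlgClosed W] in
theorem ppoa_rk (θ : W ≃ₐ[ℂ] W) (A : Set W) : rk (θ '' A) = rk A :=
  rk_image (θ : W →ₐ[ℂ] W) A

omit [IsAlgClosed W] in
theorem ppoa_cl (θ : W ≃ₐ[ℂ] W) (h : f ∈ cl A) : θ f ∈ cl (θ '' A) :=
  (mem_cl_map (θ : W →ₐ[ℂ] W)).2 h

omit [IsAlgClosed W] in
theorem ppoa_eval (θ : W ≃ₐ[ℂ] W) (q : W[X]) (σ : W) :
    (q.map (θ : W →+* W)).eval (θ σ) = θ (q.eval σ) :=
  eval_map_apply (θ : W →+* W) σ

omit [IsAlgClosed W] in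
theorem ppoa_thru (h : S.Thru Y x G σ) (θ : W ≃ₐ[ℂ] W) :
    S.Thru (θ '' Y) (fun i => θ (x i)) (fun i => (G i).map (θ : W →+* W)) (θ σ) := by
  refine ⟨funext fun i => ?_, ?_⟩
  · rw [← h.1]
    exact ppoa_eval θ _ σ
  · rw [ppoa_cf, ← image_insert_eq, ← image_union, ppoa_rk, ppoa_rk, ppoa_rk, h.2]

omit [IsAlgClosed W] in
theorem ppoa_on {e : ℕ} (h : Cn.PolOn Y G σ e f) (θ : W ≃ₐ[ℂ] W) :
    Cn.PolOn (θ '' Y) (fun i => (G i).map (θ : W →+* W)) (θ σ) e (θ f) := by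
  obtain ⟨q, h1, h2, h3⟩ := h
  refine ⟨q.map (θ : W →+* W), natDegree_map_le.trans h1, fun i => ?_, ?_⟩
  · rw [coeff_map, ppoa_cf, ← image_union]
    exact ppoa_cl θ (h2 i)
  · rw [ppoa_eval, h3]

omit [IsAlgClosed W] in
theorem ppoa_fx {θ : W ≃ₐ[ℂ] W} (h : Fx Y θ) : θ '' Y = Y :=
  (image_congr h).trans (image_id' Y)

theorem Cn.Pol.lin (hS : S.Ok t n m) (hx : S.GenO n Y x) (hf : S.Pol 𝓕 δ Y x k f)
    (hg : S.Pol 𝓕 δ Y x k g) {a b : W} (ha : a ∈ cl Y) (hb : b ∈ cl Y) :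
    S.Pol 𝓕 δ Y x k (a * f + b * g) := by
  have h0 := (dv_spec hS hx hx.2.1.eu).1
  have h1 : ∀ B : Set W, (cl Y : Set W) ⊆ cl (Y ∪ B) := fun B => cl_mono subset_union_left
  refine ⟨⟨add_mem (mul_mem (h1 _ ha) hf.1.1) (mul_mem (h1 _ hb) hg.1.1), ?_⟩,
    fun G τ hG hτ => ?_⟩
  · rw [map_add, Derivation.leibniz, Derivation.leibniz, h0 a ha, h0 b hb, hf.1.2, hg.1.2]
    simp only [smul_eq_mul]
    ring
  · obtain ⟨q, q1, q2, q3⟩ := hf.2 G τ hG hτ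
    obtain ⟨r, r1, r2, r3⟩ := hg.2 G τ hG hτ
    refine ⟨C a * q + C b * r, natDegree_add_le_of_degree_le ((natDegree_C_mul_le _ _).trans q1)
      ((natDegree_C_mul_le _ _).trans r1), fun i => ?_, ?_⟩
    · rw [coeff_add, coeff_C_mul, coeff_C_mul]
      exact add_mem (mul_mem (h1 _ ha) (q2 i)) (mul_mem (h1 _ hb) (r2 i))
    · rw [eval_add, eval_C_mul, eval_C_mul, ← q3, ← r3]

theorem pol_zero (hS : S.Ok t n m) (hx : S.GenO n Y x) : S.Pol 𝓕 δ Y x k 0 := by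
  have _ := hS
  have _ := hx
  refine ⟨⟨zero_mem _, by rw [map_zero, mul_zero]⟩, fun G τ _ _ => ⟨0, by simp, fun i => ?_, ?_⟩⟩
  · rw [coeff_zero]
    exact zero_mem _
  · rw [eval_zero]

theorem Cn.Pol.map (hS : S.Ok t n m) (hx : S.GenO n Y x) (hf : S.Pol 𝓕 δ Y x k f)
    (h𝓕 : ∀ G (θ : W ≃ₐ[ℂ] W), 𝓕 G → 𝓕 fun i => (G i).map (θ : W →+* W)) (θ : W ≃ₐ[ℂ] W)
    (hθ : Fx (cl Y) θ) : S.GenO n Y (fun i => θ (x i)) ∧
      S.Pol 𝓕 δ Y (fun i => θ (x i)) k (θ f) := by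
  have h0 : Fx Y θ := fun a ha => hθ a (subset_cl Y ha)
  have h1 : θ '' Y = Y := ppoa_fx h0
  have h2 : θ.symm '' Y = Y := ppoa_fx fun a ha => θ.symm_apply_eq.2 (h0 a ha).symm
  have h3 : (Y ∪ range fun i => θ (x i)) = θ '' (Y ∪ range x) := by
    rw [image_union, h1, ← range_comp]
    rfl
  refine ⟨⟨hx.1, hx.2.1.map (θ : W →ₐ[ℂ] W), by rw [h3, ppoa_rk, hx.2.2]⟩, ⟨?_, ?_⟩,
    fun G τ hG hτ => ?_⟩
  · rw [h3]
    exact ppoa_cl θ hf.1.1
  · have h4 := dv_map hS hx θ hx.2.1.eu hf.1.1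
    have h5 : (fun i => θ (S.eu x i)) = S.eu fun i => θ (x i) := funext fun i => by
      simp only [Cn.eu, map_mul, map_natCast]
    rw [h1, h5, hf.1.2, map_mul, map_natCast] at h4
    exact h4
  · have h4 := ppoa_thru hτ θ.symm
    simp only [h2, AlgEquiv.symm_apply_apply] at h4
    have h5 := ppoa_on (hf.2 _ _ (h𝓕 G θ.symm hG) h4) θ
    have h6 : (fun i => ((G i).map (θ.symm : W →+* W)).map (θ : W →+* W)) = G := funext fun i => by
      ext j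
      simp only [coeff_map, RingHom.coe_coe, AlgEquiv.apply_symm_apply]
    rwa [h1, h6, AlgEquiv.apply_symm_apply] at h5

theorem Cn.Pol.up (hS : S.Ok t n m) (hx : S.GenO n Y x) (hf : S.Pol 𝓕 δ ∅ x k f) :
    S.Pol 𝓕 δ Y x k f := by
  refine ⟨⟨cl_mono (union_subset_union_left _ (empty_subset Y)) hf.1.1, ?_⟩, fun G τ hG hτ => ?_⟩
  · rw [dv_mono hS hx finite_empty (empty_subset _) hx.2.1.eu hf.1.1, hf.1.2]
  · have h1 : τ ∉ cl (cf G) := fun h => (hτ.spec hx.1).1 (cl_mono subset_union_right h)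
    obtain ⟨q, q1, q2, q3⟩ := hf.2 G τ hG ⟨hτ.1, by
      rw [empty_union, rk_insert (ppoa_fin G) h1, show rk (∅ : Set W) = 0 by simp [rk], zero_add]⟩
    exact ⟨q, q1, fun i => cl_mono (union_subset_union_left _ (empty_subset Y)) (q2 i), q3⟩

end Vale.Agent.P292
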