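import Vale.Agent.P292.P.Fam
import Vale.Agent.P292.P.PolA
import Vale.Agent.P276.E.Der

/-! P292 P/Pol. Linear properties of `Pol`. Helper names start with `ppo_`.
`Pol.down`: weights by `dv_mono`, `lin_disj`. Given `G, σ` through `x` move them over `range x` to be independent
of `Y` (`aut_move`), apply `D^[e + 1]` of `Thru.spec`, use `lin_disj`, and move back (`θ` fixes `cl (range x)`). -/

open Polynomial Set Matrix

noncomputable section

namespace Vale.Agent.P292

open Vale.Agent.P271 Vale.Agent.P276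

variable {K : Type} [Field K] [Algebra ℂ K] {N n m : ℕ} {t : Fin (N + 1) → K} {S : Cn K N}
  {W : Type} [Field W] [Algebra ℂ W]

variable [IsAlgClosed W] {δ k : ℕ} {G G₀ H : Fin S.M → W[X]} {O : ValuationSubring W}
  {A B Y : Set W} {x : Fin S.M → W} {f g σ : W} {𝓕 : (Fin S.M → W[X]) → Prop}

omit [IsAlgClosed W] in
theorem ppo_der (D : Derivation ℂ W W) (h1 : D σ = 1) (e : ℕ) : ∀ q : W[X],
    (∀ i, D (q.coeff i) = 0) → D^[e] (q.eval σ) = (derivative^[e] q).eval σ := by
  induction e with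
  | zero => exact fun _ _ => rfl
  | succ e ih =>
    intro q h
    have h2 : D (q.eval σ) = (derivative q).eval σ := by
      rw [eval_eq_sum, derivative_eval, Polynomial.sum, Polynomial.sum, map_sum]
      refine Finset.sum_congr rfl fun i _ => ?_
      rw [Derivation.leibniz, h, Derivation.leibniz_pow, h1]
      simp only [smul_eq_mul, mul_one, mul_zero, add_zero, nsmul_eq_mul]
      ring
    rw [Function.iterate_succ_apply, Function.iterate_succ_apply, h2]
    refine ih _ fun i => ?_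
    rw [coeff_derivative, Derivation.leibniz, h, ← Nat.cast_add_one, Derivation.map_natCast]
    simp

omit [IsAlgClosed W] in
theorem ppo_sum (D : Derivation ℂ W W) {ι : Type} [Fintype ι] {a : ι → W} (h : ∀ i, D (a i) = 0)
    (f : ι → W) (e : ℕ) : D^[e] (a ⬝ᵥ f) = ∑ i, D^[e] (f i) * a i := by
  induction e with
  | zero => exact Finset.sum_congr rfl fun i _ => mul_comm _ _
  | succ e ih =>
    rw [Function.iterate_succ_apply', ih, map_sum]
    refine Finset.sum_congr rfl fun i _ => ?_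
    rw [Function.iterate_succ_apply', Derivation.leibniz, h, smul_zero, zero_add, smul_eq_mul,
      mul_comm]

omit [IsAlgClosed W] [Field K] [Algebra ℂ K] in
theorem ppo_cf (G : Fin S.M → W[X]) (θ : W ≃ₐ[ℂ] W) :
    cf (fun i => (G i).map (θ : W →+* W)) = (θ : W →ₐ[ℂ] W) '' cf G := by
  ext a
  constructor
  · rintro ⟨s, j, rfl⟩
    exact ⟨_, ⟨s, j, rfl⟩, (coeff_map _ _).symm⟩
  · rintro ⟨_, ⟨s, j, rfl⟩, rfl⟩
    exact ⟨s, j, (coeff_map _ _).symm⟩

omit [IsAlgClosed W] [Field K] [Algebra ℂ K] in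
theorem ppo_sub (h : S.ev G σ = x) : range x ⊆ cl (insert σ (cf G)) := by
  rintro _ ⟨j, rfl⟩
  rw [← h, Cn.ev, eval_eq_sum, Polynomial.sum]
  exact sum_mem fun i _ => mul_mem (subset_cl _ (Or.inr ⟨j, i, rfl⟩))
    (pow_mem (subset_cl _ (mem_insert _ _)) _)

/-- The statement for a curve that is independent of `Y`. -/
theorem ppo_key {ι : Type} [Fintype ι] {a f : ι → W} (ha : LinearIndependent ℂ a)
    (h1 : ∀ i, a i ∈ cl Y) (h2 : ∀ i, f i ∈ cl (range x)) (hY : Y.Finite) {e : ℕ}
    (hT : S.Thru Y x G σ) (hT0 : S.Thru ∅ x G σ) (hp : Cn.PolOn Y G σ e (a ⬝ᵥ f)) (i : ι) :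
    Cn.PolOn ∅ G σ e (f i) := by
  obtain ⟨-, -, D, d1, d2, -⟩ := hT.spec hY
  obtain ⟨-, -, D', e1, e2, -, -, e3⟩ := hT0.spec finite_empty
  rw [empty_union] at e1 e3
  have hA : (insert σ (cf G)).Finite := (cf_finite G).insert σ
  have h3 : ∀ i, f i ∈ cl (insert σ (cf G)) := fun i => cl_le (ppo_sub hT.1) (h2 i)
  have h4 : ∀ b ∈ cl (insert σ (cf G)), D b ∈ cl (insert σ (cf G)) := der_mem (by
    rintro b (rfl | hb)
    · rw [d2]
      exact one_mem _
    · rw [d1 b (subset_cl _ (Or.inr hb))]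
      exact zero_mem _)
  have h5 : ∀ b ∈ cl (insert σ (cf G)), (D' - D) b = 0 := der_kill (by
    rintro b (rfl | hb)
    · rw [Derivation.sub_apply, d2, e2, sub_self]
    · rw [Derivation.sub_apply, d1 b (subset_cl _ (Or.inr hb)), e1 b (subset_cl _ hb), sub_self])
  have h6 : ∀ l : ℕ, D'^[l] (f i) = D^[l] (f i) := fun l => by
    induction l with
    | zero => rfl
    | succ l ih =>
      rw [Function.iterate_succ_apply', Function.iterate_succ_apply', ih]
      exact sub_eq_zero.1 (h5 _ (der_iter_mem h4 l (h3 i)))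
  obtain ⟨q, q1, q2, q3⟩ := hp
  have h7 := ppo_der D d2 (e + 1) q fun j => d1 _ (q2 j)
  rw [← q3, iterate_derivative_eq_zero (Nat.lt_succ_of_le q1), eval_zero,
    ppo_sum D fun j => d1 _ (cl_mono subset_union_left (h1 j))] at h7
  have h8 : rk Y + rk (insert σ (cf G)) ≤ rk (Y ∪ insert σ (cf G)) := by
    have := rk_insert_le (cf_finite G) σ
    have := hT.2
    omega
  have h9 := congrFun (lin_disj hY hA h8 ha h1 (fun j => der_iter_mem h4 (e + 1) (h3 j)) h7) i
  exact e3 e _ (h3 i) ((h6 _).trans h9)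

theorem pol_down (hS : S.Ok t n m) (hW : Big W) (hx : S.GenO n Y x) {ι : Type} [Fintype ι]
    {a f : ι → W} (ha : LinearIndependent ℂ a) (h1 : ∀ i, a i ∈ cl Y)
    (h2 : ∀ i, f i ∈ cl (range x))
    (h𝓕 : ∀ G (θ : W ≃ₐ[ℂ] W), 𝓕 G → 𝓕 fun i => (G i).map (θ : W →+* W))
    (hf : S.Pol 𝓕 δ Y x k (a ⬝ᵥ f)) (i : ι) : S.Pol 𝓕 δ ∅ x k (f i) := by
  have hY := hx.1
  have hX := finite_range x
  have r1 := rk_on hS hx.2.1
  have r2 := hx.2.2
  have r3 := rk_union_le hY hX
  refine ⟨⟨by rw [empty_union]; exact h2 i, ?_⟩, fun G τ hG hT => ?_⟩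
  · obtain ⟨d1, d2⟩ := dv_spec hS hx hx.2.1.eu
    rw [← dv_mono hS hx finite_empty (empty_subset _) hx.2.1.eu (by rw [empty_union]; exact h2 i)]
    have h3 : ∀ b ∈ cl (range x), S.dv Y x (S.eu x) b ∈ cl (range x) := der_mem (by
      rintro _ ⟨j, rfl⟩
      rw [d2]
      exact mul_mem (natCast_mem _ _) (subset_cl _ ⟨j, rfl⟩))
    have h4 := ppo_sum _ (fun j => d1 _ (h1 j)) f 1
    rw [Function.iterate_one, hf.1.2] at h4
    refine sub_eq_zero.1 (congrFun (lin_disj hY hX (by omega) ha h1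
      (a := fun j => S.dv Y x (S.eu x) (f j) - k * f j)
      (fun j => sub_mem (h3 _ (h2 j)) (mul_mem (natCast_mem _ _) (h2 j))) ?_) i)
    simp only [sub_mul, Finset.sum_sub_distrib]
    rw [← h4, dotProduct, Finset.mul_sum, sub_eq_zero]
    exact Finset.sum_congr rfl fun j _ => by ring
  · have hA : (insert τ (cf G)).Finite := (cf_finite G).insert τ
    obtain ⟨θ, t1, t2⟩ := aut_move hW hX hA hY
    have e1 : S.ev (fun i => (G i).map (θ : W →+* W)) (θ τ) = x := funext fun j => by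
      rw [← t1 (x j) (subset_cl _ ⟨j, rfl⟩), ← hT.1]
      exact eval_map_apply (θ : W →+* W) τ
    have e2 : insert (θ τ) (cf fun i => (G i).map (θ : W →+* W)) = θ '' insert τ (cf G) := by
      rw [ppo_cf, image_insert_eq]
      rfl
    have e3 : rk (cf fun i => (G i).map (θ : W →+* W)) = rk (cf G) := by rw [ppo_cf, rk_image]
    have e4 : rk (θ '' insert τ (cf G)) = rk (insert τ (cf G)) := rk_image (θ : W →ₐ[ℂ] W) _
    have hA' := hA.image θ
    have s1 := ppo_sub e1
    rw [e2] at s1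
    have r4 : rk (θ '' insert τ (cf G)) ≤ rk (range x ∪ θ '' insert τ (cf G)) :=
      rk_mono (hX.union hA') (subset_union_right.trans (subset_cl _))
    have r5 : rk (range x ∪ θ '' insert τ (cf G) ∪ Y) ≤ rk (Y ∪ θ '' insert τ (cf G)) :=
      rk_mono (hY.union hA') (union_subset (union_subset (s1.trans (cl_mono subset_union_right))
        (subset_union_right.trans (subset_cl _))) (subset_union_left.trans (subset_cl _)))
    have r6 := rk_union_le hY hA'
    have r7 := hT.2
    have r8 := rk_insert_le (cf_finite G) τ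
    rw [union_comm (range x) Y] at t2
    rw [empty_union] at r7
    obtain ⟨q, q1, q2, q3⟩ := ppo_key ha h1 h2 hY ⟨e1, by rw [e2, e3]; omega⟩
      ⟨e1, by rw [empty_union, e2, e3, e4, r7]⟩
      (hf.2 _ _ (h𝓕 G θ hG) ⟨e1, by rw [e2, e3]; omega⟩) i
    refine ⟨q.map (θ.symm : W →+* W), natDegree_map_le.trans q1, fun j => ?_, ?_⟩
    · have h3 := q2 j
      rw [empty_union, ppo_cf, ← θ.apply_symm_apply (q.coeff j)] at h3
      rw [coeff_map, empty_union]
      exact (mem_cl_map (θ : W →ₐ[ℂ] W)).1 h3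
    · have h3 := eval_map_apply (p := q) (θ.symm : W →+* W) (θ τ)
      rw [← q3] at h3
      refine θ.injective ?_
      rw [t1 _ (h2 i), ← θ.apply_symm_apply (f i)]
      refine congrArg θ (h3.symm.trans ?_)
      exact congrArg (fun s => eval s _) (θ.symm_apply_apply τ)

end Vale.Agent.P292
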