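import Vale.Agent.P292.P.Jet
import Vale.Agent.P292.P.Pol
import Vale.Agent.P276.E.GaussA
import Vale.Agent.P276.C.RedQ

/-! P292 P/BddA (split from P/Bdd). Boundedness. Helper names start with `pbda_`.
`aux_con`: `exists_con` gives `H` with top `x`; move it over `range x` so that `cv H 0` is generic over
`B = insert ρ (range x)` (`aut_move`); Gauss extension of `O ∩ cl B` along a transcendence basis of `cv H 0`
(`gau_a_core`): the residues of the basis stay independent over the residue field of `cl B`; `exists_pl`, then `good_red` for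
`dil r H`, whose top is `sc ρ x`. `bdd_le`: let `θ` move `x` to `x₀ = cv H 0`, and let `g i` be the images under `θ` of the finitely many conjugates of
`f` over the field generated by `x` (all `Pol`, `Pol.map`). With `η` from `jet`, `η ∘ θ` fixes `x` and permutes the conjugates,
so `f = η (g i) = ∑ c l * hI l (g i)` for some `i`; `hI l (g i) ∈ cl (range x₀) ⊆ O₂`. -/

open Polynomial Set Matrix

noncomputable section

namespace Vale.Agent.P292

open Vale.Agent.P271 Vale.Agent.P276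

variable {K : Type} [Field K] [Algebra ℂ K] {N n m : ℕ} {t : Fin (N + 1) → K} {S : Cn K N}
  {W : Type} [Field W] [Algebra ℂ W]

variable [IsAlgClosed W] {δ k : ℕ} {G G₀ H : Fin S.M → W[X]} {O : ValuationSubring W}
  {A B Y : Set W} {x : Fin S.M → W} {f g σ : W} {𝓕 : (Fin S.M → W[X]) → Prop}

omit [IsAlgClosed W] in
theorem pbda_ov {κ τ : Type} [Field κ] [Algebra ℂ κ] {P : Place ℂ W κ} {u : τ → W} {u' : τ → κ}
    (h : P.RedV u u') (hu : AlgebraicIndependent ℂ u') : Ov (range u) P.O := by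
  refine ov_iff.2 fun a ha => ?_
  obtain ⟨r, hr, s, hs, rfl⟩ := IntermediateField.mem_adjoin_iff_div.1 ha
  rw [Algebra.adjoin_range_eq_range_aeval] at hr hs
  obtain ⟨p, rfl⟩ := hr
  obtain ⟨q, rfl⟩ := hs
  by_cases hq : q = 0
  · simp [hq]
  have h1 : MvPolynomial.aeval u' q ≠ 0 := fun e => hq (algebraicIndependent_iff.1 hu q e)
  rw [div_eq_mul_inv]
  exact ((Place.Red.aeval h p).mul ((Place.Red.aeval h q).inv h1)).1

/-- The residues of the elements of `cl B`. -/
def pbda_T {κ : Type} [Field κ] [Algebra ℂ κ] (P : Place ℂ W κ) (B : Set W) :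
    IntermediateField ℂ κ where
  carrier := {b | ∃ a ∈ cl B, P.Red a b}
  mul_mem' := fun ⟨a, ha, h⟩ ⟨a', ha', h'⟩ => ⟨a * a', mul_mem ha ha', h.mul h'⟩
  one_mem' := ⟨1, one_mem _, Place.red_one⟩
  add_mem' := fun ⟨a, ha, h⟩ ⟨a', ha', h'⟩ => ⟨a + a', add_mem ha ha', h.add h'⟩
  zero_mem' := ⟨0, zero_mem _, Place.red_zero⟩
  algebraMap_mem' := fun c => ⟨_, (cl B).algebraMap_mem c, Place.red_algebraMap c⟩
  inv_mem' := fun b ⟨a, ha, h⟩ => by
    by_cases h0 : b = 0
    · exact ⟨0, zero_mem _, by rw [h0, _root_.inv_zero]; exact Place.red_zero⟩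
    · exact ⟨a⁻¹, inv_mem ha, h.inv h0⟩

/-- Gauss extension with independent residues. -/
theorem pbda_gauss {τ : Type} {u : τ → W} (hu : AlgebraicIndependent (cl B) u) (hO : Ov ∅ O) :
    ∃ (κ : Type) (_ : Field κ) (_ : Algebra ℂ κ) (_ : IsAlgClosed κ) (P : Place ℂ W κ)
      (u' : τ → κ), (∀ a ∈ cl B, a ∈ P.O ↔ a ∈ O) ∧ Ov (range u) P.O ∧ P.RedV u u' ∧
      ∀ B' : Set κ, (∀ b ∈ B', ∃ a ∈ cl B, P.Red a b) → AlgebraicIndependent (cl B') u' := by
  let O' : ValuationSubring (cl B) := O.comap (algebraMap (cl B) W)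
  obtain ⟨O₂, H⟩ := gau_a_core hu O'
  have hC : ∀ b : O', ((b : cl B) : W) ∈ O₂ ∧
      (O₂.valuation ((b : cl B) : W) < 1 ↔ IsLocalRing.residue O' b = 0) := fun b => by
    have h1 := H (MvPolynomial.C b)
    rw [MvPolynomial.map_C, MvPolynomial.map_C, MvPolynomial.aeval_C, MvPolynomial.C_eq_zero] at h1
    exact h1
  have hE : ∀ a ∈ cl B, a ∈ O₂ ↔ a ∈ O := fun a ha => by
    refine ⟨fun h1 => ?_, fun h1 => (hC ⟨⟨a, ha⟩, h1⟩).1⟩
    by_contra h2
    have h0 : a ≠ 0 := fun h3 => h2 (h3 ▸ zero_mem O)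
    have h3 : a⁻¹ ∈ O := (O.mem_or_inv_mem a).resolve_left h2
    have h4 : IsLocalRing.residue O' ⟨⟨a⁻¹, inv_mem ha⟩, h3⟩ = 0 := by
      rw [IsLocalRing.residue_eq_zero_iff, IsLocalRing.mem_maximalIdeal, mem_nonunits_iff]
      intro h5
      obtain ⟨z, hz⟩ := h5.exists_right_inv
      have h6 : a⁻¹ * ((z : cl B) : W) = 1 := congrArg (fun x : O' => ((x : cl B) : W)) hz
      rw [inv_mul_eq_one₀ h0] at h6
      exact h2 (h6 ▸ z.2)
    have h5 : O₂.valuation a⁻¹ < 1 := (hC _).2.2 h4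
    have h6 := mul_lt_one_of_lt_of_le h5 ((O₂.valuation_le_one_iff a).2 h1)
    rw [← map_mul, inv_mul_cancel₀ h0, map_one] at h6
    exact lt_irrefl _ h6
  have hO₂ : Ov ∅ O₂ := fun a ha => (hE a (cl_mono (empty_subset B) ha)).2 (hO a ha)
  obtain ⟨κ, _, _, _, P, rfl⟩ := exists_pl hO₂
  have hu1 : ∀ i, u i ∈ P.O := fun i => by
    have h1 := (H (MvPolynomial.X i)).1
    rwa [MvPolynomial.map_X, MvPolynomial.aeval_X] at h1
  let u' : τ → κ := fun i => P.r ⟨u i, hu1 i⟩
  have hr : P.RedV u u' := fun i => ⟨hu1 i, rfl⟩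
  let ψ₀ : O' →+* P.O := ((algebraMap (cl B) W).comp O'.subtype).codRestrict P.O fun b => (hC b).1
  have hψ : ∀ b : O', P.Red ((b : cl B) : W) (P.r (ψ₀ b)) := fun b => ⟨(hC b).1, rfl⟩
  let ψ : O' →+* pbda_T P B := (P.r.comp ψ₀).codRestrict (pbda_T P B)
    fun b => ⟨_, (b : cl B).2, hψ b⟩
  have hs : Function.Surjective ψ := by
    rintro ⟨b, a, ha, h⟩
    exact ⟨⟨⟨a, ha⟩, (hE a ha).1 h.1⟩, Subtype.ext ((hψ _).unique h)⟩
  have hT : AlgebraicIndependent (pbda_T P B) u' := by
    refine algebraicIndependent_iff.2 fun p hp => ?_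
    obtain ⟨q, rfl⟩ := MvPolynomial.map_surjective ψ hs p
    have h1 : ∀ q : MvPolynomial τ O', P.Red (MvPolynomial.aeval u (MvPolynomial.map O'.subtype q))
        (MvPolynomial.aeval u' (MvPolynomial.map ψ q)) := fun q => by
      induction q using MvPolynomial.induction_on with
      | C a =>
        rw [MvPolynomial.map_C, MvPolynomial.map_C, MvPolynomial.aeval_C, MvPolynomial.aeval_C]
        exact hψ a
      | add p q hp hq =>
        rw [map_add, map_add, map_add, map_add]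
        exact hp.add hq
      | mul_X p i hp =>
        rw [map_mul, map_mul, map_mul, map_mul, MvPolynomial.map_X, MvPolynomial.map_X,
          MvPolynomial.aeval_X, MvPolynomial.aeval_X]
        exact hp.mul (hr i)
    have h2 := h1 q
    rw [hp, Place.red_zero_iff] at h2
    have h3 := (H q).2.1 h2
    ext s
    have h4 := congrArg (MvPolynomial.coeff s) h3
    rw [MvPolynomial.coeff_map, MvPolynomial.coeff_zero] at h4
    rw [MvPolynomial.coeff_map, MvPolynomial.coeff_zero]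
    exact (hψ _).unique (Place.red_zero_iff.2 ((hC _).2.2 h4))
  refine ⟨κ, inferInstance, inferInstance, inferInstance, P, u', hE,
    pbda_ov hr (hT.restrictScalars (algebraMap ℂ (pbda_T P B)).injective), hr, fun B' hB' => ?_⟩
  have h1 : IntermediateField.adjoin ℂ B' ≤ pbda_T P B := IntermediateField.adjoin_le_iff.2 hB'
  have h2 : AlgebraicIndependent (IntermediateField.adjoin ℂ B') u' :=
    AlgebraicIndependent.of_ringHom_of_comp_eq
      ((algebraMap (IntermediateField.adjoin ℂ B') κ).codRestrict (pbda_T P B) fun a => h1 a.2)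
      (RingHom.id κ) hT (RingHom.injective _) (RingHom.ext fun _ => rfl)
  exact h2.algebraicClosure

theorem aux_con (hS : S.Ok t n m) (hW : Big W) (hG : S.FC n G₀) (hx : S.GenO n ∅ x) (hO : Ov ∅ O)
    {ρ : W} (hp : PV O (S.sc ρ x)) : ∃ (H : Fin S.M → W[X]) (O₂ : ValuationSubring W) (r : W),
      Cn.Cj G₀ H ∧ S.top 2 H = x ∧ r ^ 2 = ρ ∧ Ov (range (cv H 0)) O₂ ∧
        (∀ a ∈ cl (insert ρ (range x)), a ∈ O₂ ↔ a ∈ O) ∧ ∀ a ∈ cf (dil r H), a ∈ O₂ := by
  obtain ⟨H₀, hH₀, ht₀, -⟩ := (exists_con hS hW hG hx).2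
  obtain ⟨θ, hθ, hr⟩ := aut_move hW (finite_range x) (finite_range (cv H₀ 0)) (finite_singleton ρ)
  have hH := cj_map hH₀ θ
  set H : Fin S.M → W[X] := fun i => (H₀ i).map (θ : W →+* W) with eH
  have ht : S.top 2 H = x := funext fun i => by
    have h1 : S.top 2 H i = θ (S.top 2 H₀ i) := coeff_map _ _
    rw [h1, ht₀]
    exact hθ _ (subset_cl _ ⟨i, rfl⟩)
  have e0 : θ '' range (cv H₀ 0) = range (cv H 0) := by
    rw [← range_comp]
    exact congrArg range (funext fun i => (coeff_map (θ : W →+* W) 0).symm)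
  have hF := cj_fc hS hH hG
  have hg := (hF.spec hS).2.1
  rw [ht] at hg
  have eB : range x ∪ {ρ} = insert ρ (range x) := union_singleton
  have hB : (insert ρ (range x)).Finite := (finite_range x).insert ρ
  have h1 : rk (insert ρ (range x)) + (2 * n + 2) ≤
      rk (insert ρ (range x) ∪ range (cv H 0)) := by
    have h2 := hg.2.2
    rw [e0, eB, union_singleton, ← insert_union] at hr
    omega
  obtain ⟨u, hu0, hu⟩ := (rel_iff_rk hB (finite_range _)).2 h1
  have hu2 : range (cv H 0) ⊆ cl (range u) := by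
    refine sub_cl_of_rk (finite_range u) (finite_range _) ?_
    have h2 := (indep_iff_rk (finite_range u)).1 ⟨u, fun j => mem_range_self j,
      hu.restrictScalars (algebraMap ℂ (cl (insert ρ (range x)))).injective⟩
    have h3 := rk_on hS hg.2.1
    have h4 : rk (range u ∪ range (cv H 0)) ≤ rk (range (cv H 0)) :=
      rk_mono (finite_range _) (union_subset (range_subset_iff.2 fun j => subset_cl _ (hu0 j))
        (subset_cl _))
    omega
  obtain ⟨κ, _, _, _, P, u', hE, hv, hru, hi⟩ := pbda_gauss hu hO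
  have hv0 : Ov (range (cv H 0)) P.O := hv.mono hu2
  obtain ⟨l, hl⟩ := hp.2
  have hρ : ρ ≠ 0 := by
    rintro rfl
    simp [Cn.sc, (hS.wpos l).ne'] at hl
  obtain ⟨r, rfl⟩ := IsAlgClosed.exists_pow_nat_eq ρ two_pos
  have hr0 : r ≠ 0 := fun e => hρ (by rw [e, zero_pow two_ne_zero])
  obtain ⟨hL, hc, htp, -⟩ := hF.1.dil hr0
  rw [ht] at htp
  have hm : ∀ i, S.sc (r ^ 2) x i ∈ cl (insert (r ^ 2) (range x)) := fun i =>
    mul_mem (pow_mem (subset_cl _ (mem_insert _ _)) _) (subset_cl _ (Or.inr ⟨i, rfl⟩))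
  choose x' hx' using fun i => Place.exists_red (P := P) ((P.O.valuation_le_one_iff _).2
    (hv0 _ (subset_cl _ (mem_range_self i))))
  choose y' hy' using fun i => Place.exists_red (P := P) ((P.O.valuation_le_one_iff _).2
    ((hE _ (hm i)).2 (hp.1 i)))
  have hy0 : y' ≠ 0 := fun e => (hy' l).ne_zero (le_antisymm (hy' l).val_le (by
    have h2 := (gauss_val hE (one_mem _) (hm l)).2 (by rw [hl, map_one])
    rwa [map_one] at h2)) (congrFun e l)
  have h2 := (ai_iff_rk (finite_range y') u').1 (hi (range y') (by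
    rintro _ ⟨i, rfl⟩
    exact ⟨_, hm i, hy' i⟩))
  rw [Fintype.card_fin] at h2
  have h3 : rk (range y' ∪ range u') ≤ rk (range y' ∪ range x') := by
    refine rk_mono ((finite_range _).union (finite_range _))
      ((union_subset_union_right _ ?_).trans (subset_cl _))
    rintro _ ⟨j, rfl⟩
    obtain ⟨i, e⟩ := hu0 j
    exact ⟨i, (hx' i).unique (e ▸ hru j)⟩
  have hon : S.On x' := red_on P hg.2.1 hx'
  have hx0 : x' ≠ 0 := by
    rintro rfl
    have h4 : rk (range y' ∪ range (0 : Fin S.M → κ)) ≤ rk (range y') :=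
      rk_mono (finite_range _) (union_subset (subset_cl _) (by
        rintro _ ⟨i, rfl⟩
        exact zero_mem _))
    omega
  obtain ⟨j, hj⟩ := Function.ne_iff.1 (e0_ne hS hon hx0)
  have hf : (range y' ∪ pj (x' ∘ S.e0)).Finite := (finite_range _).union (pj_finite _)
  have h4 : rk (range y' ∪ range x') ≤ rk (insert ((x' ∘ S.e0) j) (range y' ∪ pj (x' ∘ S.e0))) := by
    refine rk_mono (hf.insert _) (union_subset (fun a ha => subset_cl _ (Or.inr (Or.inl ha))) ?_)
    exact (sub_cl_e0 hS hon).trans (cl_le ((range_sub hj).trans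
      (cl_mono (insert_subset_insert subset_union_right))))
  have h5 := rk_insert_le hf ((x' ∘ S.e0) j)
  obtain ⟨G', hG', -⟩ := good_red hS hL P (x' := x') (y' := y') (by rw [hc]; exact hx')
    (by rw [htp]; exact hy') hy0 (finite_range y') ((pj_sub _).trans (cl_mono (by
      rintro _ ⟨i, rfl⟩
      exact ⟨_, rfl⟩))) (by omega)
  refine ⟨H, P.O, r, hH, ht, rfl, hv0, hE, ?_⟩
  rintro _ ⟨i, j, rfl⟩
  exact (hG' i j).1

end Vale.Agent.P292
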