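import Vale.Agent.P292.P.Jet
import Vale.Agent.P292.P.Pol
import Vale.Agent.P292.P.BddA
import Vale.Agent.P276.E.Fix

/-! P292 P/Bdd. Boundedness. Helper names start with `pbd_`.
`aux_con`: `exists_con` gives `H` with top `x`; move it over `range x` so that `cv H 0` is generic over
`B = insert ρ (range x)` (`aut_move`); Gauss extension of `O ∩ cl B` along a transcendence basis of `cv H 0`
(`gau_a_core`): the residues of the basis stay independent over the residue field of `cl B`; `exists_pl`, then `good_red` for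
`dil r H`, whose top is `sc ρ x`. `bdd_le`: let `θ` move `x` to `x₀ = cv H 0`, and let `g i` be the images under `θ` of the finitely many conjugates of
`f` over the field generated by `x` (all `Pol`, `Pol.map`). With `η` from `jet`, `η ∘ θ` fixes `x` and permutes the conjugates,
so `f = η (g i) = ∑ c l * hI l (g i)` for some `i`; `hI l (g i) ∈ cl (range x₀) ⊆ O₂`. -/

open Polynomial Set Matrix

noncomputable section

namespace Vale.Agent.P292

open Vale.Agent.P271 Vale.Agent.P276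

variable {K : Type} [Field K] [Algebra ℂ K] {N n m : ℕ} {t : Fin (N + 1) → K} {S : Cn K N}
  {W : Type} [Field W] [Algebra ℂ W]

variable [IsAlgClosed W] {δ k : ℕ} {G G₀ H : Fin S.M → W[X]} {O : ValuationSubring W}
  {A B Y : Set W} {x : Fin S.M → W} {f g σ : W} {𝓕 : (Fin S.M → W[X]) → Prop}

omit [IsAlgClosed W] in
theorem pbd_fx (θ : W ≃ₐ[ℂ] W) : Fx (cl (∅ : Set W)) θ := by
  intro a ha
  have h1 : IsAlgebraic (IntermediateField.adjoin ℂ (∅ : Set W)) a := mem_algebraicClosure_iff.1 ha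
  have : Algebra.IsAlgebraic ℂ (IntermediateField.adjoin ℂ (∅ : Set W)) := by
    rw [IntermediateField.adjoin_empty]
    infer_instance
  have h2 : IsAlgebraic ℂ a := h1.restrictScalars ℂ
  obtain ⟨c, rfl⟩ := minpoly.mem_range_of_degree_eq_one ℂ a
    (IsAlgClosed.degree_eq_one_of_irreducible ℂ (minpoly.irreducible h2.isIntegral))
  exact θ.commutes c

omit [IsAlgClosed W] in
theorem pbd_fin (hf : f ∈ cl A) : {g | ∃ φ : W ≃ₐ[ℂ] W, Fx A φ ∧ g = φ f}.Finite := by
  obtain ⟨p, hp0, hp⟩ : IsAlgebraic (IntermediateField.adjoin ℂ A) f :=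
    mem_algebraicClosure_iff.1 hf
  refine (rootSet_finite p W).subset ?_
  rintro _ ⟨φ, hφ, rfl⟩
  rw [mem_rootSet]
  exact ⟨hp0, by rw [← fix_aeval hφ, hp, map_zero]⟩

theorem bdd_le (hS : S.Ok t n m) (hW : Big W) (hG : S.FC n G₀) (hx : S.GenO n ∅ x) (hO : Ov ∅ O)
    {ρ : W} (hp : PV O (S.sc ρ x)) (hf : S.Pol (Cn.Cj G₀) 2 ∅ x k f) : ρ ^ k * f ∈ O := by
  obtain ⟨H, O₂, r, hH, htop, hr, hO₂, hiff, hint⟩ := aux_con hS hW hG hx hO hp
  have hx₀ : S.GenO n ∅ (cv H 0) :=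
    ((cj_fc hS hH hG).spec hS).2.1.mono hS finite_empty (empty_subset _)
  obtain ⟨θ, hθ0, hθ⟩ := aut_ext hW finite_empty (hx.sp hS hx₀.2.1) (hx₀.sp hS hx.2.1)
  have hfc : f ∈ cl (range x) := by
    have := hf.1.1
    rwa [empty_union] at this
  have hT := pbd_fin hfc
  have : Fintype {g | ∃ φ : W ≃ₐ[ℂ] W, Fx (range x) φ ∧ g = φ f} := hT.fintype
  have hcj : ∀ G (θ : W ≃ₐ[ℂ] W), Cn.Cj G₀ G → Cn.Cj G₀ fun i => (G i).map (θ : W →+* W) :=
    fun G θ h => cj_map h θ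
  have hpol : ∀ i : {g | ∃ φ : W ≃ₐ[ℂ] W, Fx (range x) φ ∧ g = φ f},
      S.Pol (Cn.Cj G₀) 2 ∅ (cv H 0) k (θ i.1) := by
    rintro ⟨_, φ, hφ, rfl⟩
    have h1 := (hf.map hS hx hcj φ (pbd_fx φ)).2
    rw [show (fun i => φ (x i)) = x from funext fun i => hφ _ ⟨i, rfl⟩] at h1
    have h2 := (h1.map hS hx hcj θ hθ0).2
    rwa [show (fun i => θ (x i)) = cv H 0 from funext hθ] at h2
  obtain ⟨Λ, c, -, hc, hj⟩ := jet hS hW hG hH finite_empty
    (by rw [empty_union, show rk (∅ : Set W) = 0 by simp [rk], zero_add]) k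
  obtain ⟨η, -, hη, hs⟩ := hj _ _ hpol
  have hψ : Fx (range x) (θ.trans η).symm := by
    rintro _ ⟨i, rfl⟩
    rw [AlgEquiv.symm_apply_eq, AlgEquiv.trans_apply, hθ, hη, htop]
  have h1 := hs ⟨_, (θ.trans η).symm, hψ, rfl⟩
  have h2 : η (θ ((θ.trans η).symm f)) = f := (θ.trans η).apply_symm_apply f
  have h3 : ρ ^ k * f ∈ O₂ := by
    rw [← h2, h1, Finset.mul_sum, ← hr, ← pow_mul]
    refine sum_mem fun l _ => ?_
    rw [← mul_assoc]
    refine mul_mem (hc O₂ hO₂ r hint l) (hO₂ _ ?_)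
    have h4 := hI_mem hS hx₀ (hpol ⟨_, (θ.trans η).symm, hψ, rfl⟩).1.1 l
    rwa [empty_union] at h4
  refine (hiff _ (mul_mem (pow_mem (subset_cl _ (mem_insert _ _)) k) ?_)).1 h3
  exact cl_mono (subset_insert _ _) hfc

end Vale.Agent.P292
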