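import Vale.Agent.P292.P.Fam

/-! P292 P/HA (split from P/H). The function `h = A ^ 2`. Helper names start with `pha_`.
`vec_h`: `con_rigid`, `dA` for derivations killing `Y`, `der_eq_om`, `om_nondeg`, `dv_spec`.
`h_line`: with `D` of `Thru.spec`, `D h = om x G'(σ) (A • cv H 1)` is integral at every valuation ring over
`Y ∪ cf G`: if `σ ∈ O` by `pv_ev`, `xi_int`, `om_int`; otherwise use the conic `scP ρ (dil r H)`, `ρ = σ⁻¹`,
`ρ r ^ 2 = 1`, which has the same top, and `om_sc`. So `D h ∈ cl (Y ∪ cf G)` (`mem_cl_of_val`), `D^[2] h = 0`. -/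

open Polynomial Set Matrix

noncomputable section

namespace Vale.Agent.P292

open Vale.Agent.P271 Vale.Agent.P276

variable {K : Type} [Field K] [Algebra ℂ K] {N n m : ℕ} {t : Fin (N + 1) → K} {S : Cn K N}
  {W : Type} [Field W] [Algebra ℂ W]

variable [IsAlgClosed W] {δ k : ℕ} {G G₀ H : Fin S.M → W[X]} {O : ValuationSubring W}
  {A B Y : Set W} {x : Fin S.M → W} {f g σ : W} {𝓕 : (Fin S.M → W[X]) → Prop}

theorem vec_h (hS : S.Ok t n m) (h : S.LC 2 H) (h0 : S.Av H ≠ 0) (hx : S.GenO n Y (cv H 0))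
    (hy : range (S.top 2 H) ⊆ cl Y) : cf H ⊆ cl (Y ∪ range (cv H 0)) ∧
      S.Av H ∈ cl (Y ∪ range (cv H 0)) ∧
      (2 : W) • S.vec Y (cv H 0) (S.Av H) = cv H 1 ∧
      S.vec Y (cv H 0) (S.Av H ^ 2) = S.Av H • cv H 1 ∧ S.Wt Y (cv H 0) 1 (S.Av H ^ 2) := by
  have := charZero_of_injective_algebraMap (algebraMap ℂ W).injective
  obtain ⟨hon, hne, ht⟩ := h.cv_on
  have h1 : cf H ⊆ cl (Y ∪ range (cv H 0)) := by
    refine (con_rigid hS h h0).trans (cl_le (union_subset ?_ ?_))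
    · exact subset_union_right.trans (subset_cl _)
    · exact hy.trans (cl_mono subset_union_left)
  have h2 : S.Av H ∈ cl (Y ∪ range (cv H 0)) := cl_le h1 (av_sc hS h one_ne_zero).2.2
  have h3 : ∀ v, S.Tan (cv H 0) v →
      2 * S.dv Y (cv H 0) v (S.Av H) = S.om (cv H 0) v (cv H 1) := by
    intro v hv
    obtain ⟨a1, a2⟩ := dv_spec hS hx hv
    have a3 := dA hS h (S.dv Y (cv H 0) v)
    have e1 : (fun i => S.dv Y (cv H 0) v (cv H 0 i)) = v := funext a2
    have e2 : (fun i => S.dv Y (cv H 0) v (S.top 2 H i)) =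
        (0 : W) • (0 : Fin S.M → W) + (0 : W) • (0 : Fin S.M → W) := by
      rw [zero_smul, add_zero]
      exact funext fun i => a1 _ (hy (mem_range_self i))
    rw [e1, e2, om_left, zero_mul, add_zero, sub_zero] at a3
    exact a3
  have h4 : (2 : W) • S.vec Y (cv H 0) (S.Av H) = cv H 1 := by
    have b1 := (vec_tan hS hx h2).1
    have b2 : S.Tan (cv H 0) ((2 : W) • S.vec Y (cv H 0) (S.Av H) + (-1 : W) • cv H 1) :=
      (S.TanS (cv H 0)).add_mem ((S.TanS (cv H 0)).smul_mem 2 b1)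
        ((S.TanS (cv H 0)).smul_mem (-1) ht)
    have b3 := om_nondeg hS hon hne b2 fun v hv => by
      obtain ⟨a1, a2⟩ := dv_spec hS hx hv
      have a3 := der_eq_om hS hx a1 h2
      rw [show (fun j => S.dv Y (cv H 0) v (cv H 0 j)) = v from funext a2] at a3
      rw [om_right hS hon hne hv b1 ht, ← a3, h3 v hv]
      ring
    rw [neg_one_smul, ← sub_eq_add_neg, sub_eq_zero] at b3
    exact b3
  refine ⟨h1, h2, h4, funext fun i => ?_, pow_mem h2 2, ?_⟩
  · rw [← h4]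
    change S.dv Y (cv H 0) (S.pm (cv H 0) i) (S.Av H ^ 2) =
      S.Av H * (2 * S.dv Y (cv H 0) (S.pm (cv H 0) i) (S.Av H))
    rw [sq, Derivation.leibniz, smul_eq_mul]
    ring
  · have a1 : 2 * S.dv Y (cv H 0) (S.eu (cv H 0)) (S.Av H) = S.Av H := h3 _ hon.eu
    rw [sq, Derivation.leibniz, smul_eq_mul, Nat.cast_one]
    linear_combination S.Av H * a1

end Vale.Agent.P292
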