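import Vale.Agent.P292.P.Fam
import Vale.Agent.P292.P.HA

/-! P292 P/H. The function `h = A ^ 2`. Helper names start with `ph_`.
`vec_h`: `con_rigid`, `dA` for derivations killing `Y`, `der_eq_om`, `om_nondeg`, `dv_spec`.
`h_line`: with `D` of `Thru.spec`, `D h = om x G'(σ) (A • cv H 1)` is integral at every valuation ring over
`Y ∪ cf G`: if `σ ∈ O` by `pv_ev`, `xi_int`, `om_int`; otherwise use the conic `scP ρ (dil r H)`, `ρ = σ⁻¹`,
`ρ r ^ 2 = 1`, which has the same top, and `om_sc`. So `D h ∈ cl (Y ∪ cf G)` (`mem_cl_of_val`), `D^[2] h = 0`. -/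

open Polynomial Set Matrix

noncomputable section

namespace Vale.Agent.P292

open Vale.Agent.P271 Vale.Agent.P276

variable {K : Type} [Field K] [Algebra ℂ K] {N n m : ℕ} {t : Fin (N + 1) → K} {S : Cn K N}
  {W : Type} [Field W] [Algebra ℂ W]

variable [IsAlgClosed W] {δ k : ℕ} {G G₀ H : Fin S.M → W[X]} {O : ValuationSubring W}
  {A B Y : Set W} {x : Fin S.M → W} {f g σ : W} {𝓕 : (Fin S.M → W[X]) → Prop}

omit [IsAlgClosed W] in
theorem ph_ev_mem {p : W[X]} (M : Subring W) (hp : ∀ j, p.coeff j ∈ M) (hs : σ ∈ M) :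
    p.eval σ ∈ M := by
  rw [eval_eq_sum_range]
  exact M.sum_mem fun j _ => M.mul_mem (hp j) (M.pow_mem hs j)

theorem ph_int (hS : S.Ok t n m) (h : S.LC 2 H) (hG : S.LC 1 G) (hxe : S.ev G σ = cv H 0)
    (hy : range (S.top 2 H) ⊆ cl Y) {v : Fin S.M → W} (hv : S.Tan (cv H 0) v)
    (hv' : ∀ i, v i = (derivative (G i)).eval σ) (hO : Ov (Y ∪ cf G) O) :
    S.om (cv H 0) v (S.Av H • cv H 1) ∈ O := by
  have hOG : Ov (cf G) O := hO.mono (subset_union_right.trans (subset_cl _))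
  have hOY : Ov Y O := hO.mono (subset_union_left.trans (subset_cl _))
  obtain ⟨hon, hne, htan⟩ := h.cv_on
  have ht2 : S.Tan (cv H 0) (S.Av H • cv H 1) := (S.TanS (cv H 0)).smul_mem _ htan
  have hty : PV O (S.top 2 H) := hOY.pv hy h.top
  obtain ⟨p1, p2⟩ := pv_ev (s := σ) hG hOG
  by_cases hs : σ ∈ O
  · have hp : PV O (cv H 0) := hxe ▸ p1 hs
    refine om_int hS hO.empty hon hp hv ht2 (fun i => ?_) (xi_int hS h hO.empty hp hty).2
    rw [hv' i]
    refine ph_ev_mem O.toSubring (fun j => ?_) hs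
    rw [coeff_derivative]
    refine O.toSubring.mul_mem (hOG _ (subset_cl _ ⟨i, _, rfl⟩)) ?_
    exact O.toSubring.add_mem (natCast_mem O.toSubring j) O.toSubring.one_mem
  · obtain ⟨q1, q2⟩ := p2 hs
    have hs0 : σ ≠ 0 := by
      rintro rfl
      exact hs O.zero_mem
    rw [pow_one, hxe] at q1
    simp only [pow_one] at q2
    obtain ⟨r, hr⟩ := IsAlgClosed.exists_pow_nat_eq σ two_pos
    have hr0 : r ≠ 0 := by
      rintro rfl
      exact hs0 (by rw [← hr]; simp)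
    have hρ : σ⁻¹ ≠ 0 := inv_ne_zero hs0
    obtain ⟨d1, d2, d3, d4, -⟩ := h.dil hr0
    obtain ⟨s1, s2, s3, -⟩ := d1.scP hρ
    have e0 : cv (S.scP σ⁻¹ (dil r H)) 0 = S.sc σ⁻¹ (cv H 0) := by rw [s2, d2]
    have e1 : S.top 2 (S.scP σ⁻¹ (dil r H)) = S.top 2 H := by
      rw [s3, d3, hr]
      funext i
      simp only [Cn.sc]
      rw [← mul_assoc, ← mul_pow, inv_mul_cancel₀ hs0, one_pow, one_mul]
    have e2 : S.Av (S.scP σ⁻¹ (dil r H)) = σ⁻¹ * (r * S.Av H) := by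
      rw [(av_sc hS d1 hρ).2.1, (av_sc hS h hr0).1]
    have e3 := (xi_int hS s1 hO.empty (e0 ▸ q1) (e1 ▸ hty)).2
    have e4 : ∀ i, S.sc σ⁻¹ (S.Av H • cv H 1) i ∈ O := by
      intro i
      have e5 : (S.scP σ⁻¹ (dil r H) i).coeff 1 = σ⁻¹ ^ S.w i * (r * cv H 1 i) := by
        have := congrFun (s2 1) i
        rw [d4] at this
        exact this
      have e6 := e3 i
      rw [e2, e5] at e6
      have e7 : σ⁻¹ * (r * S.Av H) * (σ⁻¹ ^ S.w i * (r * cv H 1 i)) =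
          S.sc σ⁻¹ (S.Av H • cv H 1) i := by
        have e8 : σ⁻¹ * r ^ 2 = 1 := by rw [hr, inv_mul_cancel₀ hs0]
        simp only [Cn.sc, Pi.smul_apply, smul_eq_mul]
        linear_combination (S.Av H * σ⁻¹ ^ S.w i * cv H 1 i) * e8
      exact e7 ▸ e6
    have hv2 : S.Tan (cv H 0) (σ • v) := (S.TanS (cv H 0)).smul_mem _ hv
    have e9 := om_int hS hO.empty (hon.sc σ⁻¹) q1 (hv2.sc σ⁻¹) (ht2.sc σ⁻¹) (fun i => ?_) e4
    · rw [om_sc hS hon hne hv2 ht2 hρ] at e9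
      have e10 := om_left (S := S) (cv H 0) v v (S.Av H • cv H 1) σ 0
      rw [zero_smul, add_zero, zero_mul, add_zero] at e10
      rwa [e10, ← mul_assoc, inv_mul_cancel₀ hs0, one_mul] at e9
    · have e11 : S.sc σ⁻¹ (σ • v) i = σ * σ⁻¹ ^ S.w i * (derivative (G i)).eval σ := by
        simp only [Cn.sc, Pi.smul_apply, smul_eq_mul, hv' i]
        ring
      exact e11 ▸ q2 i

theorem h_line (hS : S.Ok t n m) (h : S.LC 2 H) (h0 : S.Av H ≠ 0) (hx : S.GenO n Y (cv H 0))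
    (hy : range (S.top 2 H) ⊆ cl Y) : S.Pol (S.FL n) 1 Y (cv H 0) 1 (S.Av H ^ 2) := by
  obtain ⟨-, -, -, h4, h5⟩ := vec_h hS h h0 hx hy
  refine ⟨h5, fun G σ hG hT => ?_⟩
  obtain ⟨-, -, D, hD0, -, hDx, -, hP⟩ := hT.spec hx.1
  have hxe : S.ev G σ = cv H 0 := hT.1
  have hsub : Y ∪ range (cv H 0) ⊆ cl (insert σ (Y ∪ cf G)) := by
    rintro a (ha | ⟨i, rfl⟩)
    · exact subset_cl _ (Or.inr (Or.inl ha))
    · rw [← hxe]
      exact ph_ev_mem (cl (insert σ (Y ∪ cf G))).toSubring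
        (fun j => subset_cl _ (Or.inr (Or.inr ⟨i, j, rfl⟩))) (subset_cl _ (Or.inl rfl))
  refine hP (1 * 1) _ (cl_le hsub h5.1) ?_
  have hDY : ∀ a ∈ cl Y, D a = 0 := fun a ha => hD0 a (cl_mono subset_union_left ha)
  have key : D (S.Av H ^ 2) ∈ cl (Y ∪ cf G) := mem_cl_of_val fun O hO => by
    rw [der_eq_om hS hx hDY h5.1, h4]
    exact ph_int hS h hG.1 hxe hy (h.cv_on.1.der D) hDx hO
  exact hD0 _ key

end Vale.Agent.P292
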