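import Vale.Agent.P292.P.Eta
import Vale.Agent.P292.P.H
import Vale.Agent.P292.P.Pol

/-! P292 P/Flow. The flow of `h`. Helper names start with `pfl_`.
`Y = range (top 2 H)`, `σ` fresh, `G = sh (-σ) H`, `D` of `Thru.spec` (for the empty set; it kills `cf G ⊇ Y` and
`Av H = Av G`). For `g ∈ cl (Y ∪ range x)`: `pb Y x h g = A * D g` (`vec_h`, `der_eq_om`, `dv_eq`), so
`(pb Y x h)^[j] g = A ^ j * D^[j] g`. Apply to `f i = (q i)(σ)` and to `x j = (G j)(σ)`; `η` from `exists_eta`. -/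

open Polynomial Set Matrix

noncomputable section

namespace Vale.Agent.P292

open Vale.Agent.P271 Vale.Agent.P276

variable {K : Type} [Field K] [Algebra ℂ K] {N n m : ℕ} {t : Fin (N + 1) → K} {S : Cn K N}
  {W : Type} [Field W] [Algebra ℂ W]

variable [IsAlgClosed W] {δ k : ℕ} {G G₀ H : Fin S.M → W[X]} {O : ValuationSubring W}
  {A B Y : Set W} {x : Fin S.M → W} {f g σ : W} {𝓕 : (Fin S.M → W[X]) → Prop}

omit [IsAlgClosed W] in
theorem pfl_ev {D : Derivation ℂ W W} (hσ : D σ = 1) {q : W[X]} (hq : ∀ i, D (q.coeff i) = 0) :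
    D (q.eval σ) = (derivative q).eval σ := by
  rw [derivative_eval, eval_eq_sum, Polynomial.sum, Polynomial.sum, map_sum]
  refine Finset.sum_congr rfl fun i _ => ?_
  rw [Derivation.leibniz, Derivation.leibniz_pow, hq, hσ]
  simp only [smul_eq_mul, nsmul_eq_mul]
  ring

omit [IsAlgClosed W] in
theorem pfl_it {D : Derivation ℂ W W} (hσ : D σ = 1) (j : ℕ) {q : W[X]}
    (hq : ∀ i, D (q.coeff i) = 0) : D^[j] (q.eval σ) = (derivative^[j] q).eval σ := by
  induction j generalizing q with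
  | zero => rfl
  | succ j ih =>
    rw [Function.iterate_succ_apply, Function.iterate_succ_apply, pfl_ev hσ hq]
    refine ih fun i => ?_
    rw [coeff_derivative, Derivation.leibniz, hq, ← Nat.cast_succ, Derivation.map_natCast,
      smul_zero, smul_zero, add_zero]

omit [IsAlgClosed W] in
theorem pfl_top {D : Derivation ℂ W W} (hσ : D σ = 1) {j : ℕ} {q : W[X]}
    (hq : ∀ i, D (q.coeff i) = 0) (hd : q.natDegree ≤ j) :
    D^[j] (q.eval σ) = (j.factorial : W) * q.coeff j := by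
  rw [pfl_it hσ j hq, eq_C_of_natDegree_le_zero
    ((natDegree_iterate_derivative q j).trans (Nat.sub_eq_zero_of_le hd).le), eval_C,
    coeff_iterate_derivative, zero_add, Nat.descFactorial_self, nsmul_eq_mul]

omit [IsAlgClosed W] in
theorem pfl_pb (hS : S.Ok t n m) (hx : S.GenO n Y x) (hf : f ∈ cl (Y ∪ range x))
    {D : Derivation ℂ W W} (hD : ∀ a ∈ cl Y, D a = 0) {a : W} (ha : D a = 0)
    (hv : S.vec Y x f = fun j => a * D (x j)) (hg : g ∈ cl (Y ∪ range x)) (j : ℕ) :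
    (S.pb Y x f)^[j] g ∈ cl (Y ∪ range x) ∧ (S.pb Y x f)^[j] g = a ^ j * D^[j] g := by
  induction j with
  | zero => exact ⟨hg, by rw [pow_zero, one_mul]; rfl⟩
  | succ j ih =>
    rw [Function.iterate_succ_apply', Function.iterate_succ_apply']
    refine ⟨(pb_om hS hx hf ih.1).2, ?_⟩
    have e := dv_eq hS hx (D := a • D)
      (fun b hb => by rw [Derivation.smul_apply, hD b hb, smul_zero]) ih.1
    rw [Cn.pb, hv]
    refine e.symm.trans ?_
    rw [Derivation.smul_apply, ih.2, Derivation.leibniz, Derivation.leibniz_pow, ha, smul_zero,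
      smul_zero, smul_zero, add_zero, smul_eq_mul, smul_eq_mul, pow_succ', mul_assoc]

theorem flow (hS : S.Ok t n m) (hW : Big W) (hG : S.FC n G₀) (h : Cn.Cj G₀ H) {ι : Type} [Fintype ι]
    {f : ι → W} (hf : ∀ i, S.Pol (Cn.Cj G₀) 2 ∅ (cv H 0) 1 (f i)) :
    ∃ η : W ≃ₐ[ℂ] W, (∀ j, η (cv H 0 j) = S.top 2 H j) ∧
      (∀ i, (S.pb (range (S.top 2 H)) (cv H 0) (S.Av H ^ 2))^[2] (f i) =
        2 * η (f i) * S.Av H ^ 2) ∧
      ∀ j, (S.pb (range (S.top 2 H)) (cv H 0) (S.Av H ^ 2))^[2 * S.w j] (cv H 0 j) =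
        ((2 * S.w j).factorial : W) * (S.Av H ^ 2) ^ S.w j * S.top 2 H j := by
  have hH := cj_fc hS h hG
  obtain ⟨-, hx, hy, -⟩ := hH.spec hS
  obtain ⟨-, hA, -, hv, -⟩ := vec_h hS hH.1 hH.2.1 hx (subset_cl _)
  obtain ⟨σ, hσ⟩ := exists_fresh hW (finite_empty.union (cf_finite H))
  have r0 : rk (∅ : Set W) = 0 := by
    rw [rk, Matroid.eRk_empty, ENat.toNat_zero]
  obtain ⟨hc, ht⟩ := cj_shift hS hW hG h finite_empty (by rw [r0, zero_add, empty_union]) hσ
  obtain ⟨-, -, D, hD, h1, h2, -⟩ := ht.spec finite_empty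
  obtain ⟨hL, -, e1, -⟩ := hH.1.sh (-σ)
  have hcf : ∀ i l, D ((S.sh (-σ) H i).coeff l) = 0 := fun i l =>
    hD _ (subset_cl _ (Or.inr ⟨i, l, rfl⟩))
  have hDA : D (S.Av H) = 0 := by
    rw [← (av_con hS hH.1).2 (-σ)]
    exact hD _ (cl_mono subset_union_right (av_sc hS hL one_ne_zero).2.2)
  have hDY : ∀ a ∈ cl (range (S.top 2 H)), D a = 0 := fun a ha => hD a (cl_mono (by
    rw [← e1]
    rintro _ ⟨i, rfl⟩
    exact Or.inr ⟨i, _, rfl⟩) ha)
  have hv' : S.vec (range (S.top 2 H)) (cv H 0) (S.Av H ^ 2) = fun j => S.Av H * D (cv H 0 j) := by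
    rw [hv]
    funext j
    rw [h2, ← taylor_coeff_one, Cn.sh, taylor_taylor, add_neg_cancel, taylor_zero]
    rfl
  have key := fun g hg j => (pfl_pb hS hx (pow_mem hA 2) hDY hDA hv' (g := g) hg j).2
  choose q q1 q2 q3 using fun i => (hf i).2 _ σ hc ht
  obtain ⟨η, -, k1, k2⟩ := exists_eta hS hW (hx.mono hS finite_empty (empty_subset _)) hL ht
    (by rw [e1]; exact hy.mono hS finite_empty (empty_subset _)) (fun i => (hf i).1) q1 q2 q3
  refine ⟨η, fun j => by rw [k1, e1], fun i => ?_, fun j => ?_⟩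
  · rw [key _ (cl_mono (union_subset_union_left _ (empty_subset _)) (hf i).1.1), k2]
    conv_lhs => rw [q3 i]
    rw [pfl_top h1 (fun l => hD _ (q2 i l)) (q1 i), Nat.factorial_two, Nat.cast_ofNat]
    ring
  · rw [key _ (subset_cl _ (Or.inr ⟨j, rfl⟩)), ← e1]
    conv_lhs => rw [← ht.1]
    rw [Cn.ev, pfl_top h1 (hcf j) (hL.deg j), pow_mul, Cn.top]
    ring

end Vale.Agent.P292
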