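import Vale.Agent.P292.P.H
import Vale.Agent.P292.P.Pol

/-! P292 P/SpanA (split from P/Span). The Hamiltonian vectors span. Helper names start with `pspa_`.
`jet_span`: for `D₁, D₂` killing `x = cv H 0` write `cD D H = X * v`; `om_poly` with `a = b = 1` shows that
`om x (D₁ H₁) (D₂ H₁)` is the constant `om y (D₁ y) (D₂ y)` (use `rev`, or evaluate at a large parameter and scale);
the `D y` span the tangent space at `y = top 2 H` (`li_der`), so the Gram matrix is invertible.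
`vec_span`: `A • H₁ = vec Y x (a ⬝ᵥ f) = ∑ a i • vec ∅ x (f i)` (`vec_h`, `vec_lin`, `dv_mono`); the span `V` of vectors with
entries in `cl (range x)` is stable under derivations killing `x`. -/

open Polynomial Set Matrix

noncomputable section

namespace Vale.Agent.P292

open Vale.Agent.P271 Vale.Agent.P276

variable {K : Type} [Field K] [Algebra ℂ K] {N n m : ℕ} {t : Fin (N + 1) → K} {S : Cn K N}
  {W : Type} [Field W] [Algebra ℂ W]

variable [IsAlgClosed W] {δ k : ℕ} {G G₀ H : Fin S.M → W[X]} {O : ValuationSubring W}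
  {A B Y : Set W} {x : Fin S.M → W} {f g σ : W} {𝓕 : (Fin S.M → W[X]) → Prop}

theorem pspa_span (hS : S.Ok t n m) (h : S.On x) (h0 : x ≠ 0) {a : Fin (2 * n + 2) → Fin S.M → W}
    (ha : ∀ i, S.Tan x (a i)) (hi : LinearIndependent W a) {v : Fin S.M → W} (hv : S.Tan x v) :
    v ∈ Submodule.span W (range a) := by
  have h1 : Submodule.span W (range a) = S.TanS x :=
    Submodule.eq_of_le_of_finrank_eq (Submodule.span_le.2 (range_subset_iff.2 ha))
      (by rw [finrank_span_eq_card hi, hS.dim W x h h0, Fintype.card_fin])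
  rw [h1]
  exact hv

theorem pspa_div (h : S.LC 2 H) {D : Derivation ℂ W W} (hD : ∀ i, D (cv H 0 i) = 0) :
    S.Tan H (fun i => divX (S.cD D H i)) ∧
      (∀ i (k : ℕ), ((2 : ℕ) * S.w i : ℤ) < k + 1 → (divX (S.cD D H i)).coeff k = 0) ∧
      (S.ev (fun i => divX (S.cD D H i)) 0 = fun i => D (cv H 1 i)) ∧
      (S.ev (S.cD D (S.rev 2 H)) 0 = fun i => D (S.top 2 H i)) ∧
      ∀ s : W, s ≠ 0 → S.ev (S.cD D (S.rev 2 H)) s =
        S.sc (s ^ 2) (s⁻¹ • S.ev (fun i => divX (S.cD D H i)) s⁻¹) := by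
  have h1 : ∀ i, X * divX (S.cD D H i) = S.cD D H i := fun i => by
    have h2 := X_mul_divX_add (S.cD D H i)
    rwa [cD_coeff, show D ((H i).coeff 0) = 0 from hD i, C_0, add_zero] at h2
  refine ⟨fun k P hP h0 => ?_, fun i k hk => ?_, funext fun i => ?_, funext fun i => ?_,
    fun s hs => ?_⟩
  · refine mul_left_cancel₀ X_ne_zero ?_
    rw [mul_zero, ← cD_tan h.on D k P hP h0, Finset.mul_sum]
    exact Finset.sum_congr rfl fun i _ => by rw [mul_left_comm, h1]
  · rw [coeff_divX, cD_coeff, coeff_eq_zero_of_natDegree_lt ((h.deg i).trans_lt (by omega)),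
      map_zero]
  · rw [Cn.ev, ← coeff_zero_eq_eval_zero, coeff_divX, cD_coeff]
    rfl
  · rw [Cn.ev, ← coeff_zero_eq_eval_zero, cD_coeff, ← h.rev.2.1]
    rfl
  · rw [cD_rev, ev_rev (fun i => (cD_deg D H i).trans (h.deg i)) hs]
    refine congrArg _ (funext fun i => ?_)
    rw [Cn.ev, ← h1 i, eval_mul, eval_X]
    rfl

theorem pspa_om (hS : S.Ok t n m) (h : S.LC 2 H) {D D' : Derivation ℂ W W}
    (hD : ∀ i, D (cv H 0 i) = 0) (hD' : ∀ i, D' (cv H 0 i) = 0) :
    S.om (S.top 2 H) (fun i => D (S.top 2 H i)) (fun i => D' (S.top 2 H i)) =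
      S.om (cv H 0) (fun i => D (cv H 1 i)) fun i => D' (cv H 1 i) := by
  obtain ⟨a1, a2, a3, a4, a5⟩ := pspa_div h hD
  obtain ⟨b1, b2, b3, b4, b5⟩ := pspa_div h hD'
  obtain ⟨q, h1, -, h2⟩ := om_poly hS h a1 b1 a2 b2
  have h3 : ∀ (E : Derivation ℂ W W) i (k : ℕ), ((2 : ℕ) * S.w i : ℤ) < k + 0 →
      (S.cD E (S.rev 2 H) i).coeff k = 0 := fun E i k hk =>
    coeff_eq_zero_of_natDegree_lt (((cD_deg E _ i).trans (h.rev.1.deg i)).trans_lt (by omega))
  obtain ⟨q', -, -, h4⟩ := om_poly hS h.rev.1 (cD_tan h.rev.1.on D) (cD_tan h.rev.1.on D')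
    (h3 D) (h3 D')
  have h5 : q = C (q.coeff 0) := eq_C_of_natDegree_eq_zero (Nat.le_zero.1
    (natDegree_le_iff_coeff_eq_zero.2 fun k hk => h1 k (by omega)))
  have h6 : q' = q := eq_of_ne fun s hs => by
    have c1 := a1.ev s⁻¹
    have c2 := b1.ev s⁻¹
    have c3 := om_left (S.ev H s⁻¹) (S.ev (fun i => divX (S.cD D H i)) s⁻¹) 0
      (s⁻¹ • S.ev (fun i => divX (S.cD D' H i)) s⁻¹) s⁻¹ 0
    have c4 := om_right hS (h.ev_on s⁻¹) (h.prim _) c1 c2 c2 s⁻¹ 0
    simp only [zero_smul, add_zero, zero_mul] at c3 c4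
    rw [h4, a5 s hs, b5 s hs, ev_rev h.deg hs, om_sc hS (h.ev_on _) (h.prim _)
      ((S.TanS _).smul_mem _ c1) ((S.TanS _).smul_mem _ c2) (pow_ne_zero 2 hs), c3, c4, ← h2, h5,
      eval_C, eval_C]
    field_simp
  rw [← a3, ← b3, ← a4, ← b4, ← (ev_zero H).1, ← h2, ← h6, h4, (ev_zero (S.rev 2 H)).1, h.rev.2.1]

theorem jet_span (hS : S.Ok t n m) (h : S.FC n H) {v : Fin S.M → W} (hv : S.Tan (cv H 0) v) :
    v ∈ Submodule.span W {u | ∃ D : Derivation ℂ W W, (∀ a ∈ cl (range (cv H 0)), D a = 0) ∧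
      u = fun i => D (cv H 1 i)} := by
  obtain ⟨hx, hx0, -⟩ := h.1.cv_on
  have hy := (on_rev h.1.on h.1.deg).2
  have h1 := rk_on hS hx
  have h2 : 4 * n + 4 ≤ rk (range (cv H 0) ∪ range (S.top 2 H)) := h.2.2
  obtain ⟨D, d1, d2⟩ := li_der (finite_range (cv H 0)) (y := S.top 2 H) (k := 2 * n + 2) (by omega)
  have d3 : ∀ j i, D j (cv H 0 i) = 0 := fun j i => d1 j _ (subset_cl _ ⟨i, rfl⟩)
  refine Submodule.span_mono ?_ (pspa_span hS hx hx0 (a := fun j i => D j (cv H 1 i))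
    (fun j => ?_) (Fintype.linearIndependent_iff.2 fun g hg => ?_) hv)
  · rintro _ ⟨j, rfl⟩
    exact ⟨D j, d1 j, rfl⟩
  · obtain ⟨a1, -, a3, -⟩ := pspa_div h.1 (d3 j)
    rw [← a3, ← (ev_zero H).1]
    exact a1.ev 0
  · obtain ⟨E, e0⟩ : ∃ E : Derivation ℂ W W, ∀ a, E a = ∑ j, g j * D j a :=
      ⟨∑ j, g j • D j, fun a => by
        have c1 := congrFun (map_sum (Derivation.coeFnAddMonoidHom (R := ℂ) (A := W) (M := W))
          (fun j => g j • D j) Finset.univ) a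
        rw [Finset.sum_apply] at c1
        exact c1⟩
    have e1 : ∀ z : Fin S.M → W, (fun i => E (z i)) = ∑ j, g j • fun i => D j (z i) :=
      fun z => funext fun i => by simp [e0]
    refine Fintype.linearIndependent_iff.1 d2 g ?_
    rw [← e1]
    refine om_nondeg hS hy h.1.top (hy.der _) fun v' hv' => ?_
    refine Submodule.span_induction (p := fun u _ => S.om _ u _ = 0) ?_ ?_ (fun u u' _ _ c1 c2 => ?_)
      (fun c u _ c1 => ?_) (pspa_span hS hy h.1.top (fun j => hy.der (D j)) d2 hv')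
    · rintro _ ⟨j, rfl⟩
      have c1 := om_pm hS hx hx0 (v := fun i => D j (cv H 1 i)) (by
        obtain ⟨a1, -, a3, -⟩ := pspa_div h.1 (d3 j)
        rw [← a3, ← (ev_zero H).1]
        exact a1.ev 0) 0
      rw [mulVec_zero, dotProduct_zero] at c1
      rw [pspa_om hS h.1 (d3 j) (fun i => by simp [e0, d3]), e1, hg, c1]
    · simpa using om_left (S.top 2 H) 0 0 _ 0 0
    · simpa [c1, c2] using om_left (S.top 2 H) u u' (fun i => E (S.top 2 H i)) 1 1
    · simpa [c1] using om_left (S.top 2 H) u 0 (fun i => E (S.top 2 H i)) c 0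

end Vale.Agent.P292
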