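import Vale.Agent.P292.P.H
import Vale.Agent.P292.P.Pol
import Vale.Agent.P292.P.SpanA

/-! P292 P/Span. The Hamiltonian vectors span. Helper names start with `psp_`.
`jet_span`: for `D₁, D₂` killing `x = cv H 0` write `cD D H = X * v`; `om_poly` with `a = b = 1` shows that
`om x (D₁ H₁) (D₂ H₁)` is the constant `om y (D₁ y) (D₂ y)` (use `rev`, or evaluate at a large parameter and scale);
the `D y` span the tangent space at `y = top 2 H` (`li_der`), so the Gram matrix is invertible.
`vec_span`: `A • H₁ = vec Y x (a ⬝ᵥ f) = ∑ a i • vec ∅ x (f i)` (`vec_h`, `vec_lin`, `dv_mono`); the span `V` of vectors with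
entries in `cl (range x)` is stable under derivations killing `x`. -/

open Polynomial Set Matrix

noncomputable section

namespace Vale.Agent.P292

open Vale.Agent.P271 Vale.Agent.P276

variable {K : Type} [Field K] [Algebra ℂ K] {N n m : ℕ} {t : Fin (N + 1) → K} {S : Cn K N}
  {W : Type} [Field W] [Algebra ℂ W]

variable [IsAlgClosed W] {δ k : ℕ} {G G₀ H : Fin S.M → W[X]} {O : ValuationSubring W}
  {A B Y : Set W} {x : Fin S.M → W} {f g σ : W} {𝓕 : (Fin S.M → W[X]) → Prop}

theorem vec_span (hS : S.Ok t n m) (h : S.FC n H) {ι : Type} [Fintype ι] {a f : ι → W}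
    (ha : ∀ i, a i ∈ cl (range (S.top 2 H))) (hf : ∀ i, f i ∈ cl (range (cv H 0)))
    (he : S.Av H ^ 2 = a ⬝ᵥ f) {v : Fin S.M → W} (hv : S.Tan (cv H 0) v) :
    v ∈ Submodule.span W (range fun i => S.vec ∅ (cv H 0) (f i)) := by
  have hx := (h.spec hS).2.1
  have hx0 : S.GenO n ∅ (cv H 0) := hx.mono hS finite_empty (empty_subset _)
  have hf' : ∀ i, f i ∈ cl (∅ ∪ range (cv H 0)) := fun i => by
    rw [empty_union]
    exact hf i
  have hw : ∀ i j, S.vec ∅ (cv H 0) (f i) j ∈ cl (range (cv H 0)) := fun i j => by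
    have h1 := (vec_tan hS hx0 (hf' i)).2 j
    rwa [empty_union] at h1
  have h1 := (vec_h hS h.1 h.2.1 hx (subset_cl _)).2.2.2.1
  have h2 : ∀ j, cv H 1 j = ∑ i, a i / S.Av H * S.vec ∅ (cv H 0) (f i) j := by
    intro j
    have ht := hS.tanp W _ hx.2.1 j
    have h3 : S.Av H * cv H 1 j = ∑ i, a i * S.vec ∅ (cv H 0) (f i) j := by
      refine (congrFun h1 j).symm.trans ?_
      rw [he, Cn.vec, dotProduct, map_sum]
      refine Finset.sum_congr rfl fun i _ => ?_
      rw [Derivation.leibniz, (dv_spec hS hx ht).1 _ (ha i), smul_zero, add_zero, smul_eq_mul,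
        dv_mono hS hx finite_empty (empty_subset _) ht (hf' i)]
      rfl
    refine mul_left_cancel₀ h.2.1 (h3.trans ?_)
    rw [Finset.mul_sum]
    refine Finset.sum_congr rfl fun i _ => ?_
    rw [← mul_assoc, mul_div_cancel₀ _ h.2.1]
  refine Submodule.span_le.2 ?_ (jet_span hS h hv)
  rintro _ ⟨D, hD, rfl⟩
  have h4 : (fun j => D (cv H 1 j)) = ∑ i, D (a i / S.Av H) • S.vec ∅ (cv H 0) (f i) := by
    funext j
    rw [h2, map_sum, Finset.sum_apply]
    refine Finset.sum_congr rfl fun i _ => ?_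
    rw [Derivation.leibniz, hD _ (hw i j), smul_zero, zero_add, Pi.smul_apply, smul_eq_mul,
      smul_eq_mul, mul_comm]
  rw [h4]
  exact Submodule.sum_mem _ fun i _ => Submodule.smul_mem _ _ (Submodule.subset_span ⟨i, rfl⟩)

end Vale.Agent.P292
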