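import Vale.Agent.P292.P.Ten
import Vale.Agent.P292.P.Flow
import Vale.Agent.P292.P.Span
import Vale.Agent.P292.P.Bdd

/-! P292 P/MainA (split from P/Main). The Lie algebra of Hamiltonians. Helper names start with `pmaa_`.
`x = cv G₀ 0`, `Y = range (top 2 G₀)`. `L = {f | Pol (Cj G₀) 2 ∅ x 1 f}` is a `ℂ`-subspace (`Pol.lin`), finite
dimensional (`fin_dim`), nonzero (`tensor`, `Av ≠ 0`), closed under `pb` (`Pol.pb`) and under automorphisms fixing `x`
(`Pol.map`). Take a basis `f`; rewrite `tensor` as `h = a ⬝ᵥ f`. For `w` with entries in `cl Y`: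
`pb Y x (a ⬝ᵥ f) (w ⬝ᵥ f) = lc cc a w ⬝ᵥ f` (`vec_lin`, `dv_mono`, `pb_om`), so `flow` and `lin_disj` give `ext` for
`w = Pi.single i 1`, and both sides are linear in `w`. -/

open Polynomial Set Matrix

noncomputable section

namespace Vale.Agent.P292

open Vale.Agent.P271 Vale.Agent.P276

variable {K : Type} [Field K] [Algebra ℂ K] {N n m : ℕ} {t : Fin (N + 1) → K} {S : Cn K N}
  {W : Type} [Field W] [Algebra ℂ W]

variable [IsAlgClosed W] {δ k : ℕ} {G G₀ H : Fin S.M → W[X]} {O : ValuationSubring W}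
  {A B Y : Set W} {x : Fin S.M → W} {f g σ : W} {𝓕 : (Fin S.M → W[X]) → Prop}

theorem exists_basis (hS : S.Ok t n m) (hW : Big W) (hG : S.Good n G₀) :
    ∃ (r : ℕ) (f a : Fin (r + 1) → W), LinearIndependent ℂ f ∧
      (∀ g, S.Pol (Cn.Cj G₀) 2 ∅ (cv G₀ 0) 1 g ↔ g ∈ Submodule.span ℂ (range f)) ∧
      (∀ i, a i ∈ cl (range (S.top 2 G₀))) ∧ S.Av G₀ ^ 2 = a ⬝ᵥ f := by
  have hx : S.GenO n ∅ (cv G₀ 0) :=
    (Cn.FC.spec hS hG.1).2.1.mono hS finite_empty (empty_subset _)
  let L : Submodule ℂ W :=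
    { carrier := {g | S.Pol (Cn.Cj G₀) 2 ∅ (cv G₀ 0) 1 g}
      add_mem' := fun {u v} hu hv => by
        have h := Cn.Pol.lin hS hx hu hv (one_mem _) (one_mem _)
        rwa [one_mul, one_mul] at h
      zero_mem' := pol_zero hS hx
      smul_mem' := fun c u hu => by
        have h := Cn.Pol.lin hS hx hu hu ((cl (∅ : Set W)).algebraMap_mem c) (zero_mem _)
        rwa [zero_mul, add_zero, ← Algebra.smul_def] at h }
  obtain ⟨r₀, hr₀⟩ := fin_dim hS hW hG.1 hx
  have hfin : Module.Finite ℂ L := by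
    rw [← Module.rank_lt_aleph0_iff]
    refine lt_trans (lt_of_not_ge fun h => ?_) (Cardinal.natCast_lt_aleph0 (n := r₀))
    obtain ⟨v, hv⟩ := natCast_le_rank_iff.1 h
    exact hr₀ (fun i => v i) (fun i => (v i).2) (hv.map' L.subtype L.ker_subtype)
  obtain ⟨r₁, a, f, ha, hf, he⟩ := tensor hS hW hG hG.1
  obtain ⟨r, hr⟩ : ∃ r, Module.finrank ℂ L = r + 1 := by
    refine Nat.exists_eq_succ_of_ne_zero fun h0 => pow_ne_zero 2 hG.1.2.1 ?_
    have h1 : L = ⊥ := Submodule.finrank_eq_zero.1 h0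
    have h2 : f = 0 := funext fun i => by
      have h3 : f i ∈ L := hf i
      rwa [h1, Submodule.mem_bot] at h3
    rw [he, h2, dotProduct_zero]
  let b := Module.finBasisOfFinrankEq ℂ L hr
  refine ⟨r, fun j => b j, fun j => ∑ i, a i * algebraMap ℂ W (b.repr ⟨f i, hf i⟩ j),
    b.linearIndependent.map' L.subtype L.ker_subtype, fun g => ?_,
    fun j => sum_mem fun i _ => mul_mem (ha i) (IntermediateField.algebraMap_mem _ _), ?_⟩
  · have h1 : Submodule.span ℂ (range fun j => (b j : W)) = L := by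
      have h2 := congrArg (Submodule.map L.subtype) b.span_eq
      rwa [Submodule.map_span, ← range_comp, Submodule.map_subtype_top] at h2
    rw [h1]
    rfl
  · rw [he]
    simp only [dotProduct, Finset.sum_mul]
    rw [Finset.sum_comm]
    refine Finset.sum_congr rfl fun i _ => ?_
    have h1 := congrArg L.subtype (b.sum_repr ⟨f i, hf i⟩)
    rw [map_sum] at h1
    simp only [map_smul, Submodule.subtype_apply] at h1
    conv_lhs => rw [← h1, Finset.mul_sum]
    exact Finset.sum_congr rfl fun j _ => by rw [Algebra.smul_def, mul_assoc]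

end Vale.Agent.P292
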