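import Vale.Agent.P292.P.Ten
import Vale.Agent.P292.P.Flow
import Vale.Agent.P292.P.Span
import Vale.Agent.P292.P.Bdd

/-! P292 P/MainB (split from P/Main). The Lie algebra of Hamiltonians. Helper names start with `pmab_`.
`x = cv G₀ 0`, `Y = range (top 2 G₀)`. `L = {f | Pol (Cj G₀) 2 ∅ x 1 f}` is a `ℂ`-subspace (`Pol.lin`), finite
dimensional (`fin_dim`), nonzero (`tensor`, `Av ≠ 0`), closed under `pb` (`Pol.pb`) and under automorphisms fixing `x`
(`Pol.map`). Take a basis `f`; rewrite `tensor` as `h = a ⬝ᵥ f`. For `w` with entries in `cl Y`: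
`pb Y x (a ⬝ᵥ f) (w ⬝ᵥ f) = lc cc a w ⬝ᵥ f` (`vec_lin`, `dv_mono`, `pb_om`), so `flow` and `lin_disj` give `ext` for
`w = Pi.single i 1`, and both sides are linear in `w`. -/

open Polynomial Set Matrix

noncomputable section

namespace Vale.Agent.P292

open Vale.Agent.P271 Vale.Agent.P276

variable {K : Type} [Field K] [Algebra ℂ K] {N n m : ℕ} {t : Fin (N + 1) → K} {S : Cn K N}
  {W : Type} [Field W] [Algebra ℂ W]

variable [IsAlgClosed W] {δ k : ℕ} {G G₀ H : Fin S.M → W[X]} {O : ValuationSubring W}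
  {A B Y : Set W} {x : Fin S.M → W} {f g σ : W} {𝓕 : (Fin S.M → W[X]) → Prop}

theorem pmab_anti (hS : S.Ok t n m) (hx : S.GenO n Y x) (hf : f ∈ cl (Y ∪ range x))
    (hg : g ∈ cl (Y ∪ range x)) : S.pb Y x g f = -S.pb Y x f g := by
  rw [(pb_om hS hx hf hg).1, (pb_om hS hx hg hf).1]
  exact om_anti hS hx.2.1 hx.ne (vec_tan hS hx hf).1 (vec_tan hS hx hg).1

theorem pmab_right (hS : S.Ok t n m) (hx : S.GenO n Y x) (hg : g ∈ cl (Y ∪ range x)) {ι : Type}
    [Fintype ι] (f : ι → W) {w : ι → W} (hw : ∀ i, w i ∈ cl Y) :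
    S.pb Y x g (w ⬝ᵥ f) = ∑ j, w j * S.pb Y x g (f j) := by
  rw [Cn.pb, dotProduct, map_sum]
  refine Finset.sum_congr rfl fun j _ => ?_
  rw [Derivation.leibniz, (dv_spec hS hx (vec_tan hS hx hg).1).1 _ (hw j), smul_zero, add_zero,
    smul_eq_mul, Cn.pb]

theorem pmab_mono (hS : S.Ok t n m) (hx : S.GenO n Y x) (hf : f ∈ cl (∅ ∪ range x))
    (hg : g ∈ cl (∅ ∪ range x)) : S.pb Y x f g = S.pb ∅ x f g := by
  have e : S.vec Y x f = S.vec ∅ x f := funext fun i =>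
    dv_mono hS hx finite_empty (empty_subset _) (hS.tanp W x hx.2.1 i) hf
  rw [Cn.pb, e]
  exact dv_mono hS hx finite_empty (empty_subset _)
    (vec_tan hS (hx.mono hS finite_empty (empty_subset _)) hf).1 hg

theorem pb_lc (hS : S.Ok t n m) (hx : S.GenO n Y x) {ι : Type} [Fintype ι] {f a w : ι → W}
    {cc : ι → ι → ι → ℂ} (hf : ∀ i, f i ∈ cl (range x))
    (hc : ∀ i j, S.pb ∅ x (f i) (f j) = ∑ k, algebraMap ℂ W (cc i j k) * f k)
    (ha : ∀ i, a i ∈ cl Y) (hw : ∀ i, w i ∈ cl Y) :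
    S.pb Y x (a ⬝ᵥ f) (w ⬝ᵥ f) = lc cc a w ⬝ᵥ f := by
  have m0 : ∀ i, f i ∈ cl (∅ ∪ range x) := fun i => cl_mono subset_union_right (hf i)
  have m1 : ∀ i, f i ∈ cl (Y ∪ range x) := fun i => cl_mono subset_union_right (hf i)
  have m2 : a ⬝ᵥ f ∈ cl (Y ∪ range x) :=
    sum_mem fun i _ => mul_mem (cl_mono subset_union_left (ha i)) (m1 i)
  have e : ∀ j, S.pb Y x (a ⬝ᵥ f) (f j) =
      ∑ i, a i * ∑ k, algebraMap ℂ W (cc i j k) * f k := fun j => by
    rw [pmab_anti hS hx (m1 j) m2, pmab_right hS hx (m1 j) f ha, ← Finset.sum_neg_distrib]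
    refine Finset.sum_congr rfl fun i _ => ?_
    rw [pmab_anti hS hx (m1 i) (m1 j), mul_neg, neg_neg, pmab_mono hS hx (m0 i) (m0 j), hc]
  rw [pmab_right hS hx m2 f hw]
  simp only [e]
  simp only [dotProduct, lc, Finset.mul_sum, Finset.sum_mul]
  rw [Finset.sum_comm]
  refine Eq.trans (Finset.sum_congr rfl fun i _ => Finset.sum_comm) (Finset.sum_comm.trans ?_)
  exact Finset.sum_congr rfl fun k _ => Finset.sum_congr rfl fun i _ =>
    Finset.sum_congr rfl fun j _ => by ring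

end Vale.Agent.P292
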