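import Vale.Agent.P292.P.Ten
import Vale.Agent.P292.P.Flow
import Vale.Agent.P292.P.Span
import Vale.Agent.P292.P.Bdd
import Vale.Agent.P292.P.MainA
import Vale.Agent.P292.P.MainB

/-! P292 P/Main. The Lie algebra of Hamiltonians. Helper names start with `pma_`.
`x = cv G₀ 0`, `Y = range (top 2 G₀)`. `L = {f | Pol (Cj G₀) 2 ∅ x 1 f}` is a `ℂ`-subspace (`Pol.lin`), finite
dimensional (`fin_dim`), nonzero (`tensor`, `Av ≠ 0`), closed under `pb` (`Pol.pb`) and under automorphisms fixing `x`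
(`Pol.map`). Take a basis `f`; rewrite `tensor` as `h = a ⬝ᵥ f`. For `w` with entries in `cl Y`:
`pb Y x (a ⬝ᵥ f) (w ⬝ᵥ f) = lc cc a w ⬝ᵥ f` (`vec_lin`, `dv_mono`, `pb_om`), so `flow` and `lin_disj` give `ext` for
`w = Pi.single i 1`, and both sides are linear in `w`. -/

open Polynomial Set Matrix

noncomputable section

namespace Vale.Agent.P292

open Vale.Agent.P271 Vale.Agent.P276

variable {K : Type} [Field K] [Algebra ℂ K] {N n m : ℕ} {t : Fin (N + 1) → K} {S : Cn K N}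
  {W : Type} [Field W] [Algebra ℂ W]

variable [IsAlgClosed W] {δ k : ℕ} {G G₀ H : Fin S.M → W[X]} {O : ValuationSubring W}
  {A B Y : Set W} {x : Fin S.M → W} {f g σ : W} {𝓕 : (Fin S.M → W[X]) → Prop}

omit [IsAlgClosed W] in
theorem pma_fx (θ : W ≃ₐ[ℂ] W) : Fx (cl (∅ : Set W)) θ := fun a ha => by
  have h1 : IsAlgebraic (IntermediateField.adjoin ℂ (∅ : Set W)) a :=
    mem_algebraicClosure_iff.1 ha
  have : Algebra.IsAlgebraic ℂ (IntermediateField.adjoin ℂ (∅ : Set W)) :=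
    IntermediateField.isAlgebraic_adjoin fun _ h => h.elim
  have h2 : IsAlgebraic ℂ a := h1.restrictScalars ℂ
  obtain ⟨c, rfl⟩ := minpoly.mem_range_of_degree_eq_one ℂ a
    (IsAlgClosed.degree_eq_one_of_irreducible ℂ (minpoly.irreducible h2.isIntegral))
  exact θ.commutes c

omit [IsAlgClosed W] in
theorem pma_mem {ι : Type} [Fintype ι] (cc : ι → ι → ι → ℂ) {a w : ι → W} (ha : ∀ i, a i ∈ cl Y)
    (hw : ∀ i, w i ∈ cl Y) (j : ι) : lc cc a w j ∈ cl Y :=
  sum_mem fun i _ => sum_mem fun l _ =>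
    mul_mem (mul_mem (ha i) (hw l)) ((cl Y).algebraMap_mem _)

omit [IsAlgClosed W] in
theorem pma_lin {ι : Type} [Fintype ι] (cc : ι → ι → ι → ℂ) (a c : ι → W) (v : ι → ι → W) :
    lc cc a (∑ l, c l • v l) = ∑ l, c l • lc cc a (v l) := by
  funext j
  simp only [lc, Finset.sum_apply, Pi.smul_apply, smul_eq_mul, Finset.mul_sum, Finset.sum_mul]
  symm
  rw [Finset.sum_comm]
  refine Finset.sum_congr rfl fun i _ => ?_
  rw [Finset.sum_comm]
  exact Finset.sum_congr rfl fun l _ => Finset.sum_congr rfl fun p _ => by ring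

omit [IsAlgClosed W] in
theorem pma_ext {ι : Type} [Fintype ι] [DecidableEq ι] {cc : ι → ι → ι → ℂ} {a φ : ι → W}
    (h : ∀ i, lc cc a (lc cc a (Pi.single i 1)) = (2 * φ i) • a) (w : ι → W) :
    lc cc a (lc cc a w) = (2 * (φ ⬝ᵥ w)) • a := by
  have e : lc cc a w = lc cc a (∑ i, w i • (Pi.single i 1 : ι → W)) :=
    congrArg _ (pi_eq_sum_univ' w)
  rw [e, pma_lin, pma_lin, dotProduct, Finset.mul_sum, Finset.sum_smul]
  refine Finset.sum_congr rfl fun i _ => ?_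
  rw [h, smul_smul]
  congr 1
  ring

theorem exists_mom (hS : S.Ok t n m) (hW : Big W) (hG : S.Good n G₀) :
    ∃ (x : Fin S.M → W) (r : ℕ) (f : Fin (r + 1) → W)
      (cc : Fin (r + 1) → Fin (r + 1) → Fin (r + 1) → ℂ), S.Mom n x f cc := by
  classical
  obtain ⟨r, f, a, hli, hsp, ha, he⟩ := exists_basis hS hW hG
  have hF := hG.1
  have hxY := (hF.spec hS).2.1
  have hx : S.GenO n ∅ (cv G₀ 0) := hxY.mono hS finite_empty (empty_subset _)
  have hf : ∀ i, S.Pol (Cn.Cj G₀) 2 ∅ (cv G₀ 0) 1 (f i) := fun i =>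
    (hsp _).2 (Submodule.subset_span ⟨i, rfl⟩)
  have hfx : ∀ i, f i ∈ cl (range (cv G₀ 0)) := fun i => by
    have h1 := (hf i).1.1
    rwa [empty_union] at h1
  have hcc : ∀ i j, ∃ c : Fin (r + 1) → ℂ,
      S.pb ∅ (cv G₀ 0) (f i) (f j) = ∑ k, algebraMap ℂ W (c k) * f k := fun i j => by
    obtain ⟨c, hc⟩ := (Submodule.mem_span_range_iff_exists_fun ℂ).1 ((hsp _).1
      ((hf i).pb hS hx (fun G h => Or.inr ⟨rfl, cj_fc hS h hF⟩) (hf j)))
    exact ⟨c, hc.symm.trans (Finset.sum_congr rfl fun k _ => Algebra.smul_def _ _)⟩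
  choose cc hcc using hcc
  have hcj : Cn.Cj G₀ G₀ := ⟨AlgEquiv.refl, funext fun i => (Polynomial.map_id).symm⟩
  obtain ⟨η, h1, h2, h3⟩ := flow hS hW hF hcj hf
  rw [he] at h2 h3
  have hη : ∀ i, η (f i) ∈ cl (range (S.top 2 G₀)) := fun i => by
    refine cl_mono ?_ ((mem_cl_map (η : W →ₐ[ℂ] W)).2 (hfx i))
    rintro _ ⟨_, ⟨j, rfl⟩, rfl⟩
    exact ⟨j, (h1 j).symm⟩
  have hrk : rk (range (cv G₀ 0)) + rk (range (S.top 2 G₀)) ≤
      rk (range (cv G₀ 0) ∪ range (S.top 2 G₀)) := by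
    have e1 := hx.2.2
    have e2 := hxY.2.2
    have e3 : rk (∅ : Set W) = 0 := by simp [rk]
    rw [empty_union, e3] at e1
    rw [union_comm] at e2
    omega
  refine ⟨cv G₀ 0, r, f, cc, hx, hli, fun i => (hf i).1, hcc, fun θ hθ i => (hsp _).1 ?_,
    fun δ hδ => vec_span hS hF ha hfx he hδ, ⟨a, η, range (S.top 2 G₀), fun h0 => ?_,
      pma_ext fun i => ?_, hxY, ?_, fun j => ?_, fun j => ?_⟩, fun O hO ρ hp i => ?_⟩
  · have h4 := ((hf i).map hS hx (fun G θ h => cj_map h θ) θ (pma_fx θ)).2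
    have e : (fun j => θ (cv G₀ 0 j)) = cv G₀ 0 := funext fun j => hθ _ ⟨j, rfl⟩
    rwa [e] at h4
  · rw [h0, zero_dotProduct] at he
    exact pow_ne_zero 2 hF.2.1 he
  · have hw : ∀ j, (Pi.single i 1 : Fin (r + 1) → W) j ∈ cl (range (S.top 2 G₀)) := fun j => by
      rw [Pi.single_apply]
      split_ifs
      · exact one_mem _
      · exact zero_mem _
    have h4 := pb_lc hS hxY hfx hcc ha hw
    have h5 := pb_lc hS hxY hfx hcc ha (pma_mem cc ha hw)
    have h6 := h2 i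
    rw [single_one_dotProduct] at h4
    rw [Function.iterate_succ_apply, Function.iterate_one, h4, h5] at h6
    refine sub_eq_zero.1 (lin_disj (finite_range _) (finite_range _) hrk hli hfx (fun j => ?_) ?_)
    · exact sub_mem (pma_mem cc ha (pma_mem cc ha hw) j)
        (mul_mem (mul_mem (ofNat_mem _ 2) (hη i)) (ha j))
    · have h7 : (lc cc a (lc cc a (Pi.single i 1)) - (2 * η (f i)) • a) ⬝ᵥ f = 0 := by
        rw [sub_dotProduct, smul_dotProduct, h6, smul_eq_mul, sub_self]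
      exact h7
  · rintro _ ⟨i, rfl⟩
    exact ha i
  · rw [h1]
    exact subset_cl _ ⟨j, rfl⟩
  · rw [h3, h1]
  · have h4 := bdd_le hS hW hF hx hO hp (hf i)
    rwa [pow_one] at h4

end Vale.Agent.P292
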