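import Vale.Agent.P292.P.Fam

/-! P292 P/BolA (split from P/Bol). Polynomiality from integrality of all derivatives. Helper names start with `pboa_`.
`D` from `Thru.spec`, `A = Y ∪ cf G`. `bol_fin`: `O` over `A` with `σ ∈ O`; `Ok.inv` at the residue of `x` (`exists_pl`, `pv_ev`) gives `q(x)` a
unit of `O` and `ξ = a(x) G'(σ) / q(x)`; `D g = - ξ ⬝ᵥ vec g`; the set of `c` with all `D^[i] c ∈ O` is a ring containing
`σ`, `cl A`, `q(x)⁻¹`; so the span of `Q` over this ring is stable under `D` and contained in `O`.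
`bol_inf`: `s = σ⁻¹`, `x' = sc (s ^ 2) x = ev (rev 2 G) s` is generic over `Y` and reduces to `top 2 G`, so `O` is over
`Y ∪ range x'`; `f' = s ^ 2 f ∈ cl (Y ∪ range x')` (`wt_sp`); apply `bol_fin` to `rev 2 G`, `D' = - σ ^ 2 D`,
`Q = cl (Y ∪ range x')`; and `D^[3] f = - s ^ 4 D'^[3] f'`. `pol_of_int`: `D^[3] f ∈ cl A` by `mem_cl_of_val`; it has
valuation `< 1` at some `O` over `A` with `σ ∉ O`, so it is zero. -/

open Polynomial Set Matrix

noncomputable section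

namespace Vale.Agent.P292

open Vale.Agent.P271 Vale.Agent.P276

variable {K : Type} [Field K] [Algebra ℂ K] {N n m : ℕ} {t : Fin (N + 1) → K} {S : Cn K N}
  {W : Type} [Field W] [Algebra ℂ W]

variable [IsAlgClosed W] {δ k : ℕ} {G G₀ H : Fin S.M → W[X]} {O : ValuationSubring W}
  {A B Y : Set W} {x : Fin S.M → W} {f g σ : W} {𝓕 : (Fin S.M → W[X]) → Prop}

omit [IsAlgClosed W] in
theorem pboa_stab (D : Derivation ℂ W W) {s : Set W} {T : Subalgebra ℂ W}
    (h : Algebra.adjoin ℂ s ≤ T) (hs : ∀ b ∈ s, D b ∈ T) : ∀ b ∈ Algebra.adjoin ℂ s, D b ∈ T := by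
  intro b hb
  refine Algebra.adjoin_induction (p := fun z _ => D z ∈ T) hs (fun c => ?_)
    (fun u v _ _ hu hv => ?_) (fun u v hu hv hu' hv' => ?_) hb
  · rw [D.map_algebraMap]
    exact zero_mem _
  · rw [map_add]
    exact add_mem hu hv
  · rw [D.leibniz, smul_eq_mul, smul_eq_mul]
    exact add_mem (mul_mem (h hu) hv') (mul_mem (h hv) hu')

theorem bol_fin (hS : S.Ok t n m) (hx : S.GenO n Y x) (h : S.LC δ G) (he : S.ev G σ = x)
    {D : Derivation ℂ W W} (hD : ∀ a ∈ cl (Y ∪ cf G), D a = 0) (hσ : D σ = 1)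
    (hO : Ov (Y ∪ cf G) O) (h1 : σ ∈ O) {Q : Set W} (hQ : ∀ g ∈ Q, g ∈ cl (Y ∪ range x) ∧ g ∈ O ∧
      ∀ i, S.vec Y x g i ∈ Q) (hf : f ∈ Q) (j : ℕ) : D^[j] f ∈ O := by
  obtain ⟨κ, _, _, P, rfl⟩ := exists_resf (W := W) hO.empty
  have hp : PV P.O x := he ▸ (pv_ev h (hO.mono fun a ha => subset_cl _ (Or.inr ha))).1 h1
  choose x' hx' using fun i => Place.exists_red (P := P) ((P.O.valuation_le_one_iff _).2 (hp.1 i))
  obtain ⟨i₀, hi₀⟩ := hp.2
  obtain ⟨q, a, hq, ha⟩ := hS.inv κ x' (red_on P hx.2.1 hx')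
    fun e => (hx' i₀).ne_zero hi₀ (congrFun e i₀)
  have hr := Place.Red.aeval hx' q
  have hq0 : MvPolynomial.aeval x q ≠ 0 := hr.left_ne hq
  let s₀ : Set W := insert σ (cl (Y ∪ cf G))
  let T := Algebra.adjoin ℂ (s₀ ∪ insert (MvPolynomial.aeval x q)⁻¹ Q)
  have l0 : Algebra.adjoin ℂ s₀ ≤ T := Algebra.adjoin_mono subset_union_left
  have d0 : ∀ b ∈ s₀, D b ∈ T := by
    rintro b (rfl | hb)
    · rw [hσ]
      exact one_mem _
    · rw [hD b hb]
      exact zero_mem _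
  have d1 := pboa_stab D l0 d0
  have x0 : ∀ i, x i ∈ Algebra.adjoin ℂ s₀ := fun i => by
    rw [← he, Cn.ev, eval_eq_sum_range]
    exact sum_mem fun k _ => mul_mem
      (Algebra.subset_adjoin (Or.inr (subset_cl _ (Or.inr ⟨i, k, rfl⟩))))
      (pow_mem (Algebra.subset_adjoin (mem_insert σ _)) k)
  have p0 : ∀ p : MvPolynomial (Fin S.M) ℂ, MvPolynomial.aeval x p ∈ Algebra.adjoin ℂ s₀ :=
    fun p => MvPolynomial.eval₂_mem (fun i _ => Subalgebra.algebraMap_mem _ _) x0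
  have qT : (MvPolynomial.aeval x q)⁻¹ ∈ T := Algebra.subset_adjoin (Or.inr (Or.inl rfl))
  have QT : ∀ g ∈ Q, g ∈ T := fun g hg => Algebra.subset_adjoin (Or.inr (Or.inr hg))
  have hξ : S.pm x *ᵥ ((MvPolynomial.aeval x q)⁻¹ •
      (a.map (MvPolynomial.aeval x) *ᵥ fun j => D (x j))) = fun j => D (x j) := by
    rw [mulVec_smul, ha W x _ hx.2.1 (hx.2.1.der D), smul_smul, inv_mul_cancel₀ hq0, one_smul]
  have d2 : ∀ b ∈ T, D b ∈ T := pboa_stab D le_rfl (by
    rintro b (hb | rfl | hb)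
    · exact d0 b hb
    · rw [D.leibniz_inv, smul_eq_mul]
      exact mul_mem (neg_mem (pow_mem qT 2)) (d1 _ (p0 q))
    · rw [der_eq_dot hS hx (fun c hc => hD c (cl_mono subset_union_left hc)) (hQ b hb).1 hξ]
      refine neg_mem (sum_mem fun i _ => mul_mem (mul_mem qT ?_) (QT _ ((hQ b hb).2.2 i)))
      exact sum_mem (t := Finset.univ) fun l _ => mul_mem (l0 (p0 (a i l))) (d1 _ (x0 l)))
  have TO : ∀ b ∈ T, b ∈ P.O := fun b hb => by
    refine Algebra.adjoin_induction (p := fun z _ => z ∈ P.O) ?_ hO.alg (fun _ _ _ _ => add_mem)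
      (fun _ _ _ _ => mul_mem) hb
    rintro c ((rfl | hc) | rfl | hc)
    · exact h1
    · exact hO c hc
    · rw [← P.O.valuation_le_one_iff, map_inv₀, hr.val_eq_one hq, inv_one]
    · exact (hQ c hc).2.1
  refine TO _ ?_
  induction j with
  | zero => exact QT f hf
  | succ j ih =>
    rw [Function.iterate_succ_apply']
    exact d2 _ ih

end Vale.Agent.P292
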