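import Vale.Agent.P292.P.Fam
import Vale.Agent.P292.P.BolA
import Vale.Agent.P276.E.GaussA

/-! P292 P/BolB (split from P/Bol). Polynomiality from integrality of all derivatives. Helper names start with `pbob_`.
`D` from `Thru.spec`, `A = Y ∪ cf G`. `bol_fin`: `O` over `A` with `σ ∈ O`; `Ok.inv` at the residue of `x` (`exists_pl`, `pv_ev`) gives `q(x)` a
unit of `O` and `ξ = a(x) G'(σ) / q(x)`; `D g = - ξ ⬝ᵥ vec g`; the set of `c` with all `D^[i] c ∈ O` is a ring containing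
`σ`, `cl A`, `q(x)⁻¹`; so the span of `Q` over this ring is stable under `D` and contained in `O`.
`bol_inf`: `s = σ⁻¹`, `x' = sc (s ^ 2) x = ev (rev 2 G) s` is generic over `Y` and reduces to `top 2 G`, so `O` is over
`Y ∪ range x'`; `f' = s ^ 2 f ∈ cl (Y ∪ range x')` (`wt_sp`); apply `bol_fin` to `rev 2 G`, `D' = - σ ^ 2 D`,
`Q = cl (Y ∪ range x')`; and `D^[3] f = - s ^ 4 D'^[3] f'`. `pol_of_int`: `D^[3] f ∈ cl A` by `mem_cl_of_val`; it has
valuation `< 1` at some `O` over `A` with `σ ∉ O`, so it is zero. -/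

open Polynomial Set Matrix

noncomputable section

namespace Vale.Agent.P292

open Vale.Agent.P271 Vale.Agent.P276

variable {K : Type} [Field K] [Algebra ℂ K] {N n m : ℕ} {t : Fin (N + 1) → K} {S : Cn K N}
  {W : Type} [Field W] [Algebra ℂ W]

variable [IsAlgClosed W] {δ k : ℕ} {G G₀ H : Fin S.M → W[X]} {O : ValuationSubring W}
  {A B Y : Set W} {x : Fin S.M → W} {f g σ : W} {𝓕 : (Fin S.M → W[X]) → Prop}

omit [IsAlgClosed W] in
theorem pbob_cong {τ : Type} (hO : Ov Y O) {u u' : τ → W} (hu : ∀ i, u i ∈ O)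
    (hu' : ∀ i, u' i ∈ O) (hv : ∀ i, O.valuation (u' i - u i) < 1) (p : MvPolynomial τ (cl Y)) :
    MvPolynomial.aeval u' p ∈ O ∧
      O.valuation (MvPolynomial.aeval u' p - MvPolynomial.aeval u p) < 1 := by
  induction p using MvPolynomial.induction_on with
  | C a =>
    rw [MvPolynomial.aeval_C, MvPolynomial.aeval_C, sub_self, map_zero]
    exact ⟨hO _ a.2, zero_lt_one⟩
  | add p q hp hq =>
    rw [map_add, map_add, add_sub_add_comm]
    exact ⟨add_mem hp.1 hq.1, Valuation.map_add_lt _ hp.2 hq.2⟩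
  | mul_X p i hp =>
    rw [map_mul, map_mul, MvPolynomial.aeval_X, MvPolynomial.aeval_X]
    refine ⟨mul_mem hp.1 (hu' i), ?_⟩
    have e : MvPolynomial.aeval u' p * u' i - MvPolynomial.aeval u p * u i =
        (u' i - u i) * MvPolynomial.aeval u' p +
          (MvPolynomial.aeval u' p - MvPolynomial.aeval u p) * u i := by ring
    rw [e]
    refine Valuation.map_add_lt _ ?_ ?_
    · rw [map_mul]
      exact mul_lt_one_of_lt_of_le (hv i) ((O.valuation_le_one_iff _).2 hp.1)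
    · rw [map_mul]
      exact mul_lt_one_of_lt_of_le hp.2 ((O.valuation_le_one_iff _).2 (hu i))

omit [IsAlgClosed W] in
theorem pbob_mem {τ : Type} (hY : Y ⊆ cl A) {u : τ → W} (hu : ∀ i, u i ∈ cl A)
    (p : MvPolynomial τ (cl Y)) : MvPolynomial.aeval u p ∈ cl A := by
  induction p using MvPolynomial.induction_on with
  | C a =>
    rw [MvPolynomial.aeval_C]
    exact cl_le hY a.2
  | add p q hp hq =>
    rw [map_add]
    exact add_mem hp hq
  | mul_X p i hp =>
    rw [map_mul, MvPolynomial.aeval_X]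
    exact mul_mem hp (hu i)

omit [IsAlgClosed W] in
theorem pbob_ov {τ : Type} (hO : Ov A O) (hY : Y ⊆ cl A) {u u' : τ → W} (hu : ∀ i, u i ∈ cl A)
    (hu' : ∀ i, u' i ∈ O) (hv : ∀ i, O.valuation (u' i - u i) < 1)
    (hai : AlgebraicIndependent (cl Y) u) :
    AlgebraicIndependent (cl Y) u' ∧ Ov (Y ∪ range u') O := by
  have hc := pbob_cong (hO.mono hY) (fun i => hO _ (hu i)) hu' hv
  have h1 : ∀ p : MvPolynomial τ (cl Y), p ≠ 0 → O.valuation (MvPolynomial.aeval u' p) = 1 := by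
    intro p hp
    have h2 : O.valuation (MvPolynomial.aeval u p) = 1 :=
      hO.val_one (pbob_mem hY hu p) fun h0 => hp (algebraicIndependent_iff.1 hai p h0)
    have h3 := Valuation.map_add_eq_of_lt_left O.valuation (x := MvPolynomial.aeval u p)
      (y := MvPolynomial.aeval u' p - MvPolynomial.aeval u p) (h2 ▸ (hc p).2)
    rwa [add_sub_cancel, h2] at h3
  refine ⟨algebraicIndependent_iff.2 fun p hp => ?_, ov_iff.2 fun a ha => ?_⟩
  · by_contra h0
    have := h1 p h0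
    rw [hp, map_zero] at this
    exact zero_ne_one this
  · obtain ⟨r, hr, s, hs, rfl⟩ := IntermediateField.mem_adjoin_iff_div.1 ha
    obtain ⟨p, rfl⟩ := gau_a_adj hr
    obtain ⟨q, rfl⟩ := gau_a_adj hs
    by_cases hq : q = 0
    · rw [hq, map_zero, div_zero]
      exact zero_mem _
    · rw [← O.valuation_le_one_iff, map_div₀, h1 q hq, div_one]
      exact (O.valuation_le_one_iff _).2 (hc p).1

omit [IsAlgClosed W] in
theorem pbob_gen (hS : S.Ok t n m) {y x' : Fin S.M → W} (hy : S.GenO n Y y) (hO : Ov A O)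
    (hY : Y ⊆ cl A) (hyA : ∀ i, y i ∈ cl A) (hon : S.On x') (hx' : ∀ i, x' i ∈ O)
    (hv : ∀ i, O.valuation (x' i - y i) < 1) : S.GenO n Y x' ∧ Ov (Y ∪ range x') O := by
  obtain ⟨k, a, ha, hai, hrk, -⟩ := rel_basis hy.1 (finite_range y)
  choose e he using ha
  have hk : k = 2 * n + 2 := by
    have := hy.2.2
    omega
  have hai' : AlgebraicIndependent (cl Y) fun i => y (e i) := by
    rwa [show (fun i => y (e i)) = a from funext he]
  obtain ⟨h1, h2⟩ := pbob_ov (u' := fun i => x' (e i)) hO hY (fun i => hyA _) (fun i => hx' _)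
    (fun i => hv _) hai'
  have h3 := (ai_iff_rk hy.1 _).1 h1
  rw [Fintype.card_fin] at h3
  have f1 : (Y ∪ range x').Finite := hy.1.union (finite_range _)
  have f2 : (Y ∪ range fun i => x' (e i)).Finite := hy.1.union (finite_range _)
  have s1 : (Y ∪ range fun i => x' (e i)) ⊆ Y ∪ range x' :=
    union_subset_union_right _ (range_comp_subset_range e x')
  have h4 := rk_mono f1 (s1.trans (subset_cl _))
  have h5 := rk_union_le hy.1 (finite_range x')
  have h6 := rk_on hS hon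
  refine ⟨⟨hy.1, hon, by omega⟩, h2.mono (sub_cl_of_rk f2 f1 ?_)⟩
  rw [union_eq_right.2 s1]
  omega

theorem pbob_wt (hS : S.Ok t n m) (hx : S.GenO n Y x) (hf : S.Wt Y x 1 f) {ρ : W}
    (hx' : S.GenO n Y (S.sc ρ x)) : ρ * f ∈ cl (Y ∪ range (S.sc ρ x)) := by
  have h1 := wt_sp hS hx (τ := Unit) (f := fun _ => f) (k := fun _ => 1) (fun _ => hf) ρ
  have fin : ∀ z : Fin S.M ⊕ Unit → W, (range z).Finite := fun z => finite_range z
  have f1 : (Y ∪ range x).Finite := hx.1.union (finite_range _)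
  have f2 : (Y ∪ range (S.sc ρ x)).Finite := hx.1.union (finite_range _)
  have h2 : rk (Y ∪ range (Sum.elim x fun _ : Unit => f)) ≤ rk (Y ∪ range x) := by
    refine rk_mono f1 (union_subset (subset_union_left.trans (subset_cl _)) ?_)
    rintro _ ⟨i | i, rfl⟩
    · exact subset_cl _ (Or.inr ⟨i, rfl⟩)
    · exact hf.1
  by_contra h0
  have h3 := rk_insert f2 h0
  have h4 : rk (insert (ρ * f) (Y ∪ range (S.sc ρ x))) ≤
      rk (Y ∪ range (Sum.elim (S.sc ρ x) fun _ : Unit => ρ ^ 1 * f)) := by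
    refine rk_mono (hx.1.union (fin _)) (Subset.trans ?_ (subset_cl _))
    rintro _ (rfl | h | ⟨i, rfl⟩)
    · exact Or.inr ⟨Sum.inr (), by simp⟩
    · exact Or.inl h
    · exact Or.inr ⟨Sum.inl i, rfl⟩
  have h5 := (rel_iff_rk hx.1 (fin _) (k := 2 * n + 3)).1
    (h1.indep ((rel_iff_rk hx.1 (fin _)).2 (by
      have := hx'.2.2
      omega)))
  have := hx.2.2
  omega

omit [IsAlgClosed W] in
theorem pbob_id {D : Derivation ℂ W W} (hσ : D σ = 1) (h0 : σ ≠ 0) (f : W) :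
    D^[3] f = - σ⁻¹ ^ 4 * ((-σ ^ 2) • D)^[3] (σ⁻¹ ^ 2 * f) := by
  have hs : D σ⁻¹ = - σ⁻¹ ^ 2 := by
    rw [Derivation.leibniz_inv, hσ, smul_eq_mul, mul_one]
  have two : D 2 = 0 := by
    have := D.map_natCast 2
    simpa using this
  have e1 : ((-σ ^ 2) • D) (σ⁻¹ ^ 2 * f) = 2 * σ⁻¹ * f - D f := by
    simp only [Derivation.smul_apply, pow_two, Derivation.leibniz, hs, smul_eq_mul]
    field_simp
    ring
  have e2 : ((-σ ^ 2) • D) (2 * σ⁻¹ * f - D f) = 2 * f - 2 * σ * D f + σ * σ * D (D f) := by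
    simp only [Derivation.smul_apply, map_sub, Derivation.leibniz, hs, two, smul_eq_mul]
    field_simp
    ring
  have e3 : ((-σ ^ 2) • D) (2 * f - 2 * σ * D f + σ * σ * D (D f)) =
      - σ ^ 4 * D (D (D f)) := by
    simp only [Derivation.smul_apply, map_sub, map_add, Derivation.leibniz, hσ, two, smul_eq_mul]
    ring
  simp only [Function.iterate_succ_apply', Function.iterate_zero, id, e1, e2, e3]
  field_simp

theorem bol_inf (hS : S.Ok t n m) (hx : S.GenO n Y x) (h : S.LC 2 G) (ht : S.Thru Y x G σ)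
    (hy : S.GenO n Y (S.top 2 G)) {D : Derivation ℂ W W} (hD : ∀ a ∈ cl (Y ∪ cf G), D a = 0)
    (hσ : D σ = 1) (hO : Ov (Y ∪ cf G) O) (h1 : σ ∉ O) (hf : S.Wt Y x 1 f) :
    O.valuation (D^[3] f) < 1 := by
  have h0 : σ ≠ 0 := fun h2 => h1 (h2 ▸ zero_mem O)
  have hs : σ⁻¹ ∈ O := (O.mem_or_inv_mem σ).resolve_left h1
  have hv : O.valuation σ⁻¹ < 1 := by
    rw [map_inv₀]
    exact inv_lt_one_of_one_lt₀ (not_le.1 fun h2 => h1 ((O.valuation_le_one_iff σ).1 h2))
  obtain ⟨hlc, hcv, -, -, hcf⟩ := h.rev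
  have hev : S.ev (S.rev 2 G) σ⁻¹ = S.sc (σ⁻¹ ^ 2) x := by
    rw [ev_rev h.deg (inv_ne_zero h0), inv_inv, ht.1]
  have hco : ∀ i j, (S.rev 2 G i).coeff j ∈ cl (Y ∪ cf G) := fun i j =>
    subset_cl _ (Or.inr (hcf ▸ ⟨i, j, rfl⟩))
  have hin : ∀ p : W[X], (∀ j, p.coeff j ∈ O) → p.eval σ⁻¹ ∈ O := fun p hp => by
    rw [eval_eq_sum_range]
    exact sum_mem fun j _ => mul_mem (hp j) (pow_mem hs j)
  obtain ⟨hg, hO'⟩ := pbob_gen hS (x' := S.ev (S.rev 2 G) σ⁻¹) hy hO
    (subset_union_left.trans (subset_cl _)) (fun i => hcv ▸ hco i 0) (hlc.ev_on _)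
    (fun i => hin _ fun j => hO _ (hco i j)) (fun i => by
      have e : S.ev (S.rev 2 G) σ⁻¹ i - S.top 2 G i = σ⁻¹ * (S.rev 2 G i).divX.eval σ⁻¹ := by
        rw [← hcv]
        have h2 := congrArg (eval σ⁻¹) (S.rev 2 G i).divX_mul_X_add
        rw [eval_add, eval_mul, eval_X, eval_C] at h2
        change (S.rev 2 G i).eval σ⁻¹ - (S.rev 2 G i).coeff 0 = _
        rw [← h2]
        ring
      rw [e, map_mul]
      refine mul_lt_one_of_lt_of_le hv ((O.valuation_le_one_iff _).2 (hin _ fun j => ?_))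
      rw [coeff_divX]
      exact hO _ (hco i _))
  have hf' : σ⁻¹ ^ 2 * f ∈ cl (Y ∪ range (S.ev (S.rev 2 G) σ⁻¹)) := by
    rw [hev] at hg ⊢
    exact pbob_wt hS hx hf hg
  have h3 := bol_fin hS hg hlc rfl (D := (-σ ^ 2) • D) (O := O)
    (fun a ha => by rw [Derivation.smul_apply, hD a (hcf ▸ ha), smul_zero])
    (by
      rw [Derivation.smul_apply, Derivation.leibniz_inv, hσ]
      simp only [smul_eq_mul]
      field_simp) (hcf ▸ hO) hs (Q := cl (Y ∪ range (S.ev (S.rev 2 G) σ⁻¹)))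
    (fun g hg' => ⟨hg', hO' g hg', (vec_tan hS hg hg').2⟩) hf' 3
  rw [pbob_id hσ h0, map_mul, Valuation.map_neg, map_pow]
  exact mul_lt_one_of_lt_of_le (pow_lt_one₀ zero_le hv (by norm_num))
    ((O.valuation_le_one_iff _).2 h3)

end Vale.Agent.P292
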