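import Vale.Agent.P292.P.Fam
import Vale.Agent.P292.P.BolA
import Vale.Agent.P292.P.BolB

/-! P292 P/Bol. Polynomiality from integrality of all derivatives. Helper names start with `pbo_`.
`D` from `Thru.spec`, `A = Y ∪ cf G`. `bol_fin`: `O` over `A` with `σ ∈ O`; `Ok.inv` at the residue of `x` (`exists_pl`, `pv_ev`) gives `q(x)` a
unit of `O` and `ξ = a(x) G'(σ) / q(x)`; `D g = - ξ ⬝ᵥ vec g`; the set of `c` with all `D^[i] c ∈ O` is a ring containing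
`σ`, `cl A`, `q(x)⁻¹`; so the span of `Q` over this ring is stable under `D` and contained in `O`.
`bol_inf`: `s = σ⁻¹`, `x' = sc (s ^ 2) x = ev (rev 2 G) s` is generic over `Y` and reduces to `top 2 G`, so `O` is over
`Y ∪ range x'`; `f' = s ^ 2 f ∈ cl (Y ∪ range x')` (`wt_sp`); apply `bol_fin` to `rev 2 G`, `D' = - σ ^ 2 D`,
`Q = cl (Y ∪ range x')`; and `D^[3] f = - s ^ 4 D'^[3] f'`. `pol_of_int`: `D^[3] f ∈ cl A` by `mem_cl_of_val`; it has
valuation `< 1` at some `O` over `A` with `σ ∉ O`, so it is zero. -/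

open Polynomial Set Matrix

noncomputable section

namespace Vale.Agent.P292

open Vale.Agent.P271 Vale.Agent.P276

variable {K : Type} [Field K] [Algebra ℂ K] {N n m : ℕ} {t : Fin (N + 1) → K} {S : Cn K N}
  {W : Type} [Field W] [Algebra ℂ W]

variable [IsAlgClosed W] {δ k : ℕ} {G G₀ H : Fin S.M → W[X]} {O : ValuationSubring W}
  {A B Y : Set W} {x : Fin S.M → W} {f g σ : W} {𝓕 : (Fin S.M → W[X]) → Prop}

theorem pol_of_int (hS : S.Ok t n m) (hx : S.GenO n Y x) (h : S.LC 2 G) (ht : S.Thru Y x G σ)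
    (hy : S.GenO n Y (S.top 2 G)) {Q : Set W} (hQ : ∀ g ∈ Q, g ∈ cl (Y ∪ range x) ∧
      (∀ O, Ov (Y ∪ cf G) O → σ ∈ O → g ∈ O) ∧ ∀ i, S.vec Y x g i ∈ Q) (hf : f ∈ Q)
    (hw : S.Wt Y x 1 f) : Cn.PolOn Y G σ 2 f := by
  obtain ⟨hσ, -, D, hD, hD1, -, -, hP⟩ := ht.spec hx.1
  have h1 : Y ∪ range x ⊆ cl (insert σ (Y ∪ cf G)) := by
    rintro a (ha | ⟨i, rfl⟩)
    · exact subset_cl _ (Or.inr (Or.inl ha))
    · rw [← ht.1, Cn.ev, eval_eq_sum_range]
      have h2 : σ ∈ cl (insert σ (Y ∪ cf G)) := subset_cl _ (mem_insert _ _)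
      exact sum_mem fun j _ => mul_mem (subset_cl _ (Or.inr (Or.inr ⟨i, j, rfl⟩))) (pow_mem h2 _)
  refine hP 2 f (cl_le h1 hw.1) ?_
  have h2 : D^[3] f ∈ cl (Y ∪ cf G) := by
    refine mem_cl_of_val fun O hO => ?_
    by_cases h3 : σ ∈ O
    · exact bol_fin hS hx h ht.1 hD hD1 hO h3
        (fun g hg => ⟨(hQ g hg).1, (hQ g hg).2.1 O hO h3, (hQ g hg).2.2⟩) hf 3
    · exact (O.valuation_le_one_iff _).1 (bol_inf hS hx h ht hy hD hD1 hO h3 hw).le
  by_contra h0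
  refine hσ (mem_cl_of_val fun O hO => ?_)
  by_contra h3
  exact (bol_inf hS hx h ht hy hD hD1 hO h3 hw).ne (hO.val_one h2 h0)

end Vale.Agent.P292
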