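import Vale.Agent.P292.P.H

/-! P292 P/CaseI. No pair of lines: `A` is linear along full conics. Helper names start with `pc1_`.
With `D` of `Thru.spec`, `2 D A = om x G'(σ) (cv H 1)`. Let `O` be over `Y ∪ cf G`, `exists_pl`. If `σ ∈ O` the ends of
`H` are primitive and the residues have projective rank at least `2 n + (2 n + 1)` (`rk_ev` if `σ` is congruent to
an element of `cl (Y ∪ cf G)`, which is algebraically closed and embeds into the residue field; otherwise the place is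
trivial on `cl (insert σ (Y ∪ cf G))`), so `no_break`. If `σ ∉ O` use `scP (σ⁻¹ ^ 2) (dil σ H)`; its start reduces to
`top 2 G`. So `D A ∈ cl (Y ∪ cf G)`, `A` is linear and `A ^ 2` quadratic. -/

open Polynomial Set Matrix

noncomputable section

namespace Vale.Agent.P292

open Vale.Agent.P271 Vale.Agent.P276

variable {K : Type} [Field K] [Algebra ℂ K] {N n m : ℕ} {t : Fin (N + 1) → K} {S : Cn K N}
  {W : Type} [Field W] [Algebra ℂ W]

variable [IsAlgClosed W] {δ k : ℕ} {G G₀ H : Fin S.M → W[X]} {O : ValuationSubring W}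
  {A B Y : Set W} {x : Fin S.M → W} {f g σ : W} {𝓕 : (Fin S.M → W[X]) → Prop}

section

variable {κ : Type} [Field κ] [Algebra ℂ κ] {P : Place ℂ W κ}

omit [IsAlgClosed W] in
theorem pc1_triv (hO : Ov B P.O) {T : Set W} (hT : T ⊆ cl B) {T' : Set κ} (hf : T'.Finite)
    (h : ∀ a ∈ T, ∃ a' ∈ T', P.Red a a') : rk T ≤ rk T' := by
  let φ : cl B →ₐ[ℂ] κ :=
    { P.r.comp ((cl B).val.toRingHom.codRestrict P.O fun a => hO a a.2) with
      commutes' := fun c => P.alg c }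
  have e : T = (cl B).val '' ((cl B).val ⁻¹' T) :=
    (image_preimage_eq_of_subset fun a ha => ⟨⟨a, hT ha⟩, rfl⟩).symm
  rw [e, rk_image, ← rk_image φ]
  refine rk_mono hf (Subset.trans ?_ (subset_cl _))
  rintro _ ⟨a, ha, rfl⟩
  obtain ⟨a', h1, h2, h3⟩ := h a ha
  exact mem_of_eq_of_mem h3 h1

omit [IsAlgClosed W] in
theorem pc1_pj (hO : Ov B P.O) {α : Type} {x : α → W} {x' : α → κ} (hx : range x ⊆ cl B)
    (hr : P.RedV x x') : ∀ a ∈ pj x, ∃ a' ∈ pj x', P.Red a a' := by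
  rintro _ ⟨i, j, rfl⟩
  refine ⟨_, ⟨i, j, rfl⟩, ?_⟩
  by_cases h : x j = 0
  · have := hr j
    rw [h] at this
    rw [this.unique Place.red_zero, h, div_zero, div_zero]
    exact Place.red_zero
  · rw [div_eq_mul_inv, div_eq_mul_inv]
    exact (hr i).mul ((hr j).inv ((hr j).ne_zero (hO.val_one (hx ⟨j, rfl⟩) h)))

theorem pc1_ov (hO : Ov B O) (h : ∀ s ∈ cl B, O.valuation (σ - s) = 1) : Ov (insert σ B) O := by
  have := cl_closed B
  have v : ∀ q : (cl B)[X], q ≠ 0 → O.valuation (aeval σ q) = 1 := fun q hq => by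
    rw [(IsAlgClosed.splits q).eq_prod_roots, map_mul, map_mul, aeval_C, map_multiset_prod,
      map_multiset_prod, Multiset.map_map, Multiset.map_map, Multiset.prod_eq_one, mul_one]
    · exact hO.val_one q.leadingCoeff.2 fun e => leadingCoeff_ne_zero.2 hq (Subtype.ext e)
    · intro a ha
      obtain ⟨s, -, rfl⟩ := Multiset.mem_map.1 ha
      simpa using h s s.2
  refine ov_iff.2 fun a ha => ?_
  have m : a ∈ IntermediateField.adjoin (cl B) {σ} :=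
    (IntermediateField.adjoin_le_iff (T := (IntermediateField.adjoin (cl B) {σ}).restrictScalars ℂ)).2
      (insert_subset (IntermediateField.mem_adjoin_simple_self _ σ) fun b hb =>
        IntermediateField.algebraMap_mem _ (⟨b, subset_cl B hb⟩ : cl B)) ha
  obtain ⟨r, s, rfl⟩ := (IntermediateField.mem_adjoin_simple_iff _ _).1 m
  rcases eq_or_ne r 0 with rfl | hr
  · rw [map_zero, zero_div]; exact zero_mem _
  rcases eq_or_ne s 0 with rfl | hs
  · rw [map_zero, div_zero]; exact zero_mem _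
  rw [← O.valuation_le_one_iff, map_div₀, v r hr, v s hs, div_one]

end

omit [Field K] [Algebra ℂ K] [IsAlgClosed W] in
theorem pc1_ev (G : Fin S.M → W[X]) (hG : cf G ⊆ cl B) (hσ : σ ∈ cl B) :
    range (S.ev G σ) ⊆ cl B := by
  rintro _ ⟨i, rfl⟩
  rw [Cn.ev, eval_eq_sum_range]
  exact sum_mem fun j _ => mul_mem (hG ⟨i, j, rfl⟩) (pow_mem hσ _)

theorem pc1_rk (hS : S.Ok t n m) (hY : Y.Finite) (hy : range x ⊆ cl Y) (hy' : S.GenO n ∅ x)
    (hG : S.FC n G) (hi : rk Y + rk (cf G) ≤ rk (Y ∪ cf G)) (s : W) :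
    4 * n + 1 ≤ rk (pj (S.ev G s ∘ S.e0) ∪ pj (x ∘ S.e0)) := by
  have f0 := pj_finite (x ∘ S.e0)
  have a := rk_rel f0 hY (cf_finite G)
    ((pj_sub _).trans (cl_le ((range_comp_subset_range _ _).trans hy)))
  have b := (rk_ev hS (Or.inr ⟨rfl, hG⟩) f0 (by omega) s).2
  obtain ⟨i, hi'⟩ := Function.ne_iff.1 (e0_ne hS hy'.2.1 hy'.ne)
  have c := (rk_mono (f0.insert _) ((sub_cl_e0 hS hy'.2.1).trans (cl_le (range_sub hi')))).trans
    (rk_insert_le f0 _)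
  have d := hy'.2.2
  rw [empty_union] at d
  rw [union_comm]
  omega

theorem pc1_brk (hS : S.Ok t n m) (h : S.LC 2 H) (hY : Y.Finite) (hy : range (S.top 2 H) ⊆ cl Y)
    (hy' : S.GenO n ∅ (S.top 2 H))
    (hp : ∀ (V : Type) [Field V] [Algebra ℂ V] [IsAlgClosed V] (R₁ R₂ : Fin S.M → V[X]),
      ¬ S.Pair n R₁ R₂) (hG : S.FC n G) (hi : rk Y + rk (cf G) ≤ rk (Y ∪ cf G))
    (hO : Ov (Y ∪ cf G) O) (hs : σ ∈ O) (e : S.ev G σ = cv H 0) : ∀ a ∈ cf H, a ∈ O := by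
  obtain ⟨κ, _, _, _, P, rfl⟩ := exists_pl hO
  have g1 : cf G ⊆ cl (Y ∪ cf G) := subset_union_right.trans (subset_cl _)
  have y1 : range (S.top 2 H) ⊆ cl (Y ∪ cf G) := hy.trans (cl_mono subset_union_left)
  obtain ⟨G', hG'⟩ := P.exists_redP fun a ha => hO a (g1 ha)
  obtain ⟨σ', hσ'⟩ := P.exists_red_mem hs
  choose y' ry using fun i => P.exists_red_mem (hO _ (y1 ⟨i, rfl⟩))
  have rx : P.RedV (S.ev G σ) (S.ev G' σ') := hG'.eval hσ'
  obtain ⟨i, hi1⟩ := ((pv_ev hG.1 (hO.mono g1)).1 hs).2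
  obtain ⟨j, hj⟩ := (hO.pv y1 hy'.ne).2
  have key : ∀ (B : Set W) (s : W), Ov B P.O → Y ∪ cf G ⊆ cl B → s ∈ cl B → P.Red s σ' →
      4 * n + 1 ≤ rk (pj (S.ev G' σ' ∘ S.e0) ∪ pj (y' ∘ S.e0)) := fun B s hB h1 h2 h3 => by
    have a1 := (range_comp_subset_range S.e0 _).trans
      (pc1_ev G (subset_union_right.trans h1) h2)
    have a2 := (range_comp_subset_range S.e0 _).trans (y1.trans (cl_le h1))
    refine (pc1_rk hS hY hy hy' hG hi s).trans (pc1_triv hB (union_subset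
      ((pj_sub _).trans (cl_le a1)) ((pj_sub _).trans (cl_le a2)))
      ((pj_finite _).union (pj_finite _)) ?_)
    rintro a (ha | ha)
    · obtain ⟨a', k1, k2⟩ := pc1_pj hB a1 (x' := S.ev G' σ' ∘ S.e0) (fun l => hG'.eval h3 _) a ha
      exact ⟨a', Or.inl k1, k2⟩
    · obtain ⟨a', k1, k2⟩ := pc1_pj hB a2 (x' := y' ∘ S.e0) (fun l => ry _) a ha
      exact ⟨a', Or.inr k1, k2⟩
  refine no_break hS h P (e ▸ rx) ry (Function.ne_iff.2 ⟨i, (rx i).ne_zero hi1⟩)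
    (Function.ne_iff.2 ⟨j, (ry j).ne_zero hj⟩) (hp κ) ?_
  by_cases hc : ∃ s ∈ cl (Y ∪ cf G), P.Red s σ'
  · obtain ⟨s, h1, h2⟩ := hc
    exact key _ s hO (subset_cl _) h1 h2
  · refine key (insert σ (Y ∪ cf G)) σ (pc1_ov hO fun s h1 => ?_)
      ((subset_insert _ _).trans (subset_cl _)) (subset_cl _ (mem_insert _ _)) hσ'
    obtain ⟨s', h2⟩ := P.exists_red_mem (hO s h1)
    exact (hσ'.sub h2).val_eq_one (sub_ne_zero.2 fun e => hc ⟨s, h1, e ▸ h2⟩)

theorem pc1_om (hS : S.Ok t n m) (h : S.LC 2 H) (hY : Y.Finite) (hy : range (S.top 2 H) ⊆ cl Y)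
    (hy' : S.GenO n ∅ (S.top 2 H))
    (hp : ∀ (V : Type) [Field V] [Algebra ℂ V] [IsAlgClosed V] (R₁ R₂ : Fin S.M → V[X]),
      ¬ S.Pair n R₁ R₂) (hG : S.FC n G) (hi : rk Y + rk (cf G) ≤ rk (Y ∪ cf G))
    (hO : Ov (Y ∪ cf G) O) (e : S.ev G σ = cv H 0) :
    S.om (cv H 0) (S.ev (fun i => derivative (G i)) σ) (cv H 1) ∈ O := by
  have g1 : cf G ⊆ cl (Y ∪ cf G) := subset_union_right.trans (subset_cl _)
  obtain ⟨p1, p2⟩ := pv_ev hG.1 (hO.mono g1) (s := σ)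
  obtain ⟨x1, x2, x3⟩ := h.cv_on
  have tv := (hG.1.on.der').ev σ
  rw [e] at tv p1 p2
  by_cases hs : σ ∈ O
  · refine om_int hS hO.empty x1 (p1 hs) tv x3 (fun i => ?_) fun i =>
      pc1_brk hS h hY hy hy' hp hG hi hO hs e _ ⟨i, 1, rfl⟩
    rw [Cn.ev, eval_eq_sum_range]
    refine sum_mem fun j _ => mul_mem ?_ (pow_mem hs _)
    rw [coeff_derivative]
    exact mul_mem (hO _ (g1 ⟨i, _, rfl⟩)) (add_mem (natCast_mem _ _) (one_mem _))
  have s0 : σ ≠ 0 := fun e => hs (e ▸ zero_mem _)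
  have r0 : σ⁻¹ ^ 2 ≠ 0 := pow_ne_zero _ (inv_ne_zero s0)
  obtain ⟨d1, d2, d3, d4, -⟩ := h.dil s0
  obtain ⟨c1, c2, c3, -⟩ := d1.scP r0
  have ty : S.top 2 (S.scP (σ⁻¹ ^ 2) (dil σ H)) = S.top 2 H := by
    rw [c3, d3]
    funext i
    simp only [Cn.sc]
    rw [← mul_assoc, ← mul_pow, ← mul_pow, inv_mul_cancel₀ s0, one_pow, one_pow, one_mul]
  have cf' := hG.1.rev.2.2.2.2
  have b := pc1_brk hS c1 hY (ty ▸ hy) (ty ▸ hy') hp (hG.spec hS).2.2.2 (cf' ▸ hi) (cf' ▸ hO)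
    ((O.mem_or_inv_mem σ).resolve_left hs) (by
      rw [ev_rev hG.1.deg (inv_ne_zero s0), inv_inv, e, c2, d2])
  have t1 : S.Tan _ (σ • _) := (S.TanS _).smul_mem σ tv
  have t2 : S.Tan _ (σ • _) := (S.TanS _).smul_mem σ x3
  have k := om_int hS hO.empty (x1.sc _) (p2 hs).1 (t1.sc _) (t2.sc _) (fun i => by
      have := (p2 hs).2 i
      rwa [mul_comm σ, mul_assoc] at this) fun i => by
    have := b _ ⟨i, 1, rfl⟩
    rwa [show (S.scP (σ⁻¹ ^ 2) (dil σ H) i).coeff 1 = _ from congrFun (c2 1) i, d4] at this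
  have l := om_left (S := S) (cv H 0) (S.ev (fun i => derivative (G i)) σ) 0 (σ • cv H 1) σ 0
  have r := om_right hS x1 x2 tv x3 x3 σ 0
  rw [zero_smul, add_zero, zero_mul, add_zero] at l r
  rwa [om_sc hS x1 x2 t1 t2 r0, l, r, ← mul_assoc, ← mul_assoc, sq, mul_assoc σ⁻¹,
    inv_mul_cancel₀ s0, mul_one, inv_mul_cancel₀ s0, one_mul] at k

theorem h_caseI (hS : S.Ok t n m) (h : S.LC 2 H) (h0 : S.Av H ≠ 0) (hx : S.GenO n Y (cv H 0))
    (hy : range (S.top 2 H) ⊆ cl Y) (hy' : S.GenO n ∅ (S.top 2 H))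
    (hp : ∀ (V : Type) [Field V] [Algebra ℂ V] [IsAlgClosed V] (R₁ R₂ : Fin S.M → V[X]),
      ¬ S.Pair n R₁ R₂) (hG : S.FC n G) (ht : S.Thru Y (cv H 0) G σ) :
    Cn.PolOn Y G σ 2 (S.Av H ^ 2) := by
  obtain ⟨-, hi, D, d1, -, d2, -, d3⟩ := ht.spec hx.1
  have m : S.Av H ∈ cl (insert σ (Y ∪ cf G)) := by
    refine cl_le (union_subset ?_ ?_) (vec_h hS h h0 hx hy).2.1
    · exact (subset_union_left.trans (subset_insert _ _)).trans (subset_cl _)
    · rw [← ht.1]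
      exact pc1_ev G ((subset_union_right.trans (subset_insert _ _)).trans (subset_cl _))
        (subset_cl _ (mem_insert _ _))
  have a := dA hS h D
  have z : S.om (S.top 2 H) (fun i => D (S.top 2 H i)) (cv (S.rev 2 H) 1) = 0 := by
    rw [show (fun i => D (S.top 2 H i)) = 0 from funext fun i =>
      d1 _ (cl_mono subset_union_left (hy ⟨i, rfl⟩)), Cn.om]
    split_ifs
    exacts [zero_dotProduct _, rfl]
  rw [z, sub_zero, funext d2] at a
  have b : 2 * D (S.Av H) ∈ cl (Y ∪ cf G) := mem_cl_of_val fun O hO =>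
    a ▸ pc1_om hS h hx.1 hy hy' hp hG hi hO ht.1
  have c : D (S.Av H) ∈ cl (Y ∪ cf G) := by
    have := (cl (Y ∪ cf G)).smul_mem b (x := (2 : ℂ)⁻¹)
    rwa [two_mul, ← two_smul ℂ, smul_smul, inv_mul_cancel₀ two_ne_zero, one_smul] at this
  refine d3 2 _ (pow_mem m 2) ?_
  simp [sq, Derivation.leibniz, d1 _ c]

end Vale.Agent.P292
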