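import Vale.Agent.P292.B.Main

/-! P292 P/DescA (split from P/Desc). Descent of a tensor decomposition. Helper names start with `pdea_`.
`desc_one`: choose `a : ℂ` outside the finitely many roots of the leading coefficients of polynomial equations of the
`c i` over `(cl A)[s]` and of the `e i` over `(cl B)[s]`; take a place over `cl (A ∪ B)` with `s ≡ a` (`place_of_sp0`) of the field
`cl (insert s (A ∪ B))`; residues of the `c i` are algebraic over `cl A`, hence in `cl A`. `desc`: replace `T` by a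
transcendence basis and induct (apply `desc_one` with `A ∪ T'`, `B ∪ T'`). `desc_li`: induction on the number of terms. -/

open Polynomial Set Matrix

noncomputable section

namespace Vale.Agent.P292

open Vale.Agent.P271 Vale.Agent.P276

variable {K : Type} [Field K] [Algebra ℂ K] {N n m : ℕ} {t : Fin (N + 1) → K} {S : Cn K N}
  {W : Type} [Field W] [Algebra ℂ W]

theorem pdea_ev {L V R κ : Type} [Field L] [Field V] [CommRing R] [Field κ] [Algebra L V]
    [Algebra L κ] (P : Place L V κ) (i : R →+* V) (j : R →+* κ) (hij : ∀ x, P.Red (i x) (j x))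
    {s : V} {a : κ} (hs : P.Red s a) (p : R[X]) : P.Red (p.eval₂ i s) (p.eval₂ j a) := by
  have hk : ∀ k : ℕ, P.Red (s ^ k) (a ^ k) := by
    intro k
    induction k with
    | zero => rw [pow_zero, pow_zero]; exact Place.red_one
    | succ k ih => rw [pow_succ, pow_succ]; exact ih.mul hs
  induction p using Polynomial.induction_on' with
  | add p q hp hq => rw [eval₂_add, eval₂_add]; exact hp.add hq
  | monomial k b => rw [eval₂_monomial, eval₂_monomial]; exact (hij b).mul (hk k)

theorem pdea_red {L V M κ : Type} [Field L] [Field V] [Field M] [Field κ] [Algebra L V]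
    [Algebra L κ] [IsAlgClosed M] (P : Place L V κ) (i : M →+* V) (j : M →+* κ)
    (hij : ∀ x, P.Red (i x) (j x)) {s c : V} {a : M} (hs : P.Red s (j a)) {Q : M[X][X]}
    (hQ : Q.leadingCoeff.eval a ≠ 0) (h0 : Q.eval₂ (eval₂RingHom i s) c = 0) :
    ∃ c' : M, P.Red c (j c') := by
  have hp : ∀ p : M[X], P.Red (eval₂RingHom i s p) (j.comp (evalRingHom a) p) := fun p => by
    have h1 := pdea_ev P i j hij hs p
    rwa [eval₂_at_apply] at h1
  have hmem := P.mem_of_isIntegral (eval₂RingHom i s) (fun p => (hp p).fst)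
    (RingHom.isIntegralElem_leadingCoeff_mul _ Q c h0)
  have hv := (hp Q.leadingCoeff).val_eq_one ((map_ne_zero j).2 hQ)
  have hc : P.O.valuation c ≤ 1 := by
    have h1 := (P.O.valuation_le_one_iff _).2 hmem
    rwa [map_mul, hv, one_mul] at h1
  obtain ⟨y, hy⟩ := Place.exists_red hc
  have hz := pdea_ev P _ _ hp hy Q
  rw [h0] at hz
  have hne : Q.map (evalRingHom a) ≠ 0 := fun h => hQ (by
    have h1 := coeff_map (evalRingHom a) (p := Q) Q.natDegree
    rw [h, coeff_zero] at h1
    exact h1.symm)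
  have hr : ((Q.map (evalRingHom a)).map j).IsRoot y := by
    rw [IsRoot.def, Polynomial.map_map, eval_map]
    exact hz.unique Place.red_zero
  obtain ⟨c', rfl⟩ := (IsAlgClosed.splits _).mem_range_of_isRoot hne hr
  exact ⟨c', hy⟩

theorem pdea_alg {M V : Type} [Field M] [Field V] [Algebra M V] {s c : V}
    (h : IsAlgebraic (Algebra.adjoin M {s}) c) :
    ∃ Q : M[X][X], Q ≠ 0 ∧ Q.eval₂ (eval₂RingHom (algebraMap M V) s) c = 0 := by
  obtain ⟨p, hp, h0⟩ := h
  let f : M[X] →+* Algebra.adjoin M {s} := (eval₂RingHom (algebraMap M V) s).codRestrict _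
    fun q => Polynomial.aeval_mem_adjoin_singleton M s
  have hf : Function.Surjective f := fun y => by
    obtain ⟨q, hq⟩ := (Algebra.adjoin_singleton_eq_range_aeval M s).le y.2
    exact ⟨q, Subtype.ext hq⟩
  obtain ⟨Q, rfl⟩ := Polynomial.map_surjective f hf p
  refine ⟨Q, fun e => hp (by rw [e, Polynomial.map_zero]), ?_⟩
  rw [aeval_def, eval₂_map] at h0
  exact h0

theorem pdea_eq {V : Type} [Field V] [Algebra ℂ V] {D : Set V} {s c : V}
    (h : c ∈ cl (insert s D)) : ∃ Q : (cl D)[X][X], Q ≠ 0 ∧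
      Q.eval₂ (eval₂RingHom (algebraMap (cl D) V) s) c = 0 :=
  pdea_alg (Ind_cl.1 (rkb_cl.2 (by rwa [union_singleton])))

theorem pdea_key {V κ : Type} [Field V] [Algebra ℂ V] [Field κ] {E F : IntermediateField ℂ V}
    (hE : IsAlgClosed E) (hD : E ≤ F) [Algebra F κ] (P : Place F V κ) {s y : V} {a : ℂ}
    (hP : P.Red s (algebraMap F κ (algebraMap ℂ F a))) {T : E[X][X]}
    (h1 : T.leadingCoeff.eval (algebraMap ℂ E a) ≠ 0)
    (h2 : T.eval₂ (eval₂RingHom (algebraMap E V) s) y = 0) :
    ∃ y' : F, (y' : V) ∈ E ∧ P.Red y (algebraMap F κ y') := by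
  obtain ⟨c', hc'⟩ := pdea_red P (algebraMap E V)
    ((algebraMap F κ).comp (IntermediateField.inclusion hD).toRingHom)
    (fun z => Place.red_algebraMap (IntermediateField.inclusion hD z)) (by
      rw [RingHom.comp_apply, AlgHom.toRingHom_eq_coe, RingHom.coe_coe, AlgHom.commutes]
      exact hP) h1 h2
  exact ⟨IntermediateField.inclusion hD c', c'.2, hc'⟩

theorem pdea_dot {V κ ι : Type} [Field V] [Algebra ℂ V] [Field κ] [Fintype ι]
    {F : IntermediateField ℂ V} [Algebra F κ] (P : Place F V κ) {c e : ι → V} (hf : c ⬝ᵥ e ∈ F)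
    {c' e' : ι → F} (hr : ∀ i, P.Red (c i) (algebraMap F κ (c' i)))
    (hr' : ∀ i, P.Red (e i) (algebraMap F κ (e' i))) :
    (fun i => (c' i : V)) ⬝ᵥ (fun i => (e' i : V)) = c ⬝ᵥ e := by
  have h1 := Place.Red.sum Finset.univ fun i _ => (hr i).mul (hr' i)
  have h2 := h1.unique (Place.red_algebraMap (P := P) (⟨c ⬝ᵥ e, hf⟩ : F))
  simp only [← map_mul, ← map_sum] at h2
  have h3 := congrArg (algebraMap F V) ((algebraMap F κ).injective h2)
  rw [map_sum] at h3
  exact h3

theorem pdea_sp {L V : Type} [Field L] [Field V] [Algebra L V] {s : V} (hs : Transcendental L s)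
    (a : L) : Sp L (fun _ : Unit => s) fun _ : Unit => a := by
  intro p hp
  have hai : AlgebraicIndependent L fun _ : Unit => s := algebraicIndependent_unique_type_iff.2 hs
  rw [algebraicIndependent_iff.1 hai p hp, map_zero]

theorem pdea_fin {M : Type} [Field M] [Algebra ℂ M] {q : M[X]} (hq : q ≠ 0) :
    ∀ᶠ a : ℂ in Filter.cofinite, q.eval (algebraMap ℂ M a) ≠ 0 := by
  rw [Filter.eventually_cofinite]
  exact ((finite_setOfPred_isRoot hq).preimage (algebraMap ℂ M).injective.injOn).subset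
    fun a ha => not_not.1 ha

variable [IsAlgClosed W] {δ k : ℕ} {G G₀ H : Fin S.M → W[X]} {O : ValuationSubring W}
  {A B Y : Set W} {x : Fin S.M → W} {f g σ : W} {𝓕 : (Fin S.M → W[X]) → Prop}

theorem desc_one (hA : A.Finite) (hB : B.Finite) {s : W} (hs : s ∉ cl (A ∪ B)) {ι : Type} [Fintype ι]
    {c e : ι → W} (hc : ∀ i, c i ∈ cl (insert s A)) (he : ∀ i, e i ∈ cl (insert s B))
    (hf : c ⬝ᵥ e ∈ cl (A ∪ B)) :
    ∃ c' e' : ι → W, (∀ i, c' i ∈ cl A) ∧ (∀ i, e' i ∈ cl B) ∧ c' ⬝ᵥ e' = c ⬝ᵥ e := by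
  choose Q hQ hQ0 using fun i => pdea_eq (hc i)
  choose R hR hR0 using fun i => pdea_eq (he i)
  obtain ⟨a, ha, ha'⟩ := ((Filter.eventually_all.2 fun i =>
    pdea_fin (leadingCoeff_ne_zero.2 (hQ i))).and (Filter.eventually_all.2 fun i =>
      pdea_fin (leadingCoeff_ne_zero.2 (hR i)))).exists
  obtain ⟨κ, _, _, _, P, hP⟩ :=
    place_of_sp0 (pdea_sp (not_mem_cl.1 hs) (algebraMap ℂ (cl (A ∪ B)) a))
  choose c' hc' hr using fun i =>
    pdea_key (cl_closed A) (cl_mono subset_union_left) P (hP ()) (ha i) (hQ0 i)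
  choose e' he' hr' using fun i =>
    pdea_key (cl_closed B) (cl_mono subset_union_right) P (hP ()) (ha' i) (hR0 i)
  exact ⟨fun i => c' i, fun i => e' i, hc', he', pdea_dot P hf hr hr'⟩

end Vale.Agent.P292
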