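import Vale.Agent.P292.B.Main
import Vale.Agent.P292.P.DescA

/-! P292 P/Desc. Descent of a tensor decomposition. Helper names start with `pde_`.
`desc_one`: choose `a : ℂ` outside the finitely many roots of the leading coefficients of polynomial equations of the
`c i` over `(cl A)[s]` and of the `e i` over `(cl B)[s]`; take a place over `cl (A ∪ B)` with `s ≡ a` (`place_of_sp0`) of the field
`cl (insert s (A ∪ B))`; residues of the `c i` are algebraic over `cl A`, hence in `cl A`. `desc`: replace `T` by a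
transcendence basis and induct (apply `desc_one` with `A ∪ T'`, `B ∪ T'`). `desc_li`: induction on the number of terms. -/

open Polynomial Set Matrix

noncomputable section

namespace Vale.Agent.P292

open Vale.Agent.P271 Vale.Agent.P276

variable {K : Type} [Field K] [Algebra ℂ K] {N n m : ℕ} {t : Fin (N + 1) → K} {S : Cn K N}
  {W : Type} [Field W] [Algebra ℂ W]

variable [IsAlgClosed W] {δ k : ℕ} {G G₀ H : Fin S.M → W[X]} {O : ValuationSubring W}
  {A B Y : Set W} {x : Fin S.M → W} {f g σ : W} {𝓕 : (Fin S.M → W[X]) → Prop}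

theorem desc (hA : A.Finite) (hB : B.Finite) {T : Set W} (hT : T.Finite)
    (h : rk (A ∪ B) + rk T ≤ rk (A ∪ B ∪ T)) {ι : Type} [Fintype ι] {c e : ι → W}
    (hc : ∀ i, c i ∈ cl (A ∪ T)) (he : ∀ i, e i ∈ cl (B ∪ T)) (hf : c ⬝ᵥ e ∈ cl (A ∪ B)) :
    ∃ c' e' : ι → W, (∀ i, c' i ∈ cl A) ∧ (∀ i, e' i ∈ cl B) ∧ c' ⬝ᵥ e' = c ⬝ᵥ e := by
  induction T, hT using Set.Finite.induction_on generalizing c e with
  | empty => exact ⟨c, e, by simpa using hc, by simpa using he, rfl⟩
  | @insert s T _ hT ih =>
    have hAB := hA.union hB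
    by_cases hs : s ∈ cl T
    · have key : ∀ C : Set W, C ∪ insert s T ⊆ cl (C ∪ T) := by
        rintro C y (hy | rfl | hy)
        · exact subset_cl _ (Or.inl hy)
        · exact cl_mono subset_union_right hs
        · exact subset_cl _ (Or.inr hy)
      have h1 : rk T ≤ rk (insert s T) :=
        rk_mono (hT.insert s) ((subset_insert _ _).trans (subset_cl _))
      have h2 := rk_mono (hAB.union hT) (key (A ∪ B))
      exact ih (by omega) (fun i => cl_le (key A) (hc i)) (fun i => cl_le (key B) (he i)) hf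
    · rw [rk_insert hT hs, union_insert] at h
      have h1 := rk_insert_le (hAB.union hT) s
      have h2 := rk_union_le hAB hT
      have e1 : A ∪ T ∪ (B ∪ T) = A ∪ B ∪ T := by
        ext y; simp only [mem_union]; tauto
      have h3 : s ∉ cl (A ∪ T ∪ (B ∪ T)) := by
        rw [e1]
        intro h4
        have h5 : rk (insert s (A ∪ B ∪ T)) ≤ rk (A ∪ B ∪ T) :=
          rk_mono (hAB.union hT) (insert_subset h4 (subset_cl _))
        omega
      obtain ⟨c', e', a1, a2, a3⟩ := desc_one (hA.union hT) (hB.union hT) h3 (c := c) (e := e)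
        (fun i => by rw [← union_insert]; exact hc i) (fun i => by rw [← union_insert]; exact he i)
        (by rw [e1]; exact cl_mono subset_union_left hf)
      obtain ⟨c'', e'', b1, b2, b3⟩ := ih (by omega) a1 a2 (by rw [a3]; exact hf)
      exact ⟨c'', e'', b1, b2, b3.trans a3⟩

omit [IsAlgClosed W] in
theorem desc_li {ι : Type} [Fintype ι] {c e : ι → W} (hc : ∀ i, c i ∈ cl A) (he : ∀ i, e i ∈ cl B) :
    ∃ (r : ℕ) (c' e' : Fin r → W), (∀ i, c' i ∈ cl A) ∧ (∀ i, e' i ∈ cl B) ∧
      LinearIndependent ℂ c' ∧ c' ⬝ᵥ e' = c ⬝ᵥ e := by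
  obtain ⟨κ, a, ha, hsp, hli⟩ := exists_linearIndependent' ℂ c
  haveI : Finite κ := Finite.of_injective a ha
  obtain ⟨r, ⟨q⟩⟩ := Finite.exists_equiv_fin κ
  have h1 : ∀ i, ∃ l : Fin r → ℂ, ∑ j, l j • c (a (q.symm j)) = c i := by
    intro i
    have h2 : c i ∈ Submodule.span ℂ (range fun j => c (a (q.symm j))) := by
      have : (range fun j => c (a (q.symm j))) = range (c ∘ a) := q.symm.surjective.range_comp (c ∘ a)
      rw [this, hsp]
      exact Submodule.subset_span (mem_range_self i)
    exact (Submodule.mem_span_range_iff_exists_fun ℂ).1 h2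
  choose l hl using h1
  refine ⟨r, fun j => c (a (q.symm j)), fun j => ∑ i, l i j • e i, fun j => hc _,
    fun j => sum_mem fun i _ => (cl B).smul_mem (he i), hli.comp _ q.symm.injective, ?_⟩
  simp only [dotProduct, Finset.mul_sum]
  rw [Finset.sum_comm]
  refine Finset.sum_congr rfl fun i _ => ?_
  rw [← hl i, Finset.sum_mul]
  refine Finset.sum_congr rfl fun j _ => ?_
  rw [mul_smul_comm, smul_mul_assoc]

end Vale.Agent.P292
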