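import Vale.Agent.P292.P.Nrm
import Vale.Agent.P276.E.GenA

/-! P292 P/DivA (split from P/Div). Divisorial valuations. Helper names start with `pdia_`.
`div_eq`: `R = (cl Y)[x]` is a normal Noetherian domain (`nrm_rel`); the centre `𝔭` is a nonzero prime containing no
smaller nonzero prime (ranks drop strictly, `inj_of_indep`, `sp_of_indep`) or zero; so `R_𝔭` is a valuation ring
(`IsDiscreteValuationRing.TFAE`, or directly: for `0 ≠ a ∈ 𝔭` pick `b ∉ (a)` with `𝔭 b ⊆ (a)`), and both `O₁`, `O₂`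
dominate it. `div_int`: the coefficients of the minimal polynomial of `f` over the field generated by `x` over
`cl Y` are symmetric functions of conjugates `θ f`, so lie in `O₂`, so in `O₁`. -/

open Polynomial Set Matrix

noncomputable section

namespace Vale.Agent.P292

open Vale.Agent.P271 Vale.Agent.P276

variable {K : Type} [Field K] [Algebra ℂ K] {N n m : ℕ} {t : Fin (N + 1) → K} {S : Cn K N}
  {W : Type} [Field W] [Algebra ℂ W]

theorem pdia_vr {R : Type} [CommRing R] [IsDomain R] [IsNoetherianRing R] [IsIntegrallyClosed R]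
    (𝔭 : Ideal R) [𝔭.IsPrime] (h : ∀ q : Ideal R, q.IsPrime → q ≠ ⊥ → q ≤ 𝔭 → q = 𝔭) (a c : R) :
    ∃ s r : R, r ∉ 𝔭 ∧ (a * s = c * r ∨ c * s = a * r) := by
  have h1 : IsIntegrallyClosed (Localization.AtPrime 𝔭) :=
    isIntegrallyClosed_of_isLocalization _ 𝔭.primeCompl 𝔭.primeCompl_le_nonZeroDivisors
  have h2 : ∀ P : Ideal (Localization.AtPrime 𝔭), P ≠ ⊥ → P.IsPrime →
      P = IsLocalRing.maximalIdeal _ := fun P h0 hP => by
    have h3 := IsLocalization.map_under 𝔭.primeCompl (Localization.AtPrime 𝔭) P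
    rw [← h3, h (P.under R) inferInstance (fun e => h0 (by rw [← h3, e, Ideal.map_bot])) ?_,
      Localization.AtPrime.map_eq_maximalIdeal]
    exact (Ideal.comap_mono (IsLocalRing.le_maximalIdeal hP.ne_top)).trans
      Localization.AtPrime.under_maximalIdeal.le
  have h3 : ValuationRing (Localization.AtPrime 𝔭) :=
    ((tfae_of_isNoetherianRing_of_isLocalRing_of_isDomain (Localization.AtPrime 𝔭)).out 3 1).1
      (And.intro h1 h2)
  obtain ⟨z, hz⟩ := ValuationRing.cond (algebraMap R (Localization.AtPrime 𝔭) a) (algebraMap _ _ c)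
  obtain ⟨⟨s, r⟩, he⟩ := IsLocalization.surj 𝔭.primeCompl z
  have hi := IsLocalization.injective (Localization.AtPrime 𝔭) 𝔭.primeCompl_le_nonZeroDivisors
  refine ⟨s, r, r.2, hz.imp (fun e => hi ?_) fun e => hi ?_⟩ <;>
    rw [map_mul, map_mul, ← he, ← mul_assoc, e]

section

variable {M ι : Type} [Field M] [Algebra M W] (x : ι → W)

/-- The generators inside the algebra that they generate. -/
def pdia_x (i : ι) : Algebra.adjoin M (range x) := ⟨x i, Algebra.subset_adjoin ⟨i, rfl⟩⟩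

omit [Algebra ℂ W] in
theorem pdia_coe (p : MvPolynomial ι M) :
    (MvPolynomial.aeval (pdia_x (M := M) x) p : Algebra.adjoin M (range x)).1 =
      MvPolynomial.aeval x p :=
  MvPolynomial.comp_aeval_apply (pdia_x x) (Algebra.adjoin M (range x)).val p

omit [Algebra ℂ W] in
theorem pdia_surj (r : Algebra.adjoin M (range x)) :
    ∃ p : MvPolynomial ι M, MvPolynomial.aeval (pdia_x (M := M) x) p = r := by
  obtain ⟨p, hp⟩ := (Algebra.adjoin_range_eq_range_aeval M x).le r.2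
  exact ⟨p, Subtype.ext ((pdia_coe x p).trans hp)⟩

omit [Algebra ℂ W] in
theorem pdia_ht {b : ι → W} {d : ℕ} (h1 : ¬ Indep M (range x) (d + 1 + 1))
    (h2 : Indep M (range b) d) {𝔭 : Ideal (Algebra.adjoin M (range x))}
    (h : ∀ p : MvPolynomial ι M, MvPolynomial.aeval (pdia_x x) p ∈ 𝔭 ↔ MvPolynomial.aeval b p = 0)
    (q : Ideal (Algebra.adjoin M (range x))) (hq : q.IsPrime) (h0 : q ≠ ⊥) (hle : q ≤ 𝔭) :
    q = 𝔭 := by
  let φ : Algebra.adjoin M (range x) →ₐ[M] FractionRing (Algebra.adjoin M (range x) ⧸ q) :=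
    (IsScalarTower.toAlgHom M (Algebra.adjoin M (range x) ⧸ q) _).comp (Ideal.Quotient.mkₐ M q)
  have hφ : ∀ p : MvPolynomial ι M, MvPolynomial.aeval (fun i => φ (pdia_x x i)) p = 0 ↔
      MvPolynomial.aeval (pdia_x x) p ∈ q := fun p => by
    rw [← MvPolynomial.comp_aeval_apply, ← Ideal.Quotient.eq_zero_iff_mem]
    exact map_eq_zero_iff _ (IsFractionRing.injective (Algebra.adjoin M (range x) ⧸ q) _)
  by_cases h3 : Indep M (range fun i => φ (pdia_x x i)) (d + 1)
  · refine absurd (eq_bot_iff.2 fun r hr => ?_) h0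
    obtain ⟨p, rfl⟩ := pdia_surj x r
    have h4 := inj_of_indep (fun Q hQ => (hφ Q).2 (by
      rw [show MvPolynomial.aeval (pdia_x x) Q = 0 from Subtype.ext ((pdia_coe x Q).trans hQ)]
      exact q.zero_mem)) h1 h3 p ((hφ p).2 hr)
    exact Subtype.ext ((pdia_coe x p).trans h4)
  · refine le_antisymm hle fun r hr => ?_
    obtain ⟨p, rfl⟩ := pdia_surj x r
    exact (hφ p).1 (inj_of_indep (fun Q hQ => (h Q).1 (hle ((hφ Q).1 hQ))) h3 h2 p ((h p).1 hr))

end

omit [Algebra ℂ W] in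
theorem pdia_val (O : ValuationSubring W) {s r : W} (hs : s ∈ O) (hr : r ∈ O)
    (h : ¬ O.valuation r < 1) : s / r ∈ O ∧ (s ≠ 0 → (r / s ∈ O ↔ ¬ O.valuation s < 1)) := by
  have h1 : O.valuation r = 1 := le_antisymm ((O.valuation_le_one_iff r).2 hr) (not_lt.1 h)
  refine ⟨(O.valuation_le_one_iff _).1 ?_, fun h0 => ?_⟩
  · rw [map_div₀, h1, div_one]
    exact (O.valuation_le_one_iff s).2 hs
  · rw [← O.valuation_le_one_iff, map_div₀, h1, not_lt,
      div_le_one₀ (zero_lt_iff.2 ((_root_.map_ne_zero _).2 h0))]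

variable [IsAlgClosed W] {δ k : ℕ} {G G₀ H : Fin S.M → W[X]} {O : ValuationSubring W}
  {A B Y : Set W} {x : Fin S.M → W} {f g σ : W} {𝓕 : (Fin S.M → W[X]) → Prop}

theorem div_eq (hS : S.Ok t n m) (hx : S.GenO n Y x) {O₁ O₂ : ValuationSubring W} (h1 : Ov Y O₁)
    (h2 : Ov Y O₂) (hx1 : ∀ i, x i ∈ O₁) (hx2 : ∀ i, x i ∈ O₂) {b : Fin S.M → W}
    (hb : rk Y + (2 * n + 1) ≤ rk (Y ∪ range b))
    (c1 : ∀ p : MvPolynomial (Fin S.M) (cl Y),
      O₁.valuation (MvPolynomial.aeval x p) < 1 ↔ MvPolynomial.aeval b p = 0)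
    (c2 : ∀ p : MvPolynomial (Fin S.M) (cl Y),
      O₂.valuation (MvPolynomial.aeval x p) < 1 ↔ MvPolynomial.aeval b p = 0) {y : W}
    (hy : y ∈ IntermediateField.adjoin (cl Y) (range x)) : y ∈ O₁ ↔ y ∈ O₂ := by
  open scoped IntermediateField.algebraAdjoinAdjoin in
  have hn : IsIntegrallyClosed (Algebra.adjoin (cl Y) (range x)) :=
    (isIntegrallyClosed_iff (IntermediateField.adjoin (cl Y) (range x))).2 fun {z} hz =>
      ⟨⟨z, nrm_rel hS hx z.2 hz.algebraMap⟩, rfl⟩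
  have hf : Algebra.FiniteType (cl Y) (Algebra.adjoin (cl Y) (range x)) :=
    .of_surjective (MvPolynomial.aeval (pdia_x x)) (pdia_surj x)
  have hN : IsNoetherianRing (Algebra.adjoin (cl Y) (range x)) :=
    Algebra.FiniteType.isNoetherianRing (cl Y) _
  have hO : ∀ O : ValuationSubring W, Ov Y O → (∀ i, x i ∈ O) →
      ∀ r : Algebra.adjoin (cl Y) (range x), r.1 ∈ O := fun O h3 h4 r => by
    refine Algebra.adjoin_induction ?_ (fun c => h3 c.1 c.2) (fun _ _ _ _ => add_mem)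
      (fun _ _ _ _ => mul_mem) r.2
    rintro _ ⟨i, rfl⟩
    exact h4 i
  let ψ : Algebra.adjoin (cl Y) (range x) →+* O₁ :=
    (Algebra.adjoin (cl Y) (range x)).val.toRingHom.codRestrict O₁ (hO O₁ h1 hx1)
  have e1 : ∀ r, r ∈ (IsLocalRing.maximalIdeal O₁).comap ψ ↔ O₁.valuation r.1 < 1 := fun r =>
    O₁.valuation_lt_one_iff (ψ r)
  have e2 : ∀ r : Algebra.adjoin (cl Y) (range x),
      O₁.valuation r.1 < 1 ↔ O₂.valuation r.1 < 1 := fun r => by
    obtain ⟨p, rfl⟩ := pdia_surj x r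
    rw [pdia_coe, c1, c2]
  have h3 : ¬ Indep (cl Y) (range x) (2 * n + 1 + 1 + 1) := fun h => by
    have h4 := (rel_iff_rk hx.1 (finite_range x)).1 h
    rw [hx.2.2] at h4
    omega
  obtain ⟨P, Q, rfl⟩ := (IntermediateField.mem_adjoin_range_iff _ x y).1 hy
  obtain ⟨s, r, hr, he⟩ := pdia_vr ((IsLocalRing.maximalIdeal O₁).comap ψ)
    (pdia_ht x h3 ((rel_iff_rk hx.1 (finite_range b)).2 hb) fun p => by rw [e1, pdia_coe, c1])
    (MvPolynomial.aeval (pdia_x x) P) (MvPolynomial.aeval (pdia_x x) Q)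
  rw [e1] at hr
  have h4 := pdia_val O₁ (hO O₁ h1 hx1 s) (hO O₁ h1 hx1 r) hr
  have h5 := pdia_val O₂ (hO O₂ h2 hx2 s) (hO O₂ h2 hx2 r) (mt (e2 r).2 hr)
  have hr0 : r.1 ≠ 0 := fun e => hr (by rw [e, map_zero]; exact zero_lt_one)
  by_cases hQ : MvPolynomial.aeval x Q = 0
  · rw [hQ, div_zero]
    exact iff_of_true (zero_mem _) (zero_mem _)
  rcases he with he | he
  · have h6 : MvPolynomial.aeval x P * s.1 = MvPolynomial.aeval x Q * r.1 := by
      rw [← pdia_coe, ← pdia_coe]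
      exact congrArg Subtype.val he
    have hs0 : s.1 ≠ 0 := fun e => mul_ne_zero hQ hr0 (by rw [← h6, e, mul_zero])
    rw [(div_eq_div_iff hQ hs0).2 (h6.trans (mul_comm _ _)), h4.2 hs0, h5.2 hs0, e2]
  · have h6 : MvPolynomial.aeval x Q * s.1 = MvPolynomial.aeval x P * r.1 := by
      rw [← pdia_coe, ← pdia_coe]
      exact congrArg Subtype.val he
    rw [(div_eq_div_iff hQ hr0).2 (h6.symm.trans (mul_comm _ _))]
    exact iff_of_true h4.1 h5.1

end Vale.Agent.P292
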