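import Vale.Agent.P292.P.Nrm
import Vale.Agent.P292.P.DivA

/-! P292 P/Div. Divisorial valuations. Helper names start with `pdi_`.
`div_eq`: `R = (cl Y)[x]` is a normal Noetherian domain (`nrm_rel`); the centre `𝔭` is a nonzero prime containing no
smaller nonzero prime (ranks drop strictly, `inj_of_indep`, `sp_of_indep`) or zero; so `R_𝔭` is a valuation ring
(`IsDiscreteValuationRing.TFAE`, or directly: for `0 ≠ a ∈ 𝔭` pick `b ∉ (a)` with `𝔭 b ⊆ (a)`), and both `O₁`, `O₂`
dominate it. `div_int`: the coefficients of the minimal polynomial of `f` over the field generated by `x` over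
`cl Y` are symmetric functions of conjugates `θ f`, so lie in `O₂`, so in `O₁`. -/

open Polynomial Set Matrix

noncomputable section

namespace Vale.Agent.P292

open Vale.Agent.P271 Vale.Agent.P276

variable {K : Type} [Field K] [Algebra ℂ K] {N n m : ℕ} {t : Fin (N + 1) → K} {S : Cn K N}
  {W : Type} [Field W] [Algebra ℂ W]

variable [IsAlgClosed W] {δ k : ℕ} {G G₀ H : Fin S.M → W[X]} {O : ValuationSubring W}
  {A B Y : Set W} {x : Fin S.M → W} {f g σ : W} {𝓕 : (Fin S.M → W[X]) → Prop}

theorem pdi_sp {L V ι : Type} [Field L] [Field V] [Algebra L V] {x : ι → V} {f g : V}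
    (h : aeval g (minpoly (IntermediateField.adjoin L (range x)) f) = 0) :
    Sp L (Sum.elim x fun _ : Unit => f) (Sum.elim x fun _ : Unit => g) := by
  have e : ∀ (a : V) (P : MvPolynomial (ι ⊕ Unit) L),
      MvPolynomial.aeval (Sum.elim x fun _ : Unit => a) P = aeval a (MvPolynomial.aeval
        (Sum.elim (fun i => C (⟨x i, IntermediateField.subset_adjoin _ _ ⟨i, rfl⟩⟩ :
          IntermediateField.adjoin L (range x))) fun _ : Unit => X) P) := by
    intro a P
    induction P using MvPolynomial.induction_on with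
    | C c =>
      rw [MvPolynomial.aeval_C, MvPolynomial.aeval_C, Polynomial.algebraMap_apply, aeval_C]
      rfl
    | add p p' h h' => rw [map_add, map_add, map_add, h, h']
    | mul_X p j h =>
      rw [map_mul, map_mul, map_mul, h, MvPolynomial.aeval_X, MvPolynomial.aeval_X]
      rcases j with j | j
      · rw [Sum.elim_inl, Sum.elim_inl, aeval_C]
        rfl
      · rw [Sum.elim_inr, Sum.elim_inr, aeval_X]
  intro P hP
  rw [e] at hP ⊢
  obtain ⟨q, hq⟩ := minpoly.dvd _ _ hP
  rw [hq, map_mul, h, zero_mul]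

theorem div_int (hW : Big W) (hY : Y.Finite) {O₁ O₂ : ValuationSubring W}
    (h : ∀ y ∈ IntermediateField.adjoin (cl Y) (range x), y ∈ O₂ → y ∈ O₁)
    (hf : f ∈ cl (Y ∪ range x))
    (h1 : ∀ θ : W ≃ₐ[ℂ] W, Fx (cl Y) θ → Fx (range x) θ → θ f ∈ O₂) : f ∈ O₁ := by
  have ha : IsAlgebraic (IntermediateField.adjoin (cl Y) (range x)) f :=
    IntermediateField.isAlgebraic_adjoin_iff.2 (Ind_cl.1 (rkb_cl.2 hf))
  have hi := ha.isIntegral
  have hm := (minpoly.monic hi).map (algebraMap (IntermediateField.adjoin (cl Y) (range x)) W)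
  have h2 : ∀ g ∈ ((minpoly (IntermediateField.adjoin (cl Y) (range x)) f).map
      (algebraMap _ W)).roots, g ∈ O₂ := by
    intro g hg
    have hg1 : aeval g (minpoly (IntermediateField.adjoin (cl Y) (range x)) f) = 0 := by
      rw [← eval_map_algebraMap]
      exact (mem_roots hm.ne_zero).1 hg
    have e := minpoly.eq_of_irreducible_of_monic (minpoly.irreducible hi) hg1 (minpoly.monic hi)
    obtain ⟨θ, t1, t2⟩ := aut_ext hW hY (pdi_sp hg1) (pdi_sp (x := x) (f := g) (g := f)
      (e ▸ minpoly.aeval _ f))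
    have t3 : θ f = g := t2 (Sum.inr ())
    rw [← t3]
    refine h1 θ t1 ?_
    rintro _ ⟨i, rfl⟩
    exact t2 (Sum.inl i)
  have h3 := (IsAlgClosed.splits _).mem_lift_of_roots_mem_range hm (algebraMap O₂ W)
    fun a ha => ⟨⟨a, h2 a ha⟩, rfl⟩
  have h4 : (minpoly (IntermediateField.adjoin (cl Y) (range x)) f).map (algebraMap _ W) ∈
      lifts (algebraMap O₁ W) := by
    refine (lifts_iff_coeff_lifts _).2 fun k => ?_
    obtain ⟨c, hc⟩ := (lifts_iff_coeff_lifts _).1 h3 k
    rw [← hc]
    refine ⟨⟨c, h c ?_ c.2⟩, rfl⟩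
    rw [coeff_map] at hc
    have hc' : (c : W) = ((minpoly (IntermediateField.adjoin (cl Y) (range x)) f).coeff k).1 := hc
    rw [hc']
    exact Subtype.prop _
  obtain ⟨q, q1, -, q2⟩ := lifts_and_degree_eq_and_monic h4 hm
  have h5 : IsIntegral O₁ f := ⟨q, q2, by
    rw [← eval_map, q1, eval_map_algebraMap, minpoly.aeval]⟩
  obtain ⟨y, hy⟩ := IsIntegrallyClosed.isIntegral_iff.1 h5
  exact hy ▸ y.2

end Vale.Agent.P292
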