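import Vale.Agent.P292.P.Fam

/-! P292 P/Eta. The top coefficient is the value at infinity. Helper names start with `pet_`.
By `wt_sp` the vector `(x, f)` specialises over `cl Y` to `(sc ρ x, ρ ^ k f)`, `ρ = σ⁻¹ ^ 2`, whose entries are
polynomials in `σ⁻¹` over `cl (Y ∪ cf G)`; put `σ⁻¹ = 0`. Ranks agree, so `sp_of_indep`, `aut_ext`. -/

open Polynomial Set Matrix

noncomputable section

namespace Vale.Agent.P292

open Vale.Agent.P271 Vale.Agent.P276

variable {K : Type} [Field K] [Algebra ℂ K] {N n m : ℕ} {t : Fin (N + 1) → K} {S : Cn K N}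
  {W : Type} [Field W] [Algebra ℂ W]

variable [IsAlgClosed W] {δ k : ℕ} {G G₀ H : Fin S.M → W[X]} {O : ValuationSubring W}
  {A B Y : Set W} {x : Fin S.M → W} {f g σ : W} {𝓕 : (Fin S.M → W[X]) → Prop}

omit [IsAlgClosed W] in
theorem pet_sp {α : Type} {s : W} (hs : s ∉ cl B) (hY : Y ⊆ cl B) {R : α → W[X]}
    (hR : ∀ a j, (R a).coeff j ∈ cl B) :
    Sp (cl Y) (fun a => (R a).eval s) fun a => (R a).eval 0 := by
  have h1 : ∀ a, ∃ T : (cl B)[X], T.map (algebraMap (cl B) W) = R a := fun a =>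
    (mem_lifts _).1 ((lifts_iff_coeff_lifts _).2 fun j => ⟨⟨_, hR a j⟩, rfl⟩)
  choose R' hR' using h1
  have h2 : ∀ p : MvPolynomial α (cl Y), ∃ T : (cl B)[X], ∀ b : W,
      aeval b T = MvPolynomial.aeval (fun a => (R a).eval b) p := by
    intro p
    induction p using MvPolynomial.induction_on with
    | C c => exact ⟨C ⟨c, cl_le hY c.2⟩, fun b => by rw [aeval_C, MvPolynomial.aeval_C]; rfl⟩
    | add p q hp hq =>
      obtain ⟨T, hT⟩ := hp
      obtain ⟨T', hT'⟩ := hq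
      exact ⟨T + T', fun b => by rw [map_add, map_add, hT, hT']⟩
    | mul_X p a hp =>
      obtain ⟨T, hT⟩ := hp
      exact ⟨T * R' a, fun b => by
        rw [map_mul, map_mul, hT, MvPolynomial.aeval_X, ← hR', eval_map_algebraMap]⟩
  intro p hp
  obtain ⟨T, hT⟩ := h2 p
  rw [← hT, transcendental_iff.1 (not_mem_cl.1 hs) T ((hT s).trans hp), map_zero]

theorem exists_eta (hS : S.Ok t n m) (hW : Big W) (hx : S.GenO n Y x) (h : S.LC 2 G)
    (ht : S.Thru Y x G σ) (hy : S.GenO n Y (S.top 2 G)) {ι : Type} [Fintype ι] {f : ι → W}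
    {q : ι → W[X]} (hf : ∀ i, S.Wt Y x k (f i)) (h1 : ∀ i, (q i).natDegree ≤ 2 * k)
    (h2 : ∀ i j, (q i).coeff j ∈ cl (Y ∪ cf G)) (h3 : ∀ i, f i = (q i).eval σ) :
    ∃ η : W ≃ₐ[ℂ] W, Fx (cl Y) η ∧ (∀ j, η (x j) = S.top 2 G j) ∧
      ∀ i, η (f i) = (q i).coeff (2 * k) := by
  have hY := hx.1
  have hσ := (ht.spec hY).1
  have hσ0 : σ ≠ 0 := fun h0 => hσ (h0 ▸ zero_mem _)
  have hs : σ⁻¹ ∉ cl (Y ∪ cf G) := fun h0 => hσ (by simpa using inv_mem h0)
  have hR : ∀ (a : Fin S.M ⊕ ι) (j : ℕ), (Sum.elim (fun j => reflect (2 * S.w j) (G j))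
      (fun i => reflect (2 * k) (q i)) a).coeff j ∈ cl (Y ∪ cf G) := by
    rintro (a | a) j
    · rw [Sum.elim_inl, coeff_reflect]
      exact subset_cl _ (Or.inr ⟨a, _, rfl⟩)
    · rw [Sum.elim_inr, coeff_reflect]
      exact h2 a _
  have a1 := pet_sp hs (subset_union_left.trans (subset_cl _)) hR
  have e1 : (fun a => (Sum.elim (fun j => reflect (2 * S.w j) (G j))
      (fun i => reflect (2 * k) (q i)) a).eval σ⁻¹) =
        Sum.elim (S.sc (σ⁻¹ ^ 2) x) fun i => (σ⁻¹ ^ 2) ^ k * f i := by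
    funext a
    rcases a with a | a
    · rw [Sum.elim_inl, Sum.elim_inl, ev_reflect (h.deg a) (inv_ne_zero hσ0), inv_inv, ← ht.1,
        pow_mul]
      rfl
    · rw [Sum.elim_inr, Sum.elim_inr, ev_reflect (h1 a) (inv_ne_zero hσ0), inv_inv, h3, pow_mul]
  have e2 : (fun a => (Sum.elim (fun j => reflect (2 * S.w j) (G j))
      (fun i => reflect (2 * k) (q i)) a).eval 0) =
        Sum.elim (S.top 2 G) fun i => (q i).coeff (2 * k) := by
    funext a
    rcases a with a | a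
    · rw [Sum.elim_inl, Sum.elim_inl, ← coeff_zero_eq_eval_zero, coeff_reflect, revAt_zero]
      rfl
    · rw [Sum.elim_inr, Sum.elim_inr, ← coeff_zero_eq_eval_zero, coeff_reflect, revAt_zero]
  rw [e1, e2] at a1
  have a2 : Sp (cl Y) (Sum.elim x f) (Sum.elim (S.top 2 G) fun i => (q i).coeff (2 * k)) :=
    fun p hp => a1 p (wt_sp hS hx (k := fun _ => k) hf (σ⁻¹ ^ 2) p hp)
  have b1 : ¬ Indep (cl Y) (range (Sum.elim x f)) (2 * n + 2 + 1) := by
    rw [rel_iff_rk hY (finite_range _)]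
    have h4 : rk (Y ∪ range (Sum.elim x f)) ≤ rk (Y ∪ range x) := by
      refine rk_mono (hY.union (finite_range _)) ?_
      rintro _ (ha | ⟨a | a, rfl⟩)
      · exact subset_cl _ (Or.inl ha)
      · exact subset_cl _ (Or.inr ⟨a, rfl⟩)
      · exact (hf a).1
    have h5 := hx.2.2
    omega
  have b2 : Indep (cl Y) (range (Sum.elim (S.top 2 G) fun i => (q i).coeff (2 * k)))
      (2 * n + 2) :=
    ((rel_iff_rk hY (finite_range _)).2 hy.2.2.ge).mono (by
      rintro _ ⟨a, rfl⟩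
      exact ⟨Sum.inl a, rfl⟩)
  obtain ⟨η, hη, hη'⟩ := aut_ext hW hY a2 (inj_of_indep a2 b1 b2)
  exact ⟨η, hη, fun j => hη' (Sum.inl j), fun i => hη' (Sum.inr i)⟩

end Vale.Agent.P292
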