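import Vale.Agent.P292.C.Main

/-! P292 P/FamA (split from P/Fam). Families of conjugate curves. Helper names start with `pfaa_`.
`cj_shift`: the coefficient vector of `sh (-σ) H` specialises to that of `H` (put `σ = 0`, `σ` is
transcendental over `cl (cf H)`), both have rank `4 n + 4` (`con_rigid`, `rk_on`), so `sp_of_indep` and
`aut_ext` apply. `exists_con`: `GenO.sp`, `aut_ext` move `cv G₀ 0` to `x`, then `aut_move` over `range x`.
`rk_ev`: `span_full`, `der_ev`, `rk_of_der`: the vectors `D (ev G s)` span the tangent space modulo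
`G'(s)`. `pv_ev`: a linear combination of the `G i` over `cl (cf G)` equals `1`. -/

open Polynomial Set Matrix

noncomputable section

namespace Vale.Agent.P292

open Vale.Agent.P271 Vale.Agent.P276

variable {K : Type} [Field K] [Algebra ℂ K] {N n m : ℕ} {t : Fin (N + 1) → K} {S : Cn K N}
  {W : Type} [Field W] [Algebra ℂ W]

variable [IsAlgClosed W] {δ k : ℕ} {G G₀ H : Fin S.M → W[X]} {O : ValuationSubring W}
  {A B Y : Set W} {x : Fin S.M → W} {f g σ : W} {𝓕 : (Fin S.M → W[X]) → Prop}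

omit [IsAlgClosed W] in
theorem pfaa_ends (δ : ℕ) (G : Fin S.M → W[X]) (f : W →ₐ[ℂ] W) :
    S.ends δ (fun i => (G i).map (f : W →+* W)) = f '' S.ends δ G := by
  unfold Cn.ends
  rw [image_union, ← range_comp, ← range_comp]
  refine congrArg₂ (· ∪ ·) (congrArg range ?_) (congrArg range ?_)
  · funext i
    simp [cv]
  · funext i
    simp [Cn.top]

omit [IsAlgClosed W] in
theorem pfaa_sub (δ : ℕ) (G : Fin S.M → W[X]) : S.ends δ G ⊆ cf G := by
  rintro _ (⟨i, rfl⟩ | ⟨i, rfl⟩)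
  · exact ⟨i, 0, rfl⟩
  · exact ⟨i, _, rfl⟩

omit [IsAlgClosed W] in
theorem pfaa_gen (hS : S.Ok t n m) {y : Fin S.M → W} (hx : S.On x) (hy : S.On y) (hY : Y.Finite)
    (h : rk Y + (4 * n + 4) ≤ rk (Y ∪ range y ∪ range x)) : S.GenO n (Y ∪ range y) x := by
  have h1 := rk_union_le hY (finite_range y)
  have h2 := rk_union_le (hY.union (finite_range y)) (finite_range x)
  have h3 := rk_on hS hx
  have h4 := rk_on hS hy
  exact ⟨hY.union (finite_range y), hx, by omega⟩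

theorem pfaa_rk (hS : S.Ok t n m) (h : S.FC n G) : rk (cf G) = 4 * n + 4 := by
  have h1 := rk_union_le (finite_range (cv G 0)) (finite_range (S.top 2 G))
  have h2 := rk_on hS h.1.cv_on.1
  have h3 := rk_on hS (on_rev h.1.on h.1.deg).2
  have h4 : rk (cf G) ≤ rk (range (cv G 0) ∪ range (S.top 2 G)) :=
    rk_mono ((finite_range _).union (finite_range _)) (con_rigid hS h.1 h.2.1)
  have h5 := rk_mono (cf_finite G) ((pfaa_sub 2 G).trans (subset_cl _))
  have h6 := h.2.2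
  omega

theorem Cn.FC.map (hS : S.Ok t n m) (h : S.FC n G) (θ : W ≃ₐ[ℂ] W) :
    S.FC n fun i => (G i).map (θ : W →+* W) := by
  refine ⟨h.1.map (θ : W →ₐ[ℂ] W), ?_, ?_⟩
  · have e := av_map hS h.1 (θ : W →ₐ[ℂ] W)
    exact fun h0 => h.2.1 (θ.injective ((e.symm.trans h0).trans (map_zero θ).symm))
  · have e := pfaa_ends (S := S) 2 G (θ : W →ₐ[ℂ] W)
    exact h.2.2.trans ((congrArg rk e).trans (rk_image _ _)).ge

theorem Cn.FL.map (hS : S.Ok t n m) (h : S.FL n G) (θ : W ≃ₐ[ℂ] W) :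
    S.FL n fun i => (G i).map (θ : W →+* W) := by
  refine ⟨h.1.map (θ : W →ₐ[ℂ] W), ?_⟩
  have e := pfaa_ends (S := S) 1 G (θ : W →ₐ[ℂ] W)
  exact h.2.trans ((congrArg rk e).trans (rk_image _ _)).ge

theorem cj_map (h : Cn.Cj G₀ G) (θ : W ≃ₐ[ℂ] W) :
    Cn.Cj G₀ fun i => (G i).map (θ : W →+* W) := by
  obtain ⟨η, rfl⟩ := h
  refine ⟨η.trans θ, funext fun i => ?_⟩
  rw [Polynomial.map_map]
  rfl

theorem cj_fc (hS : S.Ok t n m) (h : Cn.Cj G₀ G) (h0 : S.FC n G₀) : S.FC n G := by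
  obtain ⟨η, rfl⟩ := h
  exact h0.map hS η

theorem Cn.FC.spec (hS : S.Ok t n m) (h : S.FC n G) :
    rk (cf G) = 4 * n + 4 ∧ S.GenO n (range (S.top 2 G)) (cv G 0) ∧
      S.GenO n (range (cv G 0)) (S.top 2 G) ∧ S.FC n (S.rev 2 G) := by
  have hx := h.1.cv_on.1
  have hy := (on_rev h.1.on h.1.deg).2
  have h1 := rk_union_le (finite_range (cv G 0)) (finite_range (S.top 2 G))
  have h2 := rk_on hS hx
  have h3 := rk_on hS hy
  have h4 : 4 * n + 4 ≤ rk (range (cv G 0) ∪ range (S.top 2 G)) := h.2.2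
  obtain ⟨r1, r2, r3, -, -⟩ := h.1.rev
  refine ⟨pfaa_rk hS h, ⟨finite_range _, hx, ?_⟩, ⟨finite_range _, hy, by omega⟩, r1, ?_, ?_⟩
  · rw [union_comm]
    omega
  · rw [(av_con hS h.1).1]
    exact neg_ne_zero.2 h.2.1
  · unfold Cn.ends
    rw [r2, r3, union_comm]
    exact h4

theorem Cn.FC.gen (hS : S.Ok t n m) (h : S.FC n G) (hY : Y.Finite)
    (hi : rk Y + rk (cf G) ≤ rk (Y ∪ cf G)) : S.GenO n (Y ∪ range (S.top 2 G)) (cv G 0) ∧
      S.GenO n (Y ∪ range (cv G 0)) (S.top 2 G) := by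
  have hx := h.1.cv_on.1
  have hy := (on_rev h.1.on h.1.deg).2
  have h1 : rk (Y ∪ cf G) ≤ rk (Y ∪ range (cv G 0) ∪ range (S.top 2 G)) := by
    refine rk_mono ((hY.union (finite_range _)).union (finite_range _)) (union_subset ?_ ?_)
    · exact (subset_union_left.trans subset_union_left).trans (subset_cl _)
    · refine (con_rigid hS h.1 h.2.1).trans (cl_mono ?_)
      rw [union_assoc]
      exact subset_union_right
  rw [pfaa_rk hS h] at hi
  refine ⟨pfaa_gen hS hx hy hY ?_, pfaa_gen hS hy hx hY (hi.trans h1)⟩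
  rw [union_right_comm]
  exact hi.trans h1

end Vale.Agent.P292
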