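import Vale.Agent.P292.C.Main
import Vale.Agent.P292.P.FamA
import Vale.Agent.P276R.F.Dim

/-! P292 P/FamB (split from P/Fam). Families of conjugate curves. Helper names start with `pfab_`.
`cj_shift`: the coefficient vector of `sh (-σ) H` specialises to that of `H` (put `σ = 0`, `σ` is
transcendental over `cl (cf H)`), both have rank `4 n + 4` (`con_rigid`, `rk_on`), so `sp_of_indep` and
`aut_ext` apply. `exists_con`: `GenO.sp`, `aut_ext` move `cv G₀ 0` to `x`, then `aut_move` over `range x`.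
`rk_ev`: `span_full`, `der_ev`, `rk_of_der`: the vectors `D (ev G s)` span the tangent space modulo
`G'(s)`. `pv_ev`: a linear combination of the `G i` over `cl (cf G)` equals `1`. -/

open Polynomial Set Matrix

noncomputable section

namespace Vale.Agent.P292

open Vale.Agent.P271 Vale.Agent.P276

variable {K : Type} [Field K] [Algebra ℂ K] {N n m : ℕ} {t : Fin (N + 1) → K} {S : Cn K N}
  {W : Type} [Field W] [Algebra ℂ W]

variable [IsAlgClosed W] {δ k : ℕ} {G G₀ H : Fin S.M → W[X]} {O : ValuationSubring W}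
  {A B Y : Set W} {x : Fin S.M → W} {f g σ : W} {𝓕 : (Fin S.M → W[X]) → Prop}

omit [IsAlgClosed W] in
theorem pfab_sp {τ : Type} (hBA : B ⊆ cl A) {q : τ → W[X]} (hq : ∀ j k, (q j).coeff k ∈ cl A)
    {s : W} (hs : s ∉ cl A) (a : W) :
    Sp (cl B) (fun j => (q j).eval s) fun j => (q j).eval a := by
  have h1 : ∀ p : MvPolynomial τ (cl B), MvPolynomial.aeval q p ∈ lifts (algebraMap (cl A) W) := by
    intro p
    induction p using MvPolynomial.induction_on with
    | C c =>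
      rw [MvPolynomial.aeval_C]
      exact C_mem_lifts (algebraMap (cl A) W) ⟨c, cl_le hBA c.2⟩
    | add p p' h h' =>
      rw [map_add]
      exact add_mem h h'
    | mul_X p j h =>
      rw [map_mul, MvPolynomial.aeval_X]
      exact mul_mem h ((lifts_iff_coeff_lifts _).2 fun k => ⟨⟨_, hq j k⟩, rfl⟩)
  have h2 : ∀ (b : W) (p : MvPolynomial τ (cl B)),
      (MvPolynomial.aeval q p).eval b = MvPolynomial.aeval (fun j => (q j).eval b) p := by
    intro b p
    induction p using MvPolynomial.induction_on with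
    | C c =>
      rw [MvPolynomial.aeval_C, MvPolynomial.aeval_C]
      exact eval_C
    | add p p' h h' => rw [map_add, map_add, eval_add, h, h']
    | mul_X p j h => rw [map_mul, map_mul, eval_mul, h, MvPolynomial.aeval_X, MvPolynomial.aeval_X]
  intro p hp
  obtain ⟨Q, hQ⟩ := (mem_lifts _).1 (h1 p)
  rw [← h2, ← hQ] at hp ⊢
  rw [eval_map_algebraMap] at hp
  rw [transcendental_iff.1 (not_mem_cl.1 hs) Q hp, Polynomial.map_zero, eval_zero]

omit [IsAlgClosed W] in
theorem pfab_cf {α : Type} (G : α → W[X]) (θ : W ≃ₐ[ℂ] W) :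
    cf (fun i => (G i).map (θ : W →+* W)) = θ '' cf G := by
  ext a
  constructor
  · rintro ⟨i, k, rfl⟩
    exact ⟨_, ⟨i, k, rfl⟩, (coeff_map (θ : W →+* W) k).symm⟩
  · rintro ⟨_, ⟨i, k, rfl⟩, rfl⟩
    exact ⟨i, k, (coeff_map (θ : W →+* W) k).symm⟩

theorem cj_shift (hS : S.Ok t n m) (hW : Big W) (h0 : S.FC n G₀) (h : Cn.Cj G₀ H) (hY : Y.Finite)
    (hi : rk Y + rk (cf H) ≤ rk (Y ∪ cf H)) (hσ : σ ∉ cl (Y ∪ cf H)) :
    Cn.Cj G₀ (S.sh (-σ) H) ∧ S.Thru Y (cv H 0) (S.sh (-σ) H) σ := by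
  have hH := cj_fc hS h h0
  obtain ⟨l1, -, -, l4, -, l6⟩ := hH.1.sh (-σ)
  have fH := cf_finite H
  have fH' := cf_finite (S.sh (-σ) H)
  have hσ' : -σ ∉ cl (cf H) := fun h' =>
    hσ (cl_mono subset_union_right (by simpa using neg_mem h'))
  obtain ⟨D, hD⟩ : ∃ D : ℕ, ∀ i, (H i).natDegree < D :=
    ⟨Finset.univ.sup (fun i => (H i).natDegree) + 1, fun i =>
      Nat.lt_succ_of_le (Finset.le_sup (f := fun i => (H i).natDegree) (Finset.mem_univ i))⟩
  have s1 : Sp (cl (∅ : Set W)) (fun j : Fin S.M × Fin D => (S.sh (-σ) H j.1).coeff j.2)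
      fun j => (H j.1).coeff j.2 := by
    have := pfab_sp (empty_subset (cl (cf H) : Set W))
      (q := fun j : Fin S.M × Fin D => hasseDeriv j.2 (H j.1)) (fun j k => by
        rw [hasseDeriv_coeff]
        exact mul_mem (natCast_mem _ _) (subset_cl _ ⟨_, _, rfl⟩)) hσ' 0
    simpa only [← taylor_coeff, taylor_zero, Cn.sh] using this
  have r1 : rk (cf (S.sh (-σ) H)) ≤ 4 * n + 4 := by
    have k1 := rk_mono ((finite_range _).union (finite_range _))
      (con_rigid hS l1 (by rw [(av_con hS hH.1).2]; exact hH.2.1))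
    have k2 := rk_union_le (finite_range (cv (S.sh (-σ) H) 0)) (finite_range (S.top 2 (S.sh (-σ) H)))
    have k3 := rk_on hS l1.cv_on.1
    have k4 := rk_on hS (on_rev l1.on l1.deg).2
    omega
  have r2 : rk (cf H) ≤ rk (range fun j : Fin S.M × Fin D => (H j.1).coeff j.2) := by
    refine rk_mono (finite_range _) ?_
    rintro _ ⟨i, k, rfl⟩
    rcases lt_or_ge k D with hk | hk
    · exact subset_cl _ ⟨(i, ⟨k, hk⟩), rfl⟩
    · rw [coeff_eq_zero_of_natDegree_lt ((hD i).trans_le hk)]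
      exact zero_mem _
  have r3 : rk (range fun j : Fin S.M × Fin D => (S.sh (-σ) H j.1).coeff j.2) ≤
      rk (cf (S.sh (-σ) H)) := by
    refine rk_mono fH' ?_
    rintro _ ⟨j, rfl⟩
    exact subset_cl _ ⟨_, _, rfl⟩
  have r4 := (hH.spec hS).1
  have s2 := sp_of_indep s1 fun k hk => by
    rw [rel_iff_rk finite_empty (finite_range _), empty_union] at hk ⊢
    omega
  obtain ⟨θ, -, hθ⟩ := aut_ext hW finite_empty s2 s1
  have e : S.sh (-σ) H = fun i => (H i).map (θ : W →+* W) := by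
    funext i
    ext k
    rw [coeff_map]
    rcases lt_or_ge k D with hk | hk
    · exact (hθ (i, ⟨k, hk⟩)).symm
    · rw [coeff_eq_zero_of_natDegree_lt ((hD i).trans_le hk), map_zero]
      exact coeff_eq_zero_of_natDegree_lt ((natDegree_taylor _ _).trans_lt ((hD i).trans_le hk))
  have r5 : rk (cf (S.sh (-σ) H)) = rk (cf H) := by
    rw [e, pfab_cf]
    exact rk_image (θ : W →ₐ[ℂ] W) _
  refine ⟨e ▸ cj_map h θ, by rw [l4, add_neg_cancel, (ev_zero H).1], ?_⟩
  have e2 : S.sh σ (S.sh (-σ) H) = H := by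
    funext i
    simp only [Cn.sh, taylor_taylor, add_neg_cancel, taylor_zero]
  have l7 := (l1.sh σ).2.2.2.2.2
  rw [e2] at l7
  have u1 : rk (Y ∪ insert σ (cf (S.sh (-σ) H))) ≤ rk (insert σ (Y ∪ cf H)) := by
    refine rk_mono ((hY.union fH).insert σ) (union_subset (fun a ha => subset_cl _ (Or.inr (Or.inl ha)))
      (insert_subset (subset_cl _ (Or.inl rfl)) (l6.trans (cl_le (insert_subset
        (neg_mem (subset_cl _ (Or.inl rfl))) fun a ha => subset_cl _ (Or.inr (Or.inr ha)))))))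
  have u2 : rk (insert σ (Y ∪ cf H)) ≤ rk (Y ∪ insert σ (cf (S.sh (-σ) H))) := by
    refine rk_mono (hY.union (fH'.insert σ)) (insert_subset (subset_cl _ (Or.inr (Or.inl rfl)))
      (union_subset (fun a ha => subset_cl _ (Or.inl ha)) (l7.trans (cl_mono subset_union_right))))
  have u3 := rk_insert (hY.union fH) hσ
  have u4 := rk_union_le hY fH
  omega

theorem pfab_con (hS : S.Ok t n m) (hW : Big W) (d : Fin S.M → ℕ)
    (h0 : S.GenO n ∅ fun i => (G₀ i).coeff (d i)) (hx : S.GenO n Y x) :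
    ∃ H, Cn.Cj G₀ H ∧ (fun i => (H i).coeff (d i)) = x ∧ rk Y + rk (cf H) ≤ rk (Y ∪ cf H) := by
  have hx0 : S.GenO n ∅ x := hx.mono hS finite_empty (empty_subset _)
  obtain ⟨θ₁, -, h1⟩ := aut_ext hW finite_empty (h0.sp hS hx.2.1) (hx0.sp hS h0.2.1)
  obtain ⟨θ₂, h2, h3⟩ := aut_move hW (finite_range x)
    (cf_finite fun i => (G₀ i).map (θ₁ : W →+* W)) hx.1
  rw [← pfab_cf] at h3
  have e : (fun i => (((G₀ i).map (θ₁ : W →+* W)).map (θ₂ : W →+* W)).coeff (d i)) = x := by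
    funext i
    rw [coeff_map, coeff_map]
    exact (congrArg θ₂ (h1 i)).trans (h2 _ (subset_cl _ ⟨i, rfl⟩))
  refine ⟨_, cj_map ⟨θ₁, rfl⟩ θ₂, e, ?_⟩
  have hs : range x ⊆ cf fun i => ((G₀ i).map (θ₁ : W →+* W)).map (θ₂ : W →+* W) := by
    rintro _ ⟨i, rfl⟩
    exact ⟨i, d i, (congrFun e i).symm⟩
  rw [union_eq_self_of_subset_left hs, union_comm (range x), hx.2.2, union_comm _ Y] at h3
  have h4 := rk_on hS hx.2.1
  omega

theorem exists_con (hS : S.Ok t n m) (hW : Big W) (h0 : S.FC n G₀) (hx : S.GenO n Y x) :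
    (∃ H, Cn.Cj G₀ H ∧ cv H 0 = x ∧ rk Y + rk (cf H) ≤ rk (Y ∪ cf H)) ∧
      ∃ H, Cn.Cj G₀ H ∧ S.top 2 H = x ∧ rk Y + rk (cf H) ≤ rk (Y ∪ cf H) := by
  obtain ⟨-, h1, h2, -⟩ := h0.spec hS
  exact ⟨pfab_con hS hW (fun _ => 0) (h1.mono hS finite_empty (empty_subset _)) hx,
    pfab_con hS hW (fun i => 2 * S.w i) (h2.mono hS finite_empty (empty_subset _)) hx⟩

end Vale.Agent.P292
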