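import Vale.Agent.P292.C.Main
import Vale.Agent.P276.E.Der

/-! P292 P/FamC (split from P/Fam). Families of conjugate curves. Helper names start with `pfac_`.
`cj_shift`: the coefficient vector of `sh (-σ) H` specialises to that of `H` (put `σ = 0`, `σ` is
transcendental over `cl (cf H)`), both have rank `4 n + 4` (`con_rigid`, `rk_on`), so `sp_of_indep` and
`aut_ext` apply. `exists_con`: `GenO.sp`, `aut_ext` move `cv G₀ 0` to `x`, then `aut_move` over `range x`.
`rk_ev`: `span_full`, `der_ev`, `rk_of_der`: the vectors `D (ev G s)` span the tangent space modulo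
`G'(s)`. `pv_ev`: a linear combination of the `G i` over `cl (cf G)` equals `1`. -/

open Polynomial Set Matrix

noncomputable section

namespace Vale.Agent.P292

open Vale.Agent.P271 Vale.Agent.P276

variable {K : Type} [Field K] [Algebra ℂ K] {N n m : ℕ} {t : Fin (N + 1) → K} {S : Cn K N}
  {W : Type} [Field W] [Algebra ℂ W]

variable [IsAlgClosed W] {δ k : ℕ} {G G₀ H : Fin S.M → W[X]} {O : ValuationSubring W}
  {A B Y : Set W} {x : Fin S.M → W} {f g σ : W} {𝓕 : (Fin S.M → W[X]) → Prop}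

omit [IsAlgClosed W] in
theorem pfac_pol {A : Set W} (hA : A.Finite) (hσ : σ ∉ cl A) {D : Derivation ℂ W W}
    (h1 : ∀ a ∈ cl A, D a = 0) (h2 : D σ = 1)
    (h3 : ∀ a ∈ cl (insert σ A), D a ∈ cl (insert σ A)) (e : ℕ) :
    ∀ a ∈ cl (insert σ A), D^[e] a = 0 → ∃ q : W[X], (∀ k, e ≤ k → q.coeff k = 0) ∧
      (∀ i, q.coeff i ∈ cl A) ∧ a = q.eval σ := by
  have : CharZero W := charZero_of_injective_algebraMap (algebraMap ℂ W).injective
  have hu : AlgebraicIndependent (cl A) fun _ : Unit => σ :=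
    algebraicIndependent_unique_type_iff.2 (not_mem_cl.1 hσ)
  induction e with
  | zero =>
    intro a _ h
    exact ⟨0, fun _ _ => rfl, fun _ => zero_mem _, by simpa using h⟩
  | succ e ih =>
    intro a ha h
    have hcA : ∀ B : Set W, (e.factorial : W)⁻¹ ∈ cl B := fun B => inv_mem (natCast_mem _ _)
    obtain ⟨y, hy⟩ : ∃ y, y = (e.factorial : W)⁻¹ * D^[e] a := ⟨_, rfl⟩
    have hyL : y ∈ cl (insert σ A) := hy ▸ mul_mem (hcA _)
      (der_iter_mem (L := (cl (insert σ A) : Set W)) h3 e ha)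
    have hy0 : D y = 0 := by
      have h4 := der_const_mul D (h1 _ (hcA A)) 1 (D^[e] a)
      rw [Function.iterate_succ_apply'] at h
      simp only [Function.iterate_one] at h4
      rw [hy, h4, h, mul_zero]
    have hyA : y ∈ cl A := by
      refine der_const hA hu (D := fun _ => D) (fun _ => h1) (fun _ _ => by simpa using h2) ?_
        fun _ => hy0
      rwa [range_const, union_singleton]
    have hs : σ ∈ cl (insert σ A) := subset_cl _ (mem_insert _ _)
    obtain ⟨q, q1, q2, q3⟩ := ih (a - σ ^ e * y) (sub_mem ha (mul_mem (pow_mem hs e) hyL)) (by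
      rw [der_iter_sub, der_pow_mul D h2 e y hy0, hy, ← mul_assoc,
        mul_inv_cancel₀ (Nat.cast_ne_zero.2 e.factorial_ne_zero), one_mul, sub_self])
    refine ⟨q + monomial e y, fun k hk => ?_, fun i => ?_, ?_⟩
    · rw [coeff_add, q1 k (by omega), coeff_monomial, if_neg (by omega), add_zero]
    · rw [coeff_add, coeff_monomial]
      refine add_mem (q2 i) ?_
      split_ifs
      · exact hyA
      · exact zero_mem _
    · rw [eval_add, ← q3, eval_monomial]
      ring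

omit [IsAlgClosed W] [Algebra ℂ W] in
theorem pfac_eval {p : W[X]} (hp : ∀ k, p.coeff k ∈ O) {s : W} (hs : s ∈ O) : p.eval s ∈ O := by
  rw [eval_eq_sum_range]
  exact sum_mem fun i _ => mul_mem (hp i) (pow_mem hs i)

theorem pfac_pv (h : ∀ a, S.ev G a ≠ 0) (hO : Ov (cf G) O) {s : W} (hs : s ∈ O) :
    PV O (S.ev G s) := by
  have hc : ∀ i k, (G i).coeff k ∈ cl (cf G) := fun i k => subset_cl _ ⟨i, k, rfl⟩
  have hi : ∀ i, S.ev G s i ∈ O := fun i => pfac_eval (fun k => hO _ (hc i k)) hs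
  refine ⟨hi, ?_⟩
  have := cl_closed (cf G)
  have hl : ∀ i, ∃ q : (cl (cf G))[X], q.map (algebraMap (cl (cf G)) W) = G i := fun i =>
    (mem_lifts _).1 ((lifts_iff_coeff_lifts _).2 fun k => ⟨⟨_, hc i k⟩, rfl⟩)
  choose g hg using hl
  have h1 : (1 : (cl (cf G))[X]) ∈ Ideal.span (range g) := by
    refine unit_of_loc _ fun a => ?_
    obtain ⟨i, hi⟩ := Function.ne_iff.1 (h (algebraMap (cl (cf G)) W a))
    refine ⟨g i, Ideal.subset_span ⟨i, rfl⟩, fun h0 => hi ?_⟩
    show (G i).eval _ = 0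
    rw [← hg, eval_map, eval₂_at_apply, h0, map_zero]
  obtain ⟨c, hc1⟩ := Ideal.mem_span_range_iff_exists_fun.1 h1
  have h2 : ∑ i, ((c i).map (algebraMap (cl (cf G)) W)).eval s * S.ev G s i = 1 := by
    have h3 := congrArg (fun p => (p.map (algebraMap (cl (cf G)) W)).eval s) hc1
    simp only [Polynomial.map_sum, Polynomial.map_mul, hg, eval_finsetSum, eval_mul,
      Polynomial.map_one, eval_one] at h3
    exact h3
  by_contra hn
  have h4 : O.valuation (∑ i, ((c i).map (algebraMap (cl (cf G)) W)).eval s * S.ev G s i) < 1 := by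
    refine O.valuation.map_sum_lt one_ne_zero fun i _ => ?_
    have h5 : ((c i).map (algebraMap (cl (cf G)) W)).eval s ∈ O := by
      refine pfac_eval (fun k => ?_) hs
      rw [coeff_map]
      exact hO _ ((c i).coeff k).2
    have h6 : O.valuation (S.ev G s i) < 1 :=
      lt_of_le_of_ne ((O.valuation_le_one_iff _).2 (hi i)) fun e => hn ⟨i, e⟩
    rw [map_mul]
    exact lt_of_le_of_lt (mul_le_of_le_one_left' ((O.valuation_le_one_iff _).2 h5)) h6
  rw [h2, map_one] at h4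
  exact lt_irrefl _ h4

omit [IsAlgClosed W] [Algebra ℂ W] in
theorem pfac_der {p : W[X]} (hp : ∀ k, p.coeff k ∈ O) {s : W} (hs : s⁻¹ ∈ O) (h0 : s ≠ 0)
    (hk : p.natDegree ≤ k) : s * s⁻¹ ^ k * (derivative p).eval s ∈ O := by
  rw [eval_eq_sum, Polynomial.sum, Finset.mul_sum]
  refine sum_mem fun j hj => ?_
  rw [mem_support_iff, coeff_derivative] at hj
  have h1 : j + 1 ≤ k := (le_natDegree_of_ne_zero (left_ne_zero_of_mul hj)).trans hk
  obtain ⟨r, rfl⟩ := Nat.exists_eq_add_of_le h1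
  have e : s * s⁻¹ ^ (j + 1 + r) * ((derivative p).coeff j * s ^ j) =
      p.coeff (j + 1) * ((j + 1 : ℕ) : W) * s⁻¹ ^ r := by
    rw [coeff_derivative, pow_add, inv_pow s (j + 1), pow_succ]
    push_cast
    field_simp
  rw [e]
  exact mul_mem (mul_mem (hp _) (natCast_mem _ _)) (pow_mem hs r)

theorem Cn.Thru.spec (h : S.Thru Y x G σ) (hY : Y.Finite) :
    σ ∉ cl (Y ∪ cf G) ∧ rk Y + rk (cf G) ≤ rk (Y ∪ cf G) ∧
      ∃ D : Derivation ℂ W W, (∀ a ∈ cl (Y ∪ cf G), D a = 0) ∧ D σ = 1 ∧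
        (∀ i, D (x i) = (derivative (G i)).eval σ) ∧
        (∀ a ∈ cl (insert σ (Y ∪ cf G)), D a ∈ cl (insert σ (Y ∪ cf G))) ∧
        ∀ (e : ℕ), ∀ a ∈ cl (insert σ (Y ∪ cf G)), D^[e + 1] a = 0 → Cn.PolOn Y G σ e a := by
  have hA : (Y ∪ cf G).Finite := hY.union (cf_finite G)
  have h2 := h.2
  rw [union_insert] at h2
  have hσ : σ ∉ cl (Y ∪ cf G) := fun hσ => by
    have h3 := rk_mono hA (insert_subset hσ (subset_cl _))
    have h4 := rk_union_le hY (cf_finite G)
    omega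
  have h5 := rk_insert hA hσ
  obtain ⟨D, d1, d2⟩ := exists_der_kill (u := fun _ : Unit => σ)
    (algebraicIndependent_unique_type_iff.2 (not_mem_cl.1 hσ))
  have d3 : D () σ = 1 := by simpa using d2 () ()
  have d4 : ∀ a ∈ cl (insert σ (Y ∪ cf G)), D () a ∈ cl (insert σ (Y ∪ cf G)) := by
    refine der_mem ?_
    rintro a (rfl | ha)
    · rw [d3]; exact one_mem _
    · rw [d1 () a (subset_cl _ ha)]; exact zero_mem _
  refine ⟨hσ, by omega, D (), d1 (), d3, fun i => ?_, d4, fun e a ha h0 => ?_⟩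
  · have h6 : S.cD (D ()) G i = 0 := Polynomial.ext fun k => by
      rw [cD_coeff, coeff_zero]
      exact d1 () _ (subset_cl _ (Or.inr ⟨i, k, rfl⟩))
    rw [← h.1, der_ev, d3, one_mul, Cn.ev, h6, eval_zero, zero_add]
  · obtain ⟨q, q1, q2, q3⟩ := pfac_pol hA hσ (d1 ()) d3 d4 (e + 1) a ha h0
    exact ⟨q, natDegree_le_iff_coeff_eq_zero.2 q1, q2, q3⟩

theorem pv_ev (h : S.LC δ G) (hO : Ov (cf G) O) {s : W} :
    (s ∈ O → PV O (S.ev G s)) ∧ (s ∉ O → PV O (S.sc (s⁻¹ ^ δ) (S.ev G s)) ∧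
      ∀ i, s * (s⁻¹ ^ δ) ^ S.w i * (derivative (G i)).eval s ∈ O) := by
  refine ⟨pfac_pv h.prim hO, fun hs => ?_⟩
  have h0 : s ≠ 0 := fun e => hs (e ▸ zero_mem O)
  have h1 : s⁻¹ ∈ O := (O.mem_or_inv_mem s).resolve_left hs
  obtain ⟨r1, -, -, -, r2⟩ := h.rev
  refine ⟨?_, fun i => ?_⟩
  · have h2 := pfac_pv r1.prim (r2 ▸ hO) h1
    rwa [ev_rev h.deg (inv_ne_zero h0), inv_inv] at h2
  · rw [← pow_mul]
    exact pfac_der (fun k => hO _ (subset_cl _ ⟨i, k, rfl⟩)) h1 h0 (h.deg i)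

end Vale.Agent.P292
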