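import Vale.Agent.P292.C.Main
import Vale.Agent.P276.E.RkB

/-! P292 P/FamD (split from P/Fam). Families of conjugate curves. Helper names start with `pfad_`.
`cj_shift`: the coefficient vector of `sh (-σ) H` specialises to that of `H` (put `σ = 0`, `σ` is
transcendental over `cl (cf H)`), both have rank `4 n + 4` (`con_rigid`, `rk_on`), so `sp_of_indep` and
`aut_ext` apply. `exists_con`: `GenO.sp`, `aut_ext` move `cv G₀ 0` to `x`, then `aut_move` over `range x`.
`rk_ev`: `span_full`, `der_ev`, `rk_of_der`: the vectors `D (ev G s)` span the tangent space modulo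
`G'(s)`. `pv_ev`: a linear combination of the `G i` over `cl (cf G)` equals `1`. -/

open Polynomial Set Matrix

noncomputable section

namespace Vale.Agent.P292

open Vale.Agent.P271 Vale.Agent.P276

variable {K : Type} [Field K] [Algebra ℂ K] {N n m : ℕ} {t : Fin (N + 1) → K} {S : Cn K N}
  {W : Type} [Field W] [Algebra ℂ W]

variable [IsAlgClosed W] {δ k : ℕ} {G G₀ H : Fin S.M → W[X]} {O : ValuationSubring W}
  {A B Y : Set W} {x : Fin S.M → W} {f g σ : W} {𝓕 : (Fin S.M → W[X]) → Prop}

theorem pfad_rk (hA : A.Finite) {τ : Type} [Fintype τ] (y : τ → W) {r : ℕ}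
    (D : Fin r → Derivation ℂ W W) (h : ∀ j, ∀ a ∈ cl A, D j a = 0) :
    rk A + Module.finrank W (Submodule.span W (range fun j i => D j (y i))) ≤ rk (A ∪ range y) := by
  obtain ⟨f, hf, -, hli⟩ :=
    Submodule.exists_fun_fin_finrank_span_eq W (range fun j i => D j (y i))
  choose j hj using hf
  refine rk_of_der hA (fun l => D (j l)) (fun l => h (j l)) ?_
  have h1 : (fun l i => D (j l) (y i)) = f := funext hj
  rw [h1]
  exact hli

theorem pfad_one (hS : S.Ok t n m) (h : (δ = 1 ∧ S.FL n G) ∨ (δ = 2 ∧ S.FC n G)) (hL : S.LC δ G)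
    (hY : Y.Finite) (hi : rk Y + rk (cf G) ≤ rk (Y ∪ cf G)) (s : W) :
    rk Y + (2 * n + 1) ≤ rk (Y ∪ range (S.ev G s)) := by
  obtain ⟨r, D, hD, hsp, -⟩ := span_full hS h hY hi
  have h1 := pfad_rk hY (S.ev G s) D fun j => (hD j).1
  have h2 := hS.dim W (S.ev G s) (hL.ev_on s) (hL.prim s)
  have h3 : S.TanS (S.ev G s) ≤ Submodule.span W (range fun j i => D j (S.ev G s i)) ⊔
      Submodule.span W {fun i => (derivative (G i)).eval s} := by
    intro v hv
    refine (Submodule.span_le.2 ?_ : Submodule.span W _ ≤ _) (hsp s v hv)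
    rintro _ ⟨j, rfl⟩
    have h4 : S.ev (S.cD (D j) G) s =
        (fun i => D j (S.ev G s i)) - D j s • fun i => (derivative (G i)).eval s := by
      funext i
      rw [Pi.sub_apply, Pi.smul_apply, smul_eq_mul, der_ev, add_sub_cancel_right]
    show S.ev (S.cD (D j) G) s ∈ _
    rw [h4]
    exact sub_mem (Submodule.mem_sup_left (Submodule.subset_span ⟨j, rfl⟩))
      (Submodule.mem_sup_right (Submodule.smul_mem _ _ (Submodule.subset_span rfl)))
  have h5 := Submodule.finrank_mono h3
  have h6 := Submodule.finrank_add_le_finrank_add_finrank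
    (Submodule.span W (range fun j i => D j (S.ev G s i)))
    (Submodule.span W {fun i => (derivative (G i)).eval s})
  have h7 : Module.finrank W (Submodule.span W {fun i => (derivative (G i)).eval s}) ≤ 1 := by
    have h8 := finrank_span_le_card (R := W) ({fun i => (derivative (G i)).eval s} : Set _)
    rwa [Set.toFinset_singleton, Finset.card_singleton] at h8
  omega

theorem rk_ev (hS : S.Ok t n m) (h : (δ = 1 ∧ S.FL n G) ∨ (δ = 2 ∧ S.FC n G)) (hY : Y.Finite)
    (hi : rk Y + rk (cf G) ≤ rk (Y ∪ cf G)) (s : W) :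
    rk Y + (2 * n + 1) ≤ rk (Y ∪ range (S.ev G s)) ∧
      rk Y + 2 * n ≤ rk (Y ∪ pj (S.ev G s ∘ S.e0)) := by
  have hL : S.LC δ G := by
    rcases h with ⟨rfl, h⟩ | ⟨rfl, h⟩
    · exact h.1
    · exact h.1
  have h1 := pfad_one hS h hL hY hi s
  refine ⟨h1, ?_⟩
  obtain ⟨i, hi0⟩ := Function.ne_iff.1 (e0_ne hS (hL.ev_on s) (hL.prim s))
  have hf : (Y ∪ pj (S.ev G s ∘ S.e0)).Finite := hY.union (pj_finite _)
  have h2 : Y ∪ range (S.ev G s) ⊆
      cl (insert ((S.ev G s ∘ S.e0) i) (Y ∪ pj (S.ev G s ∘ S.e0))) := by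
    refine union_subset (fun a ha => subset_cl _ (Or.inr (Or.inl ha))) ?_
    refine (sub_cl_e0 hS (hL.ev_on s)).trans (cl_le ((range_sub hi0).trans (cl_mono ?_)))
    exact insert_subset_insert subset_union_right
  have h3 := rk_mono (hf.insert _) h2
  have h4 := rk_insert_le hf ((S.ev G s ∘ S.e0) i)
  omega

end Vale.Agent.P292
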