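import Vale.Agent.P292.C.Main
import Vale.Agent.P292.P.FamA
import Vale.Agent.P292.P.FamB
import Vale.Agent.P292.P.FamC
import Vale.Agent.P292.P.FamD

/-! P292 P/Fam. Families of conjugate curves. Helper names start with `pfa_`.
`cj_shift`: the coefficient vector of `sh (-σ) H` specialises to that of `H` (put `σ = 0`, `σ` is
transcendental over `cl (cf H)`), both have rank `4 n + 4` (`con_rigid`, `rk_on`), so `sp_of_indep` and
`aut_ext` apply. `exists_con`: `GenO.sp`, `aut_ext` move `cv G₀ 0` to `x`, then `aut_move` over `range x`.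
`rk_ev`: `span_full`, `der_ev`, `rk_of_der`: the vectors `D (ev G s)` span the tangent space modulo
`G'(s)`. `pv_ev`: a linear combination of the `G i` over `cl (cf G)` equals `1`. -/

open Polynomial Set Matrix

noncomputable section

namespace Vale.Agent.P292

open Vale.Agent.P271 Vale.Agent.P276

variable {K : Type} [Field K] [Algebra ℂ K] {N n m : ℕ} {t : Fin (N + 1) → K} {S : Cn K N}
  {W : Type} [Field W] [Algebra ℂ W]

variable [IsAlgClosed W] {δ k : ℕ} {G G₀ H : Fin S.M → W[X]} {O : ValuationSubring W}
  {A B Y : Set W} {x : Fin S.M → W} {f g σ : W} {𝓕 : (Fin S.M → W[X]) → Prop}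

end Vale.Agent.P292
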