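import Vale.Agent.P292.P.Hit
import Vale.Agent.P292.P.Div
import Vale.Agent.P292.P.Pol
import Vale.Agent.P276.E.GaussA

/-! P292 P/IntA (split from P/IntF). Integrality at finite parameters. Helper names start with `pina_`.
`int_of_hit`: take `σ'` fresh; `ev R σ'` is generic over `Y`, move it to `x` over `cl Y` (`GenO.sp`, `aut_ext`), which gives a full line
`R'` through `x` and a valuation ring `O₂` over `Y ∪ cf R'` with `σ' ≡ s'` (`gau_a_dom`, `place_of_sp0`); all conjugates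
`θ f` are polynomial along `R'` (`Pol.map`, `FL.map`), so lie in `O₂`; `div_eq`, `div_int`.
`int_pj`: `x = sc ρ x₀` with `x₀ (e0 l) = 1`, `ρ ∈ O`, `range x₀ ⊆ cl (pj (x ∘ e0))`; by `wt_sp` the element `f / ρ ^ k` is
algebraic over `Y ∪ range x₀` (take a polynomial relation of `(x, f)` whose derivative in `f` does not vanish, or
use that `f / ρ ^ k` is killed by all derivations that kill `Y ∪ range x₀`).
`int_fin`: either `O` is over `insert σ (Y ∪ cf G)`, or `σ ≡ s ∈ cl (Y ∪ cf G)`; if the projective rank of `ev G s`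
over `Y` is `2 n + 1` then `O` is over `Y ∪ pj (x ∘ e0)`; else `hit`. -/

open Polynomial Set Matrix

noncomputable section

namespace Vale.Agent.P292

open Vale.Agent.P271 Vale.Agent.P276

variable {K : Type} [Field K] [Algebra ℂ K] {N n m : ℕ} {t : Fin (N + 1) → K} {S : Cn K N}
  {W : Type} [Field W] [Algebra ℂ W]

variable [IsAlgClosed W] {δ k : ℕ} {G G₀ H : Fin S.M → W[X]} {O : ValuationSubring W}
  {A B Y : Set W} {x : Fin S.M → W} {f g σ : W} {𝓕 : (Fin S.M → W[X]) → Prop}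

omit [IsAlgClosed W] in
theorem pina_aeval {τ : Type} {θ : W ≃ₐ[ℂ] W} (hθ : Fx (cl Y) θ) (y : τ → W)
    (p : MvPolynomial τ (cl Y)) :
    θ (MvPolynomial.aeval y p) = MvPolynomial.aeval (fun i => θ (y i)) p := by
  induction p using MvPolynomial.induction_on with
  | C a =>
    rw [MvPolynomial.aeval_C, MvPolynomial.aeval_C]
    exact hθ a a.2
  | add p q hp hq => rw [map_add, map_add, map_add, hp, hq]
  | mul_X p i hp => rw [map_mul, map_mul, map_mul, hp, MvPolynomial.aeval_X, MvPolynomial.aeval_X]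

omit [IsAlgClosed W] in
theorem pina_lift (q : W[X]) (h : ∀ i, q.coeff i ∈ cl A) :
    ∃ q' : (cl A)[X], ∀ τ : W, aeval τ q' = q.eval τ := by
  obtain ⟨q', hq⟩ := (mem_lifts q).1 ((lifts_iff_coeff_lifts (f := algebraMap (cl A) W) q).2
    fun k => ⟨⟨_, h k⟩, rfl⟩)
  exact ⟨q', fun τ => by rw [← hq, eval_map_algebraMap]⟩

omit [IsAlgClosed W] [Field K] [Algebra ℂ K] in
theorem pina_sub (G : Fin S.M → W[X]) (p : MvPolynomial (Fin S.M) (cl Y)) :
    ∃ q' : (cl (Y ∪ cf G))[X], ∀ τ : W, aeval τ q' = MvPolynomial.aeval (S.ev G τ) p := by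
  induction p using MvPolynomial.induction_on with
  | C a =>
    refine ⟨C ⟨a, cl_mono subset_union_left a.2⟩, fun τ => ?_⟩
    rw [aeval_C, MvPolynomial.aeval_C]
    rfl
  | add p q hp hq =>
    obtain ⟨p', hp⟩ := hp
    obtain ⟨q', hq⟩ := hq
    exact ⟨p' + q', fun τ => by rw [map_add, map_add, hp, hq]⟩
  | mul_X p i hp =>
    obtain ⟨p', hp⟩ := hp
    obtain ⟨q', hq⟩ := pina_lift (A := Y ∪ cf G) (G i) fun j => subset_cl _ (Or.inr ⟨i, j, rfl⟩)
    refine ⟨p' * q', fun τ => ?_⟩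
    rw [map_mul, map_mul, hp, hq, MvPolynomial.aeval_X]
    rfl

/-- A full line is generic at a fresh parameter. -/
theorem pina_gen (hS : S.Ok t n m) (h : S.FL n G) (hY : Y.Finite)
    (hi : rk Y + rk (cf G) ≤ rk (Y ∪ cf G)) (hσ : σ ∉ cl (Y ∪ cf G)) :
    S.GenO n Y (S.ev G σ) := by
  obtain ⟨r, D, hD, hsp, -⟩ := span_full hS (Or.inl ⟨rfl, h⟩) hY hi
  have hf := hY.union (cf_finite G)
  have hr : rk (Y ∪ cf G) + rk (Y ∪ {σ}) ≤ rk (Y ∪ cf G ∪ {σ}) + rk Y := by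
    rw [union_singleton, union_singleton, rk_insert hf hσ]
    have := rk_insert_le hY σ
    omega
  choose D' h1 h2 using fun j => der_glue hY (cf_finite G) (finite_singleton σ) hr (D j) 0
    fun a ha => (hD j).1 a ha
  have e : ∀ j, (fun i => D' j (S.ev G σ i)) = S.ev (S.cD (D j) G) σ := fun j => by
    have e1 : S.cD (D' j) G = S.cD (D j) G := funext fun i =>
      Finset.sum_congr rfl fun k _ => by rw [h1 j _ (subset_cl _ (Or.inr ⟨i, k, rfl⟩))]
    funext i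
    rw [der_ev, h2 j σ (subset_cl _ (Or.inr rfl)), e1]
    simp
  obtain ⟨v, hv, -, hli⟩ :=
    Submodule.exists_fun_fin_finrank_span_eq W (range fun j => S.ev (S.cD (D j) G) σ)
  choose j hj using hv
  have a1 := rk_of_der (y := S.ev G σ) hY (fun l => D' (j l))
    (fun l a ha => (h2 (j l) a (cl_mono subset_union_left ha)).trans rfl) (by
      have e2 : (fun l i => D' (j l) (S.ev G σ i)) = v := funext fun l => (e (j l)).trans (hj l)
      rw [e2]
      exact hli)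
  have a2 := hS.dim W (S.ev G σ) (h.1.ev_on σ) (h.1.prim σ)
  have a3 := Submodule.finrank_mono (show S.TanS (S.ev G σ) ≤
    Submodule.span W (range fun j => S.ev (S.cD (D j) G) σ) from fun v hv => hsp σ v hv)
  have a4 := rk_union_le hY (finite_range (S.ev G σ))
  have a5 := rk_on hS (h.1.ev_on σ)
  exact ⟨hY, h.1.ev_on σ, by omega⟩

theorem pina_core (hS : S.Ok t n m) (hW : Big W) (h : S.FL n G) (hY : Y.Finite)
    (hi : rk Y + rk (cf G) ≤ rk (Y ∪ cf G)) (hσ : σ ∉ cl (Y ∪ cf G)) (hO : Ov Y O)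
    (h1 : ∀ i, S.ev G σ i ∈ O) {b : Fin S.M → W} (hb : rk Y + (2 * n + 1) ≤ rk (Y ∪ range b))
    (hc : ∀ p : MvPolynomial (Fin S.M) (cl Y),
      O.valuation (MvPolynomial.aeval (S.ev G σ) p) < 1 ↔ MvPolynomial.aeval b p = 0)
    {s : W} (s1 : Sp (cl Y) b (S.ev G s)) (s2 : Sp (cl Y) (S.ev G s) b)
    (hf : S.Pol (S.FL n) 1 Y (S.ev G σ) k f) : f ∈ O := by
  have hx := pina_gen hS h hY hi hσ
  have := RingHom.ker_isPrime (aeval s : (cl (Y ∪ cf G))[X] →ₐ[cl (Y ∪ cf G)] W)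
  obtain ⟨O₂, hO₂⟩ := gau_a_dom
    ((aeval σ : (cl (Y ∪ cf G))[X] →ₐ[cl (Y ∪ cf G)] W) : (cl (Y ∪ cf G))[X] →+* W)
    (transcendental_iff_injective.1 (not_mem_cl.1 hσ))
    (RingHom.ker (aeval s : (cl (Y ∪ cf G))[X] →ₐ[cl (Y ∪ cf G)] W))
  have m1 : ∀ q : W[X], (∀ i, q.coeff i ∈ cl (Y ∪ cf G)) → q.eval σ ∈ O₂ := fun q hq => by
    obtain ⟨q', hq'⟩ := pina_lift q hq
    rw [← hq']
    exact (hO₂ q').1
  have o2 : Ov Y O₂ := fun a ha => by
    have := (hO₂ (C ⟨a, cl_mono subset_union_left ha⟩)).1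
    rwa [RingHom.coe_coe, aeval_C] at this
  have x2 : ∀ i, S.ev G σ i ∈ O₂ := fun i => m1 (G i) fun j => subset_cl _ (Or.inr ⟨i, j, rfl⟩)
  have c2 : ∀ p : MvPolynomial (Fin S.M) (cl Y),
      O₂.valuation (MvPolynomial.aeval (S.ev G σ) p) < 1 ↔ MvPolynomial.aeval b p = 0 := by
    intro p
    obtain ⟨q, hq⟩ := pina_sub G p
    rw [← hq]
    refine (hO₂ q).2.trans (RingHom.mem_ker.trans ?_)
    rw [hq]
    exact ⟨s2 p, s1 p⟩
  have ht : S.Thru Y (S.ev G σ) G σ := by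
    refine ⟨rfl, ?_⟩
    have := rk_union_le hY (cf_finite G)
    rw [union_insert, rk_insert (hY.union (cf_finite G)) hσ]
    omega
  refine div_int hW hY (O₂ := O₂) (fun y hy => (div_eq hS hx hO o2 h1 x2 hb hc c2 hy).2) hf.1.1
    fun θ t1 t2 => ?_
  have a1 := (hf.map hS hx (fun G θ hG => hG.map hS θ) θ t1).2
  have e : (fun i => θ (S.ev G σ i)) = S.ev G σ := funext fun i => t2 _ ⟨i, rfl⟩
  rw [e] at a1
  obtain ⟨q, -, q2, q3⟩ := a1.2 G σ h ht
  rw [q3]
  exact m1 q q2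

theorem int_of_hit (hS : S.Ok t n m) (hW : Big W) (hx : S.GenO n Y x) (hO : Ov Y O)
    (h1 : ∀ i, x i ∈ O) {b : Fin S.M → W} (hb : rk Y + (2 * n + 1) ≤ rk (Y ∪ range b))
    (hc : ∀ p : MvPolynomial (Fin S.M) (cl Y),
      O.valuation (MvPolynomial.aeval x p) < 1 ↔ MvPolynomial.aeval b p = 0)
    (hh : S.Hit n Y b) (hf : S.Pol (S.FL n) 1 Y x k f) : f ∈ O := by
  obtain ⟨R, s, hR, hi, s1, s2⟩ := hh
  obtain ⟨σ, hσ⟩ := exists_fresh hW (hx.1.union (cf_finite R))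
  have hx' := pina_gen hS hR hx.1 hi hσ
  obtain ⟨θ, t1, t2⟩ := aut_ext hW hx.1 (hx'.sp hS hx.2.1) (hx.sp hS hx'.2.1)
  have t3 : Fx (cl Y) θ.symm := fun a ha => θ.symm_apply_eq.2 (t1 a ha).symm
  have e : (fun i => θ.symm (x i)) = S.ev R σ := funext fun i => θ.symm_apply_eq.2 (t2 i).symm
  have a1 := (hf.map hS hx (fun G θ hG => hG.map hS θ) θ.symm t3).2
  rw [e] at a1
  obtain ⟨O', o1, o2⟩ := exists_comap θ O
  have a2 := pina_core (O := O') hS hW hR hx.1 hi hσ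
    (fun a ha => (o1 a).2 ((t1 a ha).symm ▸ hO a ha)) (fun i => (o1 _).2 ((t2 i).symm ▸ h1 i)) hb
    (fun p => ?_) s1 s2 a1
  · rw [o1, θ.apply_symm_apply] at a2
    exact a2
  · have a3 := o2 1 (MvPolynomial.aeval (S.ev R σ) p)
    rw [map_one, map_one, map_one, pina_aeval t1, funext t2] at a3
    rw [← hc, ← not_le, ← not_le, a3]

end Vale.Agent.P292
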