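import Vale.Agent.P292.P.Hit
import Vale.Agent.P292.P.Div
import Vale.Agent.P292.P.Pol

/-! P292 P/IntB (split from P/IntF). Integrality at finite parameters. Helper names start with `pinb_`.
`int_of_hit`: take `σ'` fresh; `ev R σ'` is generic over `Y`, move it to `x` over `cl Y` (`GenO.sp`, `aut_ext`), which gives a full line
`R'` through `x` and a valuation ring `O₂` over `Y ∪ cf R'` with `σ' ≡ s'` (`gau_a_dom`, `place_of_sp0`); all conjugates
`θ f` are polynomial along `R'` (`Pol.map`, `FL.map`), so lie in `O₂`; `div_eq`, `div_int`.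
`int_pj`: `x = sc ρ x₀` with `x₀ (e0 l) = 1`, `ρ ∈ O`, `range x₀ ⊆ cl (pj (x ∘ e0))`; by `wt_sp` the element `f / ρ ^ k` is
algebraic over `Y ∪ range x₀` (take a polynomial relation of `(x, f)` whose derivative in `f` does not vanish, or
use that `f / ρ ^ k` is killed by all derivations that kill `Y ∪ range x₀`).
`int_fin`: either `O` is over `insert σ (Y ∪ cf G)`, or `σ ≡ s ∈ cl (Y ∪ cf G)`; if the projective rank of `ev G s`
over `Y` is `2 n + 1` then `O` is over `Y ∪ pj (x ∘ e0)`; else `hit`. -/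

open Polynomial Set Matrix

noncomputable section

namespace Vale.Agent.P292

open Vale.Agent.P271 Vale.Agent.P276

variable {K : Type} [Field K] [Algebra ℂ K] {N n m : ℕ} {t : Fin (N + 1) → K} {S : Cn K N}
  {W : Type} [Field W] [Algebra ℂ W]

variable [IsAlgClosed W] {δ k : ℕ} {G G₀ H : Fin S.M → W[X]} {O : ValuationSubring W}
  {A B Y : Set W} {x : Fin S.M → W} {f g σ : W} {𝓕 : (Fin S.M → W[X]) → Prop}

omit [IsAlgClosed W] in
theorem pinb_mem (h : ∀ D : Derivation ℂ W W, (∀ a ∈ cl A, D a = 0) → D g = 0) : g ∈ cl A := by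
  by_contra hg
  obtain ⟨D, h1, h2⟩ := exists_der_kill (A := A) (u := fun _ : Unit => g)
    (algebraicIndependent_unique_type_iff.2 (not_mem_cl.1 hg))
  have h3 := h2 () ()
  rw [h _ (h1 ()), if_pos rfl] at h3
  exact zero_ne_one h3

omit [IsAlgClosed W] in
theorem pinb_pow (D : Derivation ℂ W W) {ρ : W} (hρ : ρ ≠ 0) (j : ℕ) :
    D (ρ ^ j) = D ρ / ρ * (j * ρ ^ j) := by
  induction j with
  | zero => simp
  | succ j ih =>
    rw [pow_succ, Derivation.leibniz, ih, smul_eq_mul, smul_eq_mul]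
    push_cast
    field_simp
    ring

theorem int_pj (hS : S.Ok t n m) (hx : S.GenO n Y x) (hO : Ov (Y ∪ pj (x ∘ S.e0)) O)
    (h1 : ∀ i, x i ∈ O) (hf : S.Wt Y x k f) : f ∈ O := by
  have hc : CharZero W := charZero_of_injective_algebraMap (algebraMap ℂ W).injective
  obtain ⟨l, hl⟩ : ∃ l, x (S.e0 l) ≠ 0 := by
    by_contra h
    have h2 := hS.pinj W x (S.eu x) hx.2.1 hx.ne hx.2.1.eu (funext fun j => by
      have h3 : x (S.e0 j) = 0 := not_not.1 fun h' => h ⟨j, h'⟩
      simp [Cn.eu, h3])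
    refine hx.ne (funext fun i => ?_)
    have h4 : (S.w i : W) * x i = 0 := congrFun h2 i
    exact (mul_eq_zero.1 h4).resolve_left (Nat.cast_ne_zero.2 (hS.wpos i).ne')
  have hd : 0 < m * (n + 1) := hS.we0 l ▸ hS.wpos _
  obtain ⟨ρ, hρ⟩ := IsAlgClosed.exists_pow_nat_eq (x (S.e0 l)) hd
  have ρ0 : ρ ≠ 0 := fun e => hl (by rw [← hρ, e, zero_pow hd.ne'])
  have ρO : ρ ∈ O := by
    have h2 := (O.valuation_le_one_iff _).2 (h1 (S.e0 l))
    rw [← hρ, map_pow] at h2
    exact (O.valuation_le_one_iff _).1 ((pow_le_one_iff_of_nonneg zero_le hd.ne').1 h2)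
  have h0 : range (S.sc ρ⁻¹ x) ⊆ cl (Y ∪ pj (x ∘ S.e0)) := by
    refine (sub_cl_e0 hS (hx.2.1.sc ρ⁻¹)).trans (cl_mono ?_)
    rintro _ ⟨j, rfl⟩
    refine Or.inr ⟨j, l, ?_⟩
    simp only [Function.comp, Cn.sc, hS.we0, inv_pow, hρ]
    rw [div_eq_inv_mul]
  obtain ⟨e1, e2⟩ := dv_spec hS hx hx.2.1.eu
  have hg : f / ρ ^ k ∈ cl (Y ∪ pj (x ∘ S.e0)) := by
    refine pinb_mem fun D hD => ?_
    have h2 : (D - (D ρ / ρ) • S.dv Y x (S.eu x)) f = 0 := by
      refine der_kill (A := Y ∪ range x) ?_ f hf.1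
      rintro a (ha | ⟨j, rfl⟩)
      · rw [Derivation.sub_apply, Derivation.smul_apply, e1 a (subset_cl Y ha),
          hD a (subset_cl _ (Or.inl ha)), smul_zero, sub_zero]
      · have h3 : x j = ρ ^ S.w j * S.sc ρ⁻¹ x j := by
          simp only [Cn.sc, inv_pow]
          rw [mul_inv_cancel_left₀ (pow_ne_zero _ ρ0)]
        have h4 : D (x j) = D ρ / ρ * (S.w j * x j) := by
          conv_lhs => rw [h3]
          rw [Derivation.leibniz, hD _ (h0 ⟨j, rfl⟩), pinb_pow D ρ0, smul_zero, zero_add,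
            smul_eq_mul]
          conv_rhs => rw [h3]
          ring
        rw [Derivation.sub_apply, Derivation.smul_apply, e2, h4, smul_eq_mul]
        exact sub_self _
    rw [Derivation.sub_apply, Derivation.smul_apply, hf.2, smul_eq_mul, sub_eq_zero] at h2
    have h5 : f = ρ ^ k * (f / ρ ^ k) := (mul_div_cancel₀ f (pow_ne_zero k ρ0)).symm
    have h6 := congrArg D h5
    rw [Derivation.leibniz, pinb_pow D ρ0, h2, smul_eq_mul, smul_eq_mul] at h6
    refine (mul_eq_zero.1 (?_ : ρ ^ k * D (f / ρ ^ k) = 0)).resolve_left (pow_ne_zero k ρ0)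
    linear_combination (D ρ / ρ * k) * h5 - h6
  rw [← mul_div_cancel₀ f (pow_ne_zero k ρ0)]
  exact O.mul_mem _ _ (pow_mem ρO k) (hO _ hg)

end Vale.Agent.P292
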