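import Vale.Agent.P292.P.Hit
import Vale.Agent.P292.P.Div
import Vale.Agent.P292.P.Pol
import Vale.Agent.P292.P.IntA
import Vale.Agent.P292.P.IntB

/-! P292 P/IntF. Integrality at finite parameters. Helper names start with `pin_`.
`int_of_hit`: take `σ'` fresh; `ev R σ'` is generic over `Y`, move it to `x` over `cl Y` (`GenO.sp`, `aut_ext`), which gives a full line
`R'` through `x` and a valuation ring `O₂` over `Y ∪ cf R'` with `σ' ≡ s'` (`gau_a_dom`, `place_of_sp0`); all conjugates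
`θ f` are polynomial along `R'` (`Pol.map`, `FL.map`), so lie in `O₂`; `div_eq`, `div_int`.
`int_pj`: `x = sc ρ x₀` with `x₀ (e0 l) = 1`, `ρ ∈ O`, `range x₀ ⊆ cl (pj (x ∘ e0))`; by `wt_sp` the element `f / ρ ^ k` is
algebraic over `Y ∪ range x₀` (take a polynomial relation of `(x, f)` whose derivative in `f` does not vanish, or
use that `f / ρ ^ k` is killed by all derivations that kill `Y ∪ range x₀`).
`int_fin`: either `O` is over `insert σ (Y ∪ cf G)`, or `σ ≡ s ∈ cl (Y ∪ cf G)`; if the projective rank of `ev G s`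
over `Y` is `2 n + 1` then `O` is over `Y ∪ pj (x ∘ e0)`; else `hit`. -/

open Polynomial Set Matrix

noncomputable section

namespace Vale.Agent.P292

open Vale.Agent.P271 Vale.Agent.P276

variable {K : Type} [Field K] [Algebra ℂ K] {N n m : ℕ} {t : Fin (N + 1) → K} {S : Cn K N}
  {W : Type} [Field W] [Algebra ℂ W]

variable [IsAlgClosed W] {δ k : ℕ} {G G₀ H : Fin S.M → W[X]} {O : ValuationSubring W}
  {A B Y : Set W} {x : Fin S.M → W} {f g σ : W} {𝓕 : (Fin S.M → W[X]) → Prop}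

theorem pin_mul {a c : W} (ha : a ∈ O) (hc : O.valuation c < 1) : O.valuation (a * c) < 1 := by
  rw [map_mul]
  calc O.valuation a * O.valuation c ≤ 1 * O.valuation c :=
        mul_le_mul' ((O.valuation_le_one_iff a).2 ha) le_rfl
    _ < 1 := by rwa [one_mul]

/-- Pairs that are congruent modulo the maximal ideal, with second entry in `cl A`. -/
def pinC (hO : Ov A O) : Subring (W × W) where
  carrier := {p | p.1 ∈ O ∧ p.2 ∈ cl A ∧ O.valuation (p.1 - p.2) < 1}
  mul_mem' := by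
    rintro p q ⟨a1, a2, a3⟩ ⟨b1, b2, b3⟩
    refine ⟨O.mul_mem _ _ a1 b1, mul_mem a2 b2, ?_⟩
    have e : (p * q).1 - (p * q).2 = p.1 * (q.1 - q.2) + q.2 * (p.1 - p.2) := by
      simp only [Prod.fst_mul, Prod.snd_mul]
      ring
    rw [e]
    exact Valuation.map_add_lt _ (pin_mul a1 b3) (pin_mul (hO _ b2) a3)
  one_mem' := ⟨O.one_mem, one_mem _, by simp⟩
  add_mem' := by
    rintro p q ⟨a1, a2, a3⟩ ⟨b1, b2, b3⟩
    refine ⟨O.add_mem _ _ a1 b1, add_mem a2 b2, ?_⟩
    have e : (p + q).1 - (p + q).2 = (p.1 - p.2) + (q.1 - q.2) := by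
      simp only [Prod.fst_add, Prod.snd_add]
      ring
    rw [e]
    exact Valuation.map_add_lt _ a3 b3
  zero_mem' := ⟨O.zero_mem, zero_mem _, by simp⟩
  neg_mem' := by
    rintro p ⟨a1, a2, a3⟩
    refine ⟨O.neg_mem _ a1, neg_mem a2, ?_⟩
    have e : (-p).1 - (-p).2 = -(p.1 - p.2) := by
      simp only [Prod.fst_neg, Prod.snd_neg]
      ring
    rw [e, Valuation.map_neg]
    exact a3

theorem pin_const (hO : Ov A O) {a : W} (ha : a ∈ cl A) : (a, a) ∈ pinC hO :=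
  ⟨hO a ha, ha, by simp⟩

theorem pin_val (hO : Ov A O) {a b : W} (h : (a, b) ∈ pinC hO) : O.valuation a < 1 ↔ b = 0 := by
  obtain ⟨-, h2, h3⟩ := h
  dsimp only at h2 h3
  refine ⟨fun h => by_contra fun hb => ?_, fun hb => by simpa [hb] using h3⟩
  have := Valuation.map_sub_lt _ h h3
  rw [sub_sub_cancel, hO.val_one h2 hb] at this
  exact lt_irrefl _ this

theorem pin_one (hO : Ov A O) {a b : W} (h : (a, b) ∈ pinC hO) (hb : b ≠ 0) : O.valuation a = 1 :=
  le_antisymm ((O.valuation_le_one_iff a).2 h.1) (not_lt.1 fun k => hb ((pin_val hO h).1 k))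

theorem pin_inv (hO : Ov A O) {a b : W} (h : (a, b) ∈ pinC hO) (hb : b ≠ 0) :
    (a⁻¹, b⁻¹) ∈ pinC hO := by
  have h1 := pin_one hO h hb
  have ha : a ≠ 0 := by
    rintro rfl
    simp at h1
  have h2 : a⁻¹ ∈ O := (O.valuation_le_one_iff _).1 (by rw [map_inv₀, h1, inv_one])
  refine ⟨h2, inv_mem h.2.1, ?_⟩
  have e : a⁻¹ - b⁻¹ = -a⁻¹ * (b⁻¹ * (a - b)) := by
    field_simp
    ring
  show O.valuation (a⁻¹ - b⁻¹) < 1
  rw [e]
  exact pin_mul (O.neg_mem _ h2) (pin_mul (hO _ (inv_mem h.2.1)) h.2.2)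

theorem pin_eval (hO : Ov A O) {a b : W} (h : (a, b) ∈ pinC hO) {p : W[X]}
    (hp : ∀ j, p.coeff j ∈ cl A) : (p.eval a, p.eval b) ∈ pinC hO := by
  have e : (p.eval a, p.eval b) =
      ∑ j ∈ Finset.range (p.natDegree + 1), (p.coeff j, p.coeff j) * (a, b) ^ j := by
    refine Prod.ext ?_ ?_
    · simp [Prod.fst_sum, eval_eq_sum_range]
    · simp [Prod.snd_sum, eval_eq_sum_range]
  rw [e]
  exact sum_mem fun j _ => mul_mem (pin_const hO (hp j)) (pow_mem h j)

theorem pin_aeval (hO : Ov A O) (hY : Y ⊆ cl A) {τ : Type} {u u' : τ → W}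
    (h : ∀ i, (u' i, u i) ∈ pinC hO) (p : MvPolynomial τ (cl Y)) :
    (MvPolynomial.aeval u' p, MvPolynomial.aeval u p) ∈ pinC hO := by
  induction p using MvPolynomial.induction_on with
  | C c =>
    rw [MvPolynomial.aeval_C, MvPolynomial.aeval_C]
    exact pin_const hO (cl_le hY c.2)
  | add p q hp hq =>
    rw [map_add, map_add]
    exact add_mem hp hq
  | mul_X p i hp =>
    rw [map_mul, map_mul, MvPolynomial.aeval_X, MvPolynomial.aeval_X]
    exact mul_mem hp (h i)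

theorem pin_adj {τ : Type} {u : τ → W} {a : W}
    (ha : a ∈ IntermediateField.adjoin ℂ (Y ∪ range u)) :
    a ∈ IntermediateField.adjoin (cl Y) (range u) := by
  have : IntermediateField.adjoin ℂ (Y ∪ range u) ≤
      (IntermediateField.adjoin (cl Y) (range u)).restrictScalars ℂ := by
    refine IntermediateField.adjoin_le_iff.2 (union_subset (fun y hy => ?_) fun y hy => ?_)
    · exact (IntermediateField.adjoin (cl Y) (range u)).algebraMap_mem ⟨y, subset_cl Y hy⟩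
    · exact IntermediateField.subset_adjoin (cl Y) (range u) hy
  exact this ha

theorem pin_ov (hO : Ov A O) (hY : Y ⊆ cl A) {τ : Type} {u u' : τ → W}
    (h : ∀ i, (u' i, u i) ∈ pinC hO) (hu : AlgebraicIndependent (cl Y) u) :
    Ov (Y ∪ range u') O ∧ AlgebraicIndependent (cl Y) u' := by
  rw [algebraicIndependent_iff] at hu ⊢
  refine ⟨ov_iff.2 fun a ha => ?_, fun p hp => hu p ((pin_val hO (pin_aeval hO hY h p)).1 ?_)⟩
  · obtain ⟨r, q, rfl⟩ := (IntermediateField.mem_adjoin_range_iff _ _ _).1 (pin_adj ha)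
    by_cases hq : q = 0
    · rw [hq, map_zero, div_zero]
      exact O.zero_mem
    · rw [div_eq_mul_inv]
      exact O.mul_mem _ _ (pin_aeval hO hY h r).1
        (pin_inv hO (pin_aeval hO hY h q) fun e => hq (hu q e)).1
  · rw [hp, map_zero]
    exact zero_lt_one

theorem pin_res (hO : Ov A O) (hσ : σ ∈ O) (h : ¬ Ov (A ∪ range fun _ : Unit => σ) O) :
    ∃ s, (σ, s) ∈ pinC hO := by
  by_contra hn
  have h1 : ∀ s : cl A, O.valuation (σ - s) = 1 := fun s =>
    le_antisymm ((O.valuation_le_one_iff _).2 (sub_mem hσ (hO _ s.2)))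
      (not_lt.1 fun k => hn ⟨s, hσ, s.2, k⟩)
  have := cl_closed A
  have h2 : ∀ (d : ℕ) (q : (cl A)[X]), q.natDegree = d → q ≠ 0 → O.valuation (aeval σ q) = 1 := by
    intro d
    induction d with
    | zero =>
      intro q hd hq
      rw [eq_C_of_natDegree_eq_zero hd] at hq ⊢
      rw [aeval_C]
      exact hO.val_one (q.coeff 0).2 fun e => hq (by rw [show q.coeff 0 = 0 from Subtype.ext e, C_0])
    | succ d ih =>
      intro q hd hq
      obtain ⟨s, hs⟩ := IsAlgClosed.exists_root q (natDegree_pos_iff_degree_pos.1 (by omega)).ne'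
      obtain ⟨q', rfl⟩ := dvd_iff_isRoot.2 hs
      have hq' : q' ≠ 0 := right_ne_zero_of_mul hq
      rw [natDegree_mul (X_sub_C_ne_zero s) hq', natDegree_X_sub_C] at hd
      rw [map_mul, map_mul, ih q' (by omega) hq', mul_one, map_sub, aeval_X, aeval_C]
      exact h1 s
  refine h (ov_iff.2 fun a ha => ?_)
  have h3 := pin_adj ha
  rw [range_const] at h3
  obtain ⟨r, q, rfl⟩ := (IntermediateField.mem_adjoin_simple_iff _ _).1 h3
  refine (O.valuation_le_one_iff _).1 ?_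
  by_cases hr : r = 0
  · simp [hr]
  · by_cases hq : q = 0
    · simp [hq]
    · rw [map_div₀, h2 _ r rfl hr, h2 _ q rfl hq, div_one]

theorem pin_pj (hO : Ov A O) (hA : Y ⊆ cl A) (hY : Y.Finite) {τ : Type} [Finite τ] {y b : τ → W}
    (h : ∀ i, (y i, b i) ∈ pinC hO) (hb : b ≠ 0) {r : ℕ} (h1 : rk Y + r ≤ rk (Y ∪ pj b))
    (h2 : rk (pj y) ≤ r) : Ov (Y ∪ pj y) O := by
  obtain ⟨l, hl⟩ := Function.ne_iff.1 hb
  have hl' : b l ≠ 0 := hl
  have hB : (range fun i => b i / b l).Finite := finite_range _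
  obtain ⟨k, a, a1, a2, a3, -⟩ := rel_basis hY hB
  choose j hj using a1
  have h3 : rk (Y ∪ pj b) ≤ rk (Y ∪ range fun i => b i / b l) := by
    refine rk_mono (hY.union hB) (union_subset (fun z hz => subset_cl _ (Or.inl hz)) ?_)
    rintro _ ⟨i, i', rfl⟩
    rw [← div_div_div_cancel_right₀ hl']
    exact div_mem (subset_cl _ (Or.inr ⟨i, rfl⟩)) (subset_cl _ (Or.inr ⟨i', rfl⟩))
  obtain ⟨o1, o2⟩ := pin_ov hO hA (u' := fun i => y (j i) / y l) (fun i => by
    rw [← hj i]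
    simp only [div_eq_mul_inv]
    exact mul_mem (h (j i)) (pin_inv hO (h l) hl')) a2
  have hU := hY.union (finite_range fun i => y (j i) / y l)
  have h4 := (ai_iff_rk hY _).1 o2
  rw [Fintype.card_fin] at h4
  have h5 := rk_union_le hY (pj_finite y)
  have h6 : rk ((Y ∪ range fun i => y (j i) / y l) ∪ pj y) ≤ rk (Y ∪ pj y) := by
    refine rk_mono (hY.union (pj_finite y)) (subset_trans ?_ (subset_cl _))
    rintro z ((hz | ⟨i, rfl⟩) | hz)
    · exact Or.inl hz
    · exact Or.inr ⟨j i, l, rfl⟩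
    · exact Or.inr hz
  exact o1.mono (union_subset (fun z hz => subset_cl _ (Or.inl hz))
    (sub_cl_of_rk hU (pj_finite y) (by omega)))

theorem int_fin (hS : S.Ok t n m) (hW : Big W) (hx : S.GenO n Y x) (h0 : S.FC n G₀)
    (h : Cn.Cj G₀ G) (ht : S.Thru Y x G σ) {κ : Type} [Field κ] [Algebra ℂ κ] [IsAlgClosed κ]
    {P : Place ℂ W κ} {u : W} {R₁ R₂ : Fin S.M → κ[X]} (hN : S.Node P G₀ u R₁ R₂)
    (h1 : S.FL n R₁) (h2 : S.FL n R₂) (h3 : S.GenO n ∅ (S.top 1 R₁)) (hO : Ov (Y ∪ cf G) O)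
    (hσ : σ ∈ O) (hf : S.Pol (S.FL n) 1 Y x k f) : f ∈ O := by
  have hY := hx.1
  have hG := cj_fc hS h h0
  have hi := (ht.spec hY).2.1
  have hYA : Y ⊆ cl (Y ∪ cf G) := fun z hz => subset_cl _ (Or.inl hz)
  have hco : ∀ i j, (G i).coeff j ∈ cl (Y ∪ cf G) := fun i j => subset_cl _ (Or.inr ⟨i, j, rfl⟩)
  have hxe : ∀ i, x i = (G i).eval σ := fun i => (congrFun ht.1 i).symm
  by_cases h4 : Ov ((Y ∪ cf G) ∪ range fun _ : Unit => σ) O
  · refine h4 f (cl_le (union_subset (fun z hz => subset_cl _ (Or.inl (Or.inl hz))) ?_) hf.1.1)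
    rintro _ ⟨i, rfl⟩
    have k1 : σ ∈ cl ((Y ∪ cf G) ∪ range fun _ : Unit => σ) := subset_cl _ (Or.inr ⟨(), rfl⟩)
    have k2 : ∀ j, (G i).coeff j ∈ cl ((Y ∪ cf G) ∪ range fun _ : Unit => σ) := fun j =>
      subset_cl _ (Or.inl (Or.inr ⟨i, j, rfl⟩))
    rw [hxe, eval_eq_sum_range]
    exact sum_mem fun j _ => mul_mem (k2 j) (pow_mem k1 j)
  · obtain ⟨s, hs⟩ := pin_res hO hσ h4
    have h5 : ∀ i, (x i, S.ev G s i) ∈ pinC hO := fun i => by
      rw [hxe]
      exact pin_eval hO hs (hco i)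
    by_cases h6 : rk (Y ∪ pj (S.ev G s ∘ S.e0)) ≤ rk Y + 2 * n
    · exact int_of_hit hS hW hx (hO.mono hYA) (fun i => (h5 i).1)
        (rk_ev hS (Or.inr ⟨rfl, hG⟩) hY hi s).1 (fun p => pin_val hO (pin_aeval hO hYA h5 p))
        (hit hS hW hY h0 h hi hN h1 h2 h3 h6) hf
    · exact int_pj hS hx (pin_pj hO hYA hY (b := S.ev G s ∘ S.e0) (fun i => h5 (S.e0 i))
        (e0_ne hS (hG.1.ev_on s) (hG.1.prim s)) (r := 2 * n + 1) (by omega)
        (rk_pj_le hS.fano (hx.2.1.on0 hS))) (fun i => (h5 i).1) hf.1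

end Vale.Agent.P292
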