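import Vale.Agent.P292.P.Fam

/-! P292 P/VecA (split from P/Vec). Closure under brackets. Helper names start with `pvea_`.
`vec_polOn`: `v = vec f` is fixed by every automorphism fixing `cl (Y ∪ cf G)` and `σ` (`vec_map`). For the `D j` of
`span_full`, corrected to kill `σ` (`der_glue` or subtract `D j σ` times the derivation of `Thru.spec`),
`D j f = (D j q)(σ) = om x (ev (cD (D j) G) σ) v` (`der_eq_om`). At a valuation ring over `Y ∪ cf G` containing `σ`
the reductions of the `ev (cD (D j) G) σ` span the tangent space, so `v` is integral (normalise `v` to be primitive,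
`om_red`, `om_nondeg`). `polIn_of_fix` gives a polynomial; the same argument at infinity with `om_sc`,
`ρ = σ⁻¹ ^ δ`, bounds the degree. `pb_polOn`: `om_poly` with `a = b = 0`. -/

open Polynomial Set Matrix

noncomputable section

namespace Vale.Agent.P292

open Vale.Agent.P271 Vale.Agent.P276

variable {K : Type} [Field K] [Algebra ℂ K] {N n m : ℕ} {t : Fin (N + 1) → K} {S : Cn K N}
  {W : Type} [Field W] [Algebra ℂ W]

/-- Polynomials with coefficients in `L`. -/
def pvea_P (L : IntermediateField ℂ W) : Subalgebra ℂ W[X] where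
  carrier := {p | ∀ k, p.coeff k ∈ L}
  mul_mem' := fun {p q} hp hq k => by
    rw [coeff_mul]
    exact sum_mem fun c _ => mul_mem (hp _) (hq _)
  add_mem' := fun {p q} hp hq k => by
    rw [coeff_add]
    exact add_mem (hp _) (hq _)
  algebraMap_mem' := fun c k => by
    rw [Polynomial.algebraMap_apply, coeff_C]
    split_ifs
    · exact L.algebraMap_mem c
    · exact zero_mem _

theorem pvea_mem {L : IntermediateField ℂ W} {p : W[X]} :
    p ∈ pvea_P L ↔ ∀ k, p.coeff k ∈ L := Iff.rfl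

theorem pvea_X (L : IntermediateField ℂ W) : (X : W[X]) ∈ pvea_P L := fun k => by
  rw [coeff_X]
  split_ifs
  · exact one_mem _
  · exact zero_mem _

theorem pvea_refl {L : IntermediateField ℂ W} {p : W[X]} (hp : p ∈ pvea_P L) (d : ℕ) :
    reflect d p ∈ pvea_P L := fun k => by
  rw [coeff_reflect]
  exact hp _

theorem pvea_pi (L : IntermediateField ℂ W) : ∃ (π : W →+ W) (P : W[X] → W[X]),
    (∀ p k, (P p).coeff k = π (p.coeff k)) ∧ (∀ a, π a ∈ L) ∧
      (∀ a, ∀ b ∈ L, π (a * b) = π a * b) ∧ π 1 = 1 := by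
  obtain ⟨φ, hφ⟩ := (Algebra.linearMap L W).exists_leftInverse_of_injective
    (LinearMap.ker_eq_bot.2 (algebraMap L W).injective)
  let π : W →+ W := ((Algebra.linearMap L W).comp φ).toAddMonoidHom
  have hπ : ∀ a, π a = (φ a : W) := fun a => rfl
  refine ⟨π, fun p => ∑ k ∈ p.support, monomial k (π (p.coeff k)), fun p k => ?_,
    fun a => (φ a).2, fun a b hb => ?_, ?_⟩
  · rw [finsetSum_coeff]
    simp only [coeff_monomial, Finset.sum_ite_eq']
    split_ifs with h
    · rfl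
    · rw [notMem_support_iff.1 h, map_zero]
  · have h1 : a * b = (⟨b, hb⟩ : L) • a := by
      rw [mul_comm]
      rfl
    rw [hπ, hπ, h1, map_smul, smul_eq_mul, mul_comm]
    rfl
  · have h1 := LinearMap.congr_fun hφ 1
    simp only [LinearMap.comp_apply, Algebra.linearMap_apply, map_one, LinearMap.id_apply] at h1
    rw [hπ, h1]
    rfl

theorem pvea_proj (L : IntermediateField ℂ W) {α : Type} {r : ℕ} {w : α → W[X]}
    {u : Fin r → α → W[X]} (hw : ∀ l, w l ∈ pvea_P L) (hu : ∀ j l, u j l ∈ pvea_P L) {ρ : W[X]}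
    (h : ρ • w ∈ Submodule.span W[X] (range u)) : ∃ (ρ' : W[X]) (c : Fin r → W[X]),
      ρ' ∈ pvea_P L ∧ (∀ j, c j ∈ pvea_P L) ∧ (ρ = 1 → ρ' = 1) ∧
        (ρ.coeff 0 = 1 → ρ'.coeff 0 = 1) ∧ ∀ l, ρ' * w l = ∑ j, c j * u j l := by
  obtain ⟨π, P, h1, h2, h3, h4⟩ := pvea_pi L
  obtain ⟨c, hc⟩ := (Submodule.mem_span_range_iff_exists_fun _).1 h
  have hm : ∀ p v : W[X], v ∈ pvea_P L → ∀ k, (P p * v).coeff k = π ((p * v).coeff k) := by
    intro p v hv k
    rw [coeff_mul, coeff_mul, map_sum]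
    exact Finset.sum_congr rfl fun a _ => by rw [h1, h3 _ _ (hv _)]
  refine ⟨P ρ, fun j => P (c j), fun k => ?_, fun j k => ?_, ?_, fun h0 => ?_, fun l => ?_⟩
  · rw [h1]
    exact h2 _
  · rw [h1]
    exact h2 _
  · rintro rfl
    ext k
    rw [h1, coeff_one]
    split_ifs
    · exact h4
    · exact map_zero π
  · rw [h1, h0, h4]
  · ext k
    have h5 : ρ * w l = ∑ j, c j * u j l := by
      have := congrFun hc l
      simpa [Finset.sum_apply] using this.symm
    rw [hm _ _ (hw l), h5, finsetSum_coeff, finsetSum_coeff, map_sum]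
    exact Finset.sum_congr rfl fun j _ => (hm _ _ (hu j l) k).symm

theorem pvea_tr {A : Set W} {s : W} (hs : s ∉ cl A) {p : W[X]} (hp : p ∈ pvea_P (cl A))
    (h : p.eval s = 0) : p = 0 := by
  obtain ⟨p₀, rfl⟩ := (mem_lifts p).1
    ((lifts_iff_coeff_lifts (f := algebraMap (cl A) W) p).2 fun k => ⟨⟨_, hp k⟩, rfl⟩)
  have h1 := transcendental_iff.1 (not_mem_cl.1 hs) p₀ (by rwa [← eval_map_algebraMap])
  rw [h1, Polynomial.map_zero]

theorem pvea_deg {A : Set W} {s : W} (hs : s ∉ cl A) {p ρ g : W[X]} (hp : p ∈ pvea_P (cl A))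
    (hρ : ρ ∈ pvea_P (cl A)) (hg : g ∈ pvea_P (cl A)) (h0 : ρ.coeff 0 = 1) {e : ℕ}
    (h : ρ.eval s * s ^ e * p.eval s⁻¹ = g.eval s) : p.natDegree ≤ e := by
  by_contra hd
  obtain ⟨d, hd'⟩ := Nat.exists_eq_add_of_lt (not_le.1 hd)
  have hs0 : s ≠ 0 := fun h1 => hs (h1 ▸ zero_mem _)
  have h1 : ρ * reflect p.natDegree p - X ^ (d + 1) * g = 0 := by
    refine pvea_tr hs (sub_mem (mul_mem hρ (pvea_refl hp _))
      (mul_mem (pow_mem (pvea_X _) _) hg)) ?_
    rw [eval_sub, eval_mul, eval_mul, eval_pow, eval_X, ev_reflect le_rfl hs0, ← h, hd']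
    ring
  have h2 := congrArg (fun q : W[X] => q.coeff 0) h1
  simp only [coeff_sub, mul_coeff_zero, h0, one_mul, coeff_reflect, revAt_zero, coeff_X_pow,
    coeff_zero] at h2
  rw [if_neg (by omega), zero_mul, sub_zero, coeff_natDegree, leadingCoeff_eq_zero] at h2
  rw [h2, natDegree_zero] at hd'
  omega

theorem pvea_nak {G w : Fin S.M → W[X]} {r : ℕ} {u : Fin r → Fin S.M → W[X]}
    (hu : ∀ j, S.Tan G (u j)) {a : W}
    (hs : ∀ v, S.Tan (S.ev G a) v → v ∈ Submodule.span W (range fun j => S.ev (u j) a))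
    (hw : S.Tan G w) : ∃ ρ : W[X], ρ.eval a = 1 ∧ ρ • w ∈ Submodule.span W[X] (range u) := by
  have hT : S.TanS G ≤ Submodule.span W[X] (range u) ⊔
      Ideal.span {(X - C a : W[X])} • S.TanS G := by
    intro v hv
    obtain ⟨c, hc⟩ := (Submodule.mem_span_range_iff_exists_fun _).1 (hs _ (Cn.Tan.ev hv a))
    have h1 : ∑ j, C (c j) • u j ∈ Submodule.span W[X] (range u) :=
      Submodule.sum_mem _ fun j _ => Submodule.smul_mem _ _ (Submodule.subset_span ⟨j, rfl⟩)
    have h2 : v - ∑ j, C (c j) • u j ∈ S.TanS G :=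
      Submodule.sub_mem _ hv (Submodule.sum_mem _ fun j _ => Submodule.smul_mem _ _ (hu j))
    have h3 : ∀ l, ∃ y, (v - ∑ j, C (c j) • u j) l = (X - C a) * y := by
      intro l
      refine dvd_iff_isRoot.2 ?_
      have h4 := congrFun hc l
      simp only [Finset.sum_apply, Pi.smul_apply, smul_eq_mul, Cn.ev] at h4
      simp only [IsRoot.def, Pi.sub_apply, Finset.sum_apply, Pi.smul_apply, smul_eq_mul, eval_sub,
        eval_finsetSum, eval_mul, eval_C, h4, sub_self]
    choose y hy using h3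
    have h5 : S.Tan G y := by
      intro k P hP h0
      have h6 := h2 k P hP h0
      simp only [hy] at h6
      refine (mul_eq_zero.1 ?_).resolve_left (X_sub_C_ne_zero a)
      rw [Finset.mul_sum, ← h6]
      exact Finset.sum_congr rfl fun l _ => by ring
    have h7 : v = ∑ j, C (c j) • u j + (X - C a) • y := by
      funext l
      have h8 := hy l
      rw [Pi.sub_apply] at h8
      rw [Pi.add_apply, Pi.smul_apply, smul_eq_mul, ← h8]
      ring
    rw [h7]
    exact Submodule.add_mem_sup h1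
      (Submodule.smul_mem_smul (Ideal.subset_span (mem_singleton _)) h5)
  obtain ⟨ρ, h1, h2⟩ := Submodule.exists_sub_one_mem_and_smul_le_of_fg_of_le_sup
    (IsNoetherian.noetherian (S.TanS G)) le_rfl hT
  refine ⟨ρ, ?_, h2 (Submodule.smul_mem_pointwise_smul _ _ _ hw)⟩
  obtain ⟨y, hy⟩ := Ideal.mem_span_singleton.1 h1
  have h3 := congrArg (eval a) hy
  simp only [eval_sub, eval_one, eval_mul, eval_X, eval_C, sub_self, zero_mul] at h3
  exact sub_eq_zero.1 h3

theorem pvea_col {R : Type} [CommRing R] [Algebra ℂ R] (z : Fin S.M → R) (i : Fin S.M) :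
    S.pm z *ᵥ Pi.single i 1 = fun l => S.pm z l i := by
  rw [mulVec_single_one]
  rfl

theorem pvea_pm_ev (G : Fin S.M → W[X]) (s : W) (l i : Fin S.M) :
    (S.pm G l i).eval s = S.pm (S.ev G s) l i :=
  (pm_map ((Polynomial.aeval s : W[X] →ₐ[W] W).restrictScalars ℂ) G l i).symm

theorem pvea_pm_mem {L : IntermediateField ℂ W} {G : Fin S.M → W[X]} (h : ∀ l, G l ∈ pvea_P L)
    (l i : Fin S.M) : S.pm G l i ∈ pvea_P L := by
  have h1 : (MvPolynomial.aeval (R := ℂ) G).range ≤ pvea_P L := by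
    rw [MvPolynomial.aeval_range]
    exact Algebra.adjoin_le (range_subset_iff.2 h)
  exact h1 ⟨S.p l i, rfl⟩

theorem pvea_val (hS : S.Ok t n m) {x v : Fin S.M → W} (h : S.On x) (h0 : x ≠ 0) (hv : S.Tan x v)
    {r : ℕ} {u : Fin r → Fin S.M → W} {c₀ : W} {c : Fin r → W} {i : Fin S.M}
    (h1 : ∀ l, c₀ * S.pm x l i = ∑ j, c j * u j l) :
    c₀ * v i = - ∑ j, c j * S.om x (u j) v := by
  have h2 : S.om x (fun l => S.pm x l i) v = - v i := by
    rw [← pvea_col, om_anti hS h h0 hv (tan_pm hS h _), om_pm hS h h0 hv, dotProduct_single_one]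
  have h3 : c₀ * S.om x (fun l => S.pm x l i) v = ∑ j, c j * S.om x (u j) v := by
    unfold Cn.om
    split_ifs with h4
    · simp only [dotProduct, Finset.mul_sum, ← mul_assoc, h1, Finset.sum_mul]
      exact Finset.sum_comm
    · simp
  rw [← h3, h2]
  ring

variable [IsAlgClosed W] {δ k : ℕ} {G G₀ H : Fin S.M → W[X]} {O : ValuationSubring W}
  {A B Y : Set W} {x : Fin S.M → W} {f g σ : W} {𝓕 : (Fin S.M → W[X]) → Prop}

theorem vec_polOn (hS : S.Ok t n m) (hx : S.GenO n Y x)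
    (h : (δ = 1 ∧ S.FL n G) ∨ (δ = 2 ∧ S.FC n G)) (ht : S.Thru Y x G σ)
    (hf : f ∈ cl (Y ∪ range x)) (hp : Cn.PolOn Y G σ (δ * k) f) (hk : 1 ≤ k) (i : Fin S.M) :
    Cn.PolOn Y G σ (δ * (k + S.w i - 1)) (S.vec Y x f i) := by
  obtain ⟨hσ, hi, E, hE, hE1, -, -, -⟩ := ht.spec hx.1
  obtain ⟨r, D, hD, hs, hs'⟩ := span_full hS h hx.1 hi
  have hLC : S.LC δ G := by
    rcases h with ⟨rfl, h⟩ | ⟨rfl, h⟩
    · exact h.1
    · exact h.1
  obtain ⟨q, hq, hqc, hfq⟩ := hp
  have hxe : S.ev G σ = x := ht.1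
  have hv := (vec_tan hS hx hf).1
  have hG : ∀ l, G l ∈ pvea_P (cl (Y ∪ cf G)) := fun l a =>
    subset_cl _ (Or.inr ⟨l, a, rfl⟩)
  have hcD : ∀ (H : Fin S.M → W[X]), (∀ l, H l ∈ pvea_P (cl (Y ∪ cf G))) →
      ∀ j l, S.cD (D j) H l ∈ pvea_P (cl (Y ∪ cf G)) := fun H hH j l a => by
    rw [cD_coeff]
    exact (hD j).2 _ (hH l a)
  have hkey : ∀ j, S.om x (S.ev (S.cD (D j) G) σ) (S.vec Y x f) =
      (S.cD (D j) (fun _ => q) i).eval σ := by
    intro j
    have h1 : ∀ H : Fin S.M → W[X], (∀ l, H l ∈ pvea_P (cl (Y ∪ cf G))) → ∀ l,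
        (D j - D j σ • E) (S.ev H σ l) = S.ev (S.cD (D j) H) σ l := by
      intro H hH l
      have h2 : S.cD (D j - D j σ • E) H = S.cD (D j) H := by
        funext l
        ext a
        rw [cD_coeff, cD_coeff, Derivation.sub_apply, Derivation.smul_apply, hE _ (hH l a),
          smul_zero, sub_zero]
      rw [der_ev, h2, Derivation.sub_apply, Derivation.smul_apply, hE1, smul_eq_mul, mul_one,
        sub_self, zero_mul, add_zero]
    have h3 := der_eq_om (D := D j - D j σ • E) hS hx (fun a ha => by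
      rw [Derivation.sub_apply, Derivation.smul_apply, (hD j).1 a ha,
        hE a (cl_mono subset_union_left ha), smul_zero, sub_zero]) hf
    have h4 : (fun l => (D j - D j σ • E) (x l)) = S.ev (S.cD (D j) G) σ := by
      funext l
      rw [← hxe]
      exact h1 G hG l
    rw [← h4, ← h3, hfq]
    exact h1 (fun _ => q) (fun _ => hqc) i
  have hg := fun j => hcD (fun _ => q) (fun _ => hqc) j i
  have hgd : ∀ j, (S.cD (D j) (fun _ => q) i).natDegree ≤ δ * k := fun j =>
    (cD_deg _ _ _).trans hq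
  have hw : ∀ H : Fin S.M → W[X], S.On H → S.Tan H fun l => S.pm H l i := fun H hH => by
    rw [← pvea_col]
    exact tan_pm hS hH _
  have h1 : (1 : W[X]) • (fun l => S.pm G l i) ∈
      Submodule.span W[X] (range fun j => S.cD (D j) G) := by
    refine unit_of_loc ((Submodule.span W[X] (range fun j => S.cD (D j) G)).comap
      (LinearMap.toSpanSingleton W[X] _ fun l => S.pm G l i)) fun a => ?_
    obtain ⟨ρ, h2, h3⟩ := pvea_nak (fun j => cD_tan hLC.on (D j)) (hs a) (hw G hLC.on)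
    exact ⟨ρ, h3, by rw [h2]; exact one_ne_zero⟩
  obtain ⟨ρ, c, -, hc, hρ, -, h2⟩ :=
    pvea_proj _ (fun l => pvea_pm_mem hG l i) (hcD G hG) h1
  obtain rfl := hρ rfl
  have hP : - ∑ j, c j * S.cD (D j) (fun _ => q) i ∈ pvea_P (cl (Y ∪ cf G)) :=
    neg_mem (sum_mem fun j _ => mul_mem (hc j) (hg j))
  have hval : S.vec Y x f i = (- ∑ j, c j * S.cD (D j) (fun _ => q) i).eval σ := by
    have h3 := pvea_val hS hx.2.1 hx.ne hv (c₀ := 1) (c := fun j => (c j).eval σ)
      (u := fun j => S.ev (S.cD (D j) G) σ) (i := i) fun l => by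
        have h4 := congrArg (eval σ) (h2 l)
        rw [eval_mul, eval_one, pvea_pm_ev, hxe, eval_finsetSum] at h4
        simp only [eval_mul] at h4
        exact h4
    rw [one_mul] at h3
    simp only [h3, hkey, eval_neg, eval_finsetSum, eval_mul]
  refine ⟨_, ?_, hP, hval⟩
  obtain ⟨hLC', h5, -, -, h6⟩ := hLC.rev
  have hG' : ∀ l, S.rev δ G l ∈ pvea_P (cl (Y ∪ cf G)) := fun l => pvea_refl (hG l) _
  have h7 : ∀ j, S.ev (S.cD (D j) (S.rev δ G)) 0 = S.top δ (S.cD (D j) G) := by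
    intro j
    funext l
    have h8 : (S.rev δ G l).coeff 0 = (G l).coeff (δ * S.w l) := congrFun h5 l
    rw [(ev_zero _).1]
    simp only [cv, Cn.top, cD_coeff, h8]
  obtain ⟨ρ, h8, h9⟩ := pvea_nak (a := 0) (fun j => cD_tan hLC'.on (D j))
    (fun v hv => by
      rw [(ev_zero _).1, h5] at hv
      simpa only [h7] using hs' v hv) (hw _ hLC'.on)
  obtain ⟨ρ', c', hρ', hc', -, h10, h11⟩ :=
    pvea_proj _ (fun l => pvea_pm_mem hG' l i) (hcD _ hG') h9
  have hσ' : σ⁻¹ ∉ cl (Y ∪ cf G) := fun h12 => hσ (by simpa using inv_mem h12)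
  have hs0 : σ⁻¹ ≠ 0 := fun h12 => hσ' (h12 ▸ zero_mem _)
  obtain ⟨w', hw'⟩ : ∃ w', S.w i = w' + 1 := ⟨S.w i - 1, by have := hS.wpos i; omega⟩
  refine pvea_deg hσ' hP hρ' (g := - ∑ j, c' j * reflect (δ * k) (S.cD (D j) (fun _ => q) i))
    (neg_mem (sum_mem fun j _ => mul_mem (hc' j) (pvea_refl (hg j) _)))
    (h10 (by rw [coeff_zero_eq_eval_zero, h8])) ?_
  have h12 := pvea_val hS hx.2.1 hx.ne hv (c₀ := ρ'.eval σ⁻¹ * (σ⁻¹ ^ δ) ^ w')
    (c := fun j => (c' j).eval σ⁻¹) (u := fun j => S.ev (S.cD (D j) G) σ) (i := i) fun l => by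
      have h13 := congrArg (eval σ⁻¹) (h11 l)
      have h14 : ∀ j, (S.cD (D j) (S.rev δ G) l).eval σ⁻¹ =
          (σ⁻¹ ^ δ) ^ S.w l * S.ev (S.cD (D j) G) σ l := fun j => by
        have h15 := congrFun (ev_rev (G := S.cD (D j) G)
          (fun l => (cD_deg _ _ _).trans (hLC.deg l)) hs0) l
        rw [inv_inv, ← cD_rev] at h15
        exact h15
      rw [eval_mul, pvea_pm_ev, ev_rev hLC.deg hs0, inv_inv, hxe, pm_sc hS, eval_finsetSum,
        hw', show S.w l + (w' + 1) - 1 = S.w l + w' by omega] at h13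
      simp only [eval_mul, h14] at h13
      refine mul_left_cancel₀ (pow_ne_zero (S.w l) (pow_ne_zero δ hs0)) ?_
      rw [Finset.mul_sum]
      refine Eq.trans ?_ (h13.trans (Finset.sum_congr rfl fun j _ => by ring))
      ring
  rw [inv_inv, ← hval, hw', show k + (w' + 1) - 1 = k + w' by omega, eval_neg, eval_finsetSum]
  simp only [eval_mul, ev_reflect (hgd _) hs0, inv_inv, ← hkey]
  have h16 : ρ'.eval σ⁻¹ * σ⁻¹ ^ (δ * (k + w')) * S.vec Y x f i =
      σ⁻¹ ^ (δ * k) * (ρ'.eval σ⁻¹ * (σ⁻¹ ^ δ) ^ w' * S.vec Y x f i) := by ring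
  rw [h16, h12, mul_neg, Finset.mul_sum]
  exact congrArg Neg.neg (Finset.sum_congr rfl fun j _ => by ring)

end Vale.Agent.P292
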