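import Vale.Agent.P292.P.Fam
import Vale.Agent.P292.P.VecA

/-! P292 P/Vec. Closure under brackets. Helper names start with `pve_`.
`vec_polOn`: `v = vec f` is fixed by every automorphism fixing `cl (Y ∪ cf G)` and `σ` (`vec_map`). For the `D j` of
`span_full`, corrected to kill `σ` (`der_glue` or subtract `D j σ` times the derivation of `Thru.spec`),
`D j f = (D j q)(σ) = om x (ev (cD (D j) G) σ) v` (`der_eq_om`). At a valuation ring over `Y ∪ cf G` containing `σ`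
the reductions of the `ev (cD (D j) G) σ` span the tangent space, so `v` is integral (normalise `v` to be primitive,
`om_red`, `om_nondeg`). `polIn_of_fix` gives a polynomial; the same argument at infinity with `om_sc`,
`ρ = σ⁻¹ ^ δ`, bounds the degree. `pb_polOn`: `om_poly` with `a = b = 0`. -/

open Polynomial Set Matrix

noncomputable section

namespace Vale.Agent.P292

open Vale.Agent.P271 Vale.Agent.P276

variable {K : Type} [Field K] [Algebra ℂ K] {N n m : ℕ} {t : Fin (N + 1) → K} {S : Cn K N}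
  {W : Type} [Field W] [Algebra ℂ W]

variable [IsAlgClosed W] {δ k : ℕ} {G G₀ H : Fin S.M → W[X]} {O : ValuationSubring W}
  {A B Y : Set W} {x : Fin S.M → W} {f g σ : W} {𝓕 : (Fin S.M → W[X]) → Prop}

omit [IsAlgClosed W] in
theorem pve_lift {u : Fin S.M → W[X]} (hu : ∀ i j, (u i).coeff j ∈ cl A) :
    ∃ u' : Fin S.M → (cl A)[X], ∀ i, (u' i).map (algebraMap (cl A) W) = u i := by
  have hl : ∀ i, ∃ g : (cl A)[X], g.map (algebraMap (cl A) W) = u i := fun i =>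
    (mem_lifts _).1 ((lifts_iff_coeff_lifts _).2 fun j => ⟨⟨(u i).coeff j, hu i j⟩, rfl⟩)
  choose u' hu' using hl
  exact ⟨u', hu'⟩

omit [IsAlgClosed W] in
theorem pve_tan {v : Fin S.M → W[X]} (hσ : σ ∉ cl A) (hG : ∀ i j, (G i).coeff j ∈ cl A)
    (hv : ∀ i j, (v i).coeff j ∈ cl A) (h : S.Tan (S.ev G σ) (S.ev v σ)) : S.Tan G v := by
  obtain ⟨G', hG'⟩ := pve_lift hG
  obtain ⟨v', hv'⟩ := pve_lift hv
  have h1 : S.Tan G' v' := fun k P hP h0 => by
    refine transcendental_iff.1 (not_mem_cl.1 hσ) _ ?_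
    rw [← h k P hP h0, map_sum]
    refine Finset.sum_congr rfl fun i _ => ?_
    have e := MvPolynomial.comp_aeval_apply G'
      ((aeval σ : (cl A)[X] →ₐ[cl A] W).restrictScalars ℂ) (MvPolynomial.pderiv i P)
    have e1 : (fun j => ((aeval σ : (cl A)[X] →ₐ[cl A] W).restrictScalars ℂ) (G' j)) =
        S.ev G σ := funext fun j => by
      rw [Cn.ev, ← hG' j, eval_map_algebraMap]
      rfl
    rw [e1] at e
    rw [map_mul, ← e, Cn.ev, ← hv' i, eval_map_algebraMap]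
    rfl
  have h2 := h1.map (mapAlgHom (IsScalarTower.toAlgHom ℂ (cl A) W))
  simp only [coe_mapAlgHom, IsScalarTower.coe_toAlgHom, hG', hv'] at h2
  exact h2

theorem Cn.Pol.vec (hS : S.Ok t n m) (hx : S.GenO n Y x)
    (h : ∀ G, 𝓕 G → (δ = 1 ∧ S.FL n G) ∨ (δ = 2 ∧ S.FC n G)) (hf : S.Pol 𝓕 δ Y x k f) (hk : 1 ≤ k)
    (i : Fin S.M) : S.Pol 𝓕 δ Y x (k + S.w i - 1) (S.vec Y x f i) := by
  exact ⟨hf.1.vec hS hx i, fun G τ hG ht =>
    vec_polOn hS hx (h G hG) ht hf.1.1 (hf.2 G τ hG ht) hk i⟩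

theorem Cn.Pol.pb (hS : S.Ok t n m) (hx : S.GenO n Y x)
    (h : ∀ G, 𝓕 G → (δ = 1 ∧ S.FL n G) ∨ (δ = 2 ∧ S.FC n G)) (hf : S.Pol 𝓕 δ Y x 1 f)
    (hg : S.Pol 𝓕 δ Y x 1 g) : S.Pol 𝓕 δ Y x 1 (S.pb Y x f g) := by
  refine ⟨hf.1.pb hS hx hg.1, fun G τ hG ht => ?_⟩
  have hL : S.LC δ G := by
    rcases h G hG with ⟨rfl, h1⟩ | ⟨rfl, h1⟩
    · exact h1.1
    · exact h1.1
  have hτ := (ht.spec hx.1).1
  have hc : ∀ i j, (G i).coeff j ∈ cl (Y ∪ cf G) := fun i j =>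
    subset_cl _ (Or.inr ⟨i, j, rfl⟩)
  have key : ∀ f, S.Pol 𝓕 δ Y x 1 f → ∃ v : Fin S.M → W[X], S.Tan G v ∧
      (∀ i (k : ℕ), (δ * S.w i : ℤ) < k + 0 → (v i).coeff k = 0) ∧
      cf v ⊆ cl (Y ∪ cf G) ∧ S.ev v τ = S.vec Y x f := fun f hf => by
    choose v h1 h2 h3 using fun i => (hf.vec hS hx h le_rfl i).2 G τ hG ht
    have h4 : S.ev v τ = S.vec Y x f := funext fun i => (h3 i).symm
    refine ⟨v, pve_tan hτ hc h2 ?_, fun i k hk => coeff_eq_zero_of_natDegree_lt ?_, ?_, h4⟩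
    · rw [ht.1, h4]
      exact (vec_tan hS hx hf.1.1).1
    · have h5 := h1 i
      rw [show 1 + S.w i - 1 = S.w i by omega] at h5
      have h6 : δ * S.w i < k := by exact_mod_cast (add_zero (k : ℤ) ▸ hk)
      omega
    · rintro _ ⟨i, j, rfl⟩
      exact h2 i j
  obtain ⟨v, a1, a2, a3, a4⟩ := key f hf
  obtain ⟨v', b1, b2, b3, b4⟩ := key g hg
  obtain ⟨q, c1, c2, c3⟩ := om_poly hS hL a1 b1 a2 b2
  refine ⟨q, natDegree_le_iff_coeff_eq_zero.2 fun k hk => c1 k (by omega), fun k => ?_, ?_⟩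
  · exact cl_le (union_subset (union_subset (subset_union_right.trans (subset_cl _)) a3) b3) (c2 k)
  · rw [c3, ht.1, a4, b4, (pb_om hS hx hf.1.1 hg.1.1).1]

end Vale.Agent.P292
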