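import Vale.Agent.P292.P.CaseI
import Vale.Agent.P292.P.IntF
import Vale.Agent.P292.P.Bol
import Vale.Agent.P292.P.Vec

/-! P292 P/HPol. `h` is polynomial along the good family. Helper names start with `php_`.
Case split on `Good`: `h_caseI`, or `pol_of_int` with `Q = {g | ∃ k ≥ 1, Pol (FL n) 1 Y x k g}` (`h_line`, `Pol.vec`,
`int_fin`). -/

open Polynomial Set Matrix

noncomputable section

namespace Vale.Agent.P292

open Vale.Agent.P271 Vale.Agent.P276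

variable {K : Type} [Field K] [Algebra ℂ K] {N n m : ℕ} {t : Fin (N + 1) → K} {S : Cn K N}
  {W : Type} [Field W] [Algebra ℂ W]

variable [IsAlgClosed W] {δ k : ℕ} {G G₀ H : Fin S.M → W[X]} {O : ValuationSubring W}
  {A B Y : Set W} {x : Fin S.M → W} {f g σ : W} {𝓕 : (Fin S.M → W[X]) → Prop}

theorem h_pol (hS : S.Ok t n m) (hW : Big W) (hG : S.Good n G₀) (h : S.FC n H) :
    S.Pol (Cn.Cj G₀) 2 (range (S.top 2 H)) (cv H 0) 1 (S.Av H ^ 2) := by
  obtain ⟨-, hx, hy, -⟩ := h.spec hS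
  have hl := h_line hS h.1 h.2.1 hx (subset_cl _)
  refine ⟨hl.1, fun G σ hc ht => ?_⟩
  have hF := cj_fc hS hc hG.1
  rcases hG.2 with hp | ⟨κ, _, _, _, P, u, R₁, R₂, hN, h1, h2, h3⟩
  · exact h_caseI hS h.1 h.2.1 hx (subset_cl _) (hy.mono hS finite_empty (empty_subset _)) hp hF ht
  · refine pol_of_int hS hx hF.1 ht ((hF.gen hS hx.1 (ht.spec hx.1).2.1).2.mono hS hx.1
      (subset_union_left.trans (subset_cl _)))
      (Q := {g | ∃ k, 1 ≤ k ∧ S.Pol (S.FL n) 1 (range (S.top 2 H)) (cv H 0) k g}) ?_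
      ⟨1, le_rfl, hl⟩ hl.1
    rintro g ⟨k, hk, hg⟩
    refine ⟨hg.1.1, fun O hO hσ => int_fin hS hW hx hG.1 hc ht hN h1 h2 h3 hO hσ hg, fun i =>
      ⟨_, ?_, hg.vec hS hx (fun _ hG' => Or.inl ⟨rfl, hG'⟩) hk i⟩⟩
    have := hS.wpos i
    omega

end Vale.Agent.P292
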