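import Vale.Agent.P292.P.Fam
import Vale.Agent.P292.P.HitAX

/-! P292 P/HitA (split from P/Hit). A divisor met by a full conic is met by a full line. Helper names start with `phia_`.
Let `G = θ G₀`. Transport the place of `Node` along `θ` (`exists_comap`) and replace it by a Gauss extension over
`Y` (`gau_a_core`, `exists_gauss` for a transcendence basis of `Y`, which is independent over `cl (cf G)`): a place
`P` that is trivial on `cl Y`, with the residues of `Y` independent of `cf R₁ ∪ cf R₂`. The ideal `𝔭` of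
`b = ev G s` over `cl Y` is weighted homogeneous (projective rank `2 n`, rank `2 n + 1` by `rk_ev`). If
`|s| ≤ |u|` then `b = ev (dil u G) (s / u)` reduces to a point of `R₁`; if `|s⁻¹| ≤ |u|` a scaling of `b` reduces to a point of
`R₂`; otherwise `sc (u / s) b` reduces to the node, which is generic over `Y`, contradiction. The reduced point has
rank at least `2 n + 1` over `Y` (`rk_ev` in the residue field), so `sp_of_indep`. Move the line back into `W` over
`cl Y` (`emb_big`). -/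

open Polynomial Set Matrix

noncomputable section

namespace Vale.Agent.P292

open Vale.Agent.P271 Vale.Agent.P276

variable {K : Type} [Field K] [Algebra ℂ K] {N n m : ℕ} {t : Fin (N + 1) → K} {S : Cn K N}
  {W : Type} [Field W] [Algebra ℂ W]

variable [IsAlgClosed W] {δ k : ℕ} {G G₀ H : Fin S.M → W[X]} {O : ValuationSubring W}
  {A B Y : Set W} {x : Fin S.M → W} {f g σ : W} {𝓕 : (Fin S.M → W[X]) → Prop}

/-- The point `b` is conjugate over `Y` to a point of a full line that is independent of `Y`. -/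
def Cn.Hit (S : Cn K N) (n : ℕ) (Y : Set W) (b : Fin S.M → W) : Prop :=
  ∃ (R : Fin S.M → W[X]) (s : W), S.FL n R ∧ rk Y + rk (cf R) ≤ rk (Y ∪ cf R) ∧
    Sp (cl Y) b (S.ev R s) ∧ Sp (cl Y) (S.ev R s) b

section Map

variable {V V' : Type} [Field V] [Algebra ℂ V] [Field V'] [Algebra ℂ V'] (j : V →ₐ[ℂ] V')
  {q : Fin S.M → V[X]}

theorem phia_on {R R' : Type} [CommRing R] [Algebra ℂ R] [CommRing R'] [Algebra ℂ R']
    (f : R →ₐ[ℂ] R') (hf : Function.Injective f) {z : Fin S.M → R} (h : S.On fun i => f (z i)) :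
    S.On z := fun k P hP h0 => hf (by
  rw [map_zero, MvPolynomial.comp_aeval_apply]
  exact h k P hP h0)

theorem phia_top (δ : ℕ) (q : Fin S.M → V[X]) :
    S.top δ (fun i => (q i).map (j : V →+* V')) = fun i => j (S.top δ q i) :=
  funext fun _ => coeff_map _ _

theorem phia_ends (δ : ℕ) (q : Fin S.M → V[X]) :
    S.ends δ (fun i => (q i).map (j : V →+* V')) = j '' S.ends δ q := by
  have h1 : cv (fun i => (q i).map (j : V →+* V')) 0 = j ∘ cv q 0 := funext fun _ => coeff_map _ _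
  rw [Cn.ends, Cn.ends, phia_top, h1, image_union, range_comp, ← range_comp j (S.top δ q)]
  rfl

theorem phia_cf {α : Type} (q : α → V[X]) :
    cf (fun i => (q i).map (j : V →+* V')) = j '' cf q := by
  ext a
  constructor
  · rintro ⟨s, k, rfl⟩
    exact ⟨_, ⟨s, k, rfl⟩, (coeff_map _ _).symm⟩
  · rintro ⟨_, ⟨s, k, rfl⟩, rfl⟩
    exact ⟨s, k, (coeff_map (j : V →+* V') _).symm⟩

theorem phia_lc (h : S.LC δ fun i => (q i).map (j : V →+* V')) : S.LC δ q := by
  refine ⟨phia_on (mapAlgHom j) (map_injective (j : V →+* V') j.injective) h.on, fun i => ?_,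
    fun a e => h.prim (j a) (funext fun i => ?_), fun e => h.top ?_⟩
  · rw [← natDegree_map (j : V →+* V')]
    exact h.deg i
  · have h1 : (q i).eval a = 0 := congrFun e i
    have h2 := eval_map_apply (p := q i) (j : V →+* V') a
    rw [h1, map_zero] at h2
    exact h2
  · rw [phia_top, e]
    exact funext fun _ => map_zero j

theorem phia_fl [IsAlgClosed V] : (S.FL n fun i => (q i).map (j : V →+* V')) ↔ S.FL n q := by
  rw [Cn.FL, Cn.FL, phia_ends, rk_image]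
  exact and_congr_left' ⟨phia_lc j, fun h => h.map j⟩

theorem phia_gen {z : Fin S.M → V} : (S.GenO n ∅ fun i => j (z i)) ↔ S.GenO n ∅ z := by
  have h1 : (∅ ∪ range fun i => j (z i)) = j '' (∅ ∪ range z) := by
    rw [empty_union, empty_union, ← range_comp]
    rfl
  have h2 := rk_image j ∅
  rw [image_empty] at h2
  rw [Cn.GenO, Cn.GenO, h1, rk_image, h2]
  exact ⟨fun h => ⟨finite_empty, phia_on j j.injective h.2.1, h.2.2⟩,
    fun h => ⟨finite_empty, h.2.1.map j, h.2.2⟩⟩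

theorem phia_poly {U κ α : Type} [Field U] [Algebra ℂ U] [Field κ] [Algebra ℂ κ] {P : Place ℂ U κ}
    {P' : Place ℂ U V'} {j₁ : V →ₐ[ℂ] κ} {θ : U ≃ₐ[ℂ] U} {B : Set U}
    (h : ∀ a c, θ a ∈ cl B → P.Red a c → ∃ b, j₁ b = c ∧ P'.Red (θ a) (j b))
    {F₀ F : α → U[X]} {R : α → κ[X]} (hF : ∀ i k, (F i).coeff k = θ ((F₀ i).coeff k))
    (hB : ∀ i k, (F i).coeff k ∈ cl B) (hR : P.RedP F₀ R) :
    ∃ q : α → V[X], (R = fun i => (q i).map (j₁ : V →+* κ)) ∧
      P'.RedP F fun i => (q i).map (j : V →+* V') := by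
  have h1 : ∀ i k, ∃ b, j₁ b = (R i).coeff k ∧ P'.Red ((F i).coeff k) (j b) := fun i k => by
    rw [hF]
    exact h _ _ (hF i k ▸ hB i k) (hR i k)
  have h2 : ∀ i, ∃ q : V[X], q.map (j₁ : V →+* κ) = R i := fun i =>
    (mem_lifts _).1 ((lifts_iff_coeff_lifts _).2 fun k => (h1 i k).imp fun _ hb => hb.1)
  choose q hq using h2
  refine ⟨q, funext fun i => (hq i).symm, fun i k => ?_⟩
  obtain ⟨b, hb, hb'⟩ := h1 i k
  rw [← hq, coeff_map] at hb
  rw [coeff_map, ← j₁.injective hb]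
  exact hb'

end Map

/-- The node place, made trivial on `Y`. -/
theorem node_over (hS : S.Ok t n m) (hW : Big W) (hY : Y.Finite) (h : Cn.Cj G₀ G)
    (hi : rk Y + rk (cf G) ≤ rk (Y ∪ cf G)) {κ : Type} [Field κ] [Algebra ℂ κ] [IsAlgClosed κ]
    {P : Place ℂ W κ} {u : W} {R₁ R₂ : Fin S.M → κ[X]} (hN : S.Node P G₀ u R₁ R₂)
    (h1 : S.FL n R₁) (h2 : S.FL n R₂) (h3 : S.GenO n ∅ (S.top 1 R₁)) :
    ∃ (κ : Type) (_ : Field κ) (_ : Algebra ℂ κ) (_ : IsAlgClosed κ) (P : Place ℂ W κ) (u : W)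
      (R₁ R₂ : Fin S.M → κ[X]) (ι : cl Y →ₐ[ℂ] κ), S.Node P G u R₁ R₂ ∧ S.FL n R₁ ∧ S.FL n R₂ ∧
        S.GenO n ∅ (S.top 1 R₁) ∧ (∀ a : cl Y, P.Red (a : W) (ι a)) ∧
        rk Y + rk (cf R₁ ∪ cf R₂) ≤ rk ({b | ∃ a : cl Y, (a : W) ∈ Y ∧ b = ι a} ∪ (cf R₁ ∪ cf R₂)) := by
  obtain ⟨θ₀, hG⟩ := h
  have hc := cf_finite G
  obtain ⟨θ₁, hfx, hrk⟩ := aut_move hW hc (finite_singleton (θ₀ u)) hY
  rw [image_singleton] at hrk
  have hB : (cf G ∪ {θ₁ (θ₀ u)}).Finite := hc.union (finite_singleton _)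
  rw [union_comm Y] at hi
  obtain ⟨κ₀, κ', _, _, _, _, _, _, P', j₁, j₂, ι, e1, e2, e3⟩ :=
    phia_gauss hB hY (by omega) P (θ₀.trans θ₁)
  have hm : ∀ i k, (G i).coeff k ∈ cl (cf G ∪ {θ₁ (θ₀ u)}) := fun i k =>
    subset_cl _ (Or.inl ⟨i, k, rfl⟩)
  have hu : (θ₀.trans θ₁) u ∈ cl (cf G ∪ {θ₁ (θ₀ u)}) := subset_cl _ (Or.inr rfl)
  have hθ : ∀ i k, (G i).coeff k = (θ₀.trans θ₁) ((G₀ i).coeff k) := fun i k => by
    have h4 : (G i).coeff k = θ₀ ((G₀ i).coeff k) := by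
      rw [hG]
      exact coeff_map _ _
    rw [AlgEquiv.trans_apply, ← h4, hfx _ (subset_cl _ ⟨i, k, rfl⟩)]
  obtain ⟨q₁, rfl, r1⟩ := phia_poly j₂ e1 (F := dil ((θ₀.trans θ₁) u) G)
    (fun i k => by rw [coeff_dil, coeff_dil, map_mul, map_pow, hθ])
    (fun i k => by
      rw [coeff_dil]
      exact mul_mem (pow_mem hu k) (hm i k)) hN.r1
  obtain ⟨q₂, rfl, r2⟩ := phia_poly j₂ e1 (F := dil ((θ₀.trans θ₁) u) (S.rev 2 G))
    (fun i k => by
      rw [coeff_dil, coeff_dil, map_mul, map_pow, Cn.rev, Cn.rev, coeff_reflect, coeff_reflect, hθ])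
    (fun i k => by
      rw [coeff_dil, Cn.rev, coeff_reflect]
      exact mul_mem (pow_mem hu k) (hm i _)) hN.r2
  have f1 := (phia_fl j₂).2 ((phia_fl j₁).1 h1)
  have f2 := (phia_fl j₂).2 ((phia_fl j₁).1 h2)
  have ht : S.top 1 q₁ = S.top 1 q₂ := funext fun i => j₁.injective (by
    have h4 := hN.top
    rw [phia_top, phia_top] at h4
    exact congrFun h4 i)
  refine ⟨κ', inferInstance, inferInstance, inferInstance, P', (θ₀.trans θ₁) u, _, _, ι,
    ⟨(_root_.map_ne_zero _).2 hN.ne, ?_, r1, r2, f1.1, f2.1, ?_⟩, f1, f2, ?_, e2, ?_⟩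
  · obtain ⟨b, hb, hb'⟩ := e1 u 0 hu (Place.red_zero_iff.2 hN.lt)
    rw [(_root_.map_eq_zero _).1 hb, map_zero] at hb'
    exact Place.red_zero_iff.1 hb'
  · rw [phia_top, phia_top, ht]
  · rw [phia_top] at h3 ⊢
    exact (phia_gen j₂).2 ((phia_gen j₁).1 h3)
  · rw [phia_cf, phia_cf, ← image_union, rk_image]
    exact e3 _ ((cf_finite q₁).union (cf_finite q₂))

end Vale.Agent.P292
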