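import Vale.Agent.P292.P.Fam
import Vale.Agent.P292.P.HitA
import Vale.Agent.P276.U.Amal

/-! P292 P/Hit. A divisor met by a full conic is met by a full line. Helper names start with `phi_`.
Let `G = θ G₀`. Transport the place of `Node` along `θ` (`exists_comap`) and replace it by a Gauss extension over
`Y` (`gau_a_core`, `exists_gauss` for a transcendence basis of `Y`, which is independent over `cl (cf G)`): a place
`P` that is trivial on `cl Y`, with the residues of `Y` independent of `cf R₁ ∪ cf R₂`. The ideal `𝔭` of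
`b = ev G s` over `cl Y` is weighted homogeneous (projective rank `2 n`, rank `2 n + 1` by `rk_ev`). If
`|s| ≤ |u|` then `b = ev (dil u G) (s / u)` reduces to a point of `R₁`; if `|s⁻¹| ≤ |u|` a scaling of `b` reduces to a point of
`R₂`; otherwise `sc (u / s) b` reduces to the node, which is generic over `Y`, contradiction. The reduced point has
rank at least `2 n + 1` over `Y` (`rk_ev` in the residue field), so `sp_of_indep`. Move the line back into `W` over
`cl Y` (`emb_big`). -/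

open Polynomial Set Matrix

noncomputable section

namespace Vale.Agent.P292

open Vale.Agent.P271 Vale.Agent.P276

variable {K : Type} [Field K] [Algebra ℂ K] {N n m : ℕ} {t : Fin (N + 1) → K} {S : Cn K N}
  {W : Type} [Field W] [Algebra ℂ W]

variable [IsAlgClosed W] {δ k : ℕ} {G G₀ H : Fin S.M → W[X]} {O : ValuationSubring W}
  {A B Y : Set W} {x : Fin S.M → W} {f g σ : W} {𝓕 : (Fin S.M → W[X]) → Prop}

theorem phi_cone (hS : S.Ok t n m) (hY : Y.Finite) {b : Fin S.M → W} (hb : S.On b) (hb0 : b ≠ 0)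
    (hr : rk Y + (2 * n + 1) ≤ rk (Y ∪ range b)) (hs : rk (Y ∪ pj (b ∘ S.e0)) ≤ rk Y + 2 * n) :
    rk (Y ∪ range b) ≤ rk Y + (2 * n + 1) ∧ ∀ ρ : W, Sp (cl Y) b (S.sc ρ b) := by
  obtain ⟨j, hj⟩ := Function.ne_iff.1 (e0_ne hS hb hb0)
  have hd : m * (n + 1) ≠ 0 := Nat.mul_ne_zero hS.fano.pos.ne' n.succ_ne_zero
  obtain ⟨l, hl⟩ := IsAlgClosed.exists_pow_nat_eq (b (S.e0 j)) (Nat.pos_of_ne_zero hd)
  have hl0 : l ≠ 0 := by
    rintro rfl
    exact hj (hl.symm.trans (zero_pow hd))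
  obtain ⟨z, hz0⟩ : ∃ z, z = S.sc l⁻¹ b := ⟨_, rfl⟩
  have hz : range z ⊆ cl (pj (b ∘ S.e0)) := by
    rw [hz0]
    refine (sub_cl_e0 hS (hb.sc _)).trans (cl_le ?_)
    rintro _ ⟨i, rfl⟩
    refine subset_cl _ ⟨i, j, ?_⟩
    show l⁻¹ ^ S.w (S.e0 i) * b (S.e0 i) = b (S.e0 i) / b (S.e0 j)
    rw [hS.we0, ← hl, inv_pow, div_eq_inv_mul]
  have hbz : b = fun i => l ^ S.w i * z i := by
    funext i
    rw [hz0, Cn.sc, ← mul_assoc, ← mul_pow, mul_inv_cancel₀ hl0, one_pow, one_mul]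
  have hP : (Y ∪ pj (b ∘ S.e0)).Finite := hY.union (pj_finite _)
  have hYz : Y ∪ range z ⊆ cl (Y ∪ pj (b ∘ S.e0)) :=
    union_subset (subset_union_left.trans (subset_cl _)) (hz.trans (cl_mono subset_union_right))
  have key : ∀ T : Set W, Y ∪ pj (b ∘ S.e0) ⊆ T → l ∈ cl T → Y ∪ range b ⊆ cl T := by
    intro T hT hlT
    refine union_subset ((subset_union_left.trans hT).trans (subset_cl _)) ?_
    rintro _ ⟨i, rfl⟩
    rw [congrFun hbz i]
    exact mul_mem (pow_mem hlT _) (cl_mono hT (hYz (Or.inr ⟨i, rfl⟩)))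
  refine ⟨?_, fun ρ => ?_⟩
  · have h1 := rk_mono (hP.insert l) (key _ (subset_insert _ _) (subset_cl _ (mem_insert _ _)))
    have h2 := rk_insert_le hP l
    omega
  have hnl : l ∉ cl (Y ∪ range z) := fun h => by
    have h1 := rk_mono hP (key _ subset_rfl (cl_le hYz h))
    omega
  have htr : Transcendental (Algebra.adjoin (cl Y) (range z)) l := fun h =>
    hnl (rkb_cl.1 (Ind_cl.2 h))
  have hli : LinearIndependent (Algebra.adjoin (cl Y) (range z)) fun d : ℕ => l ^ d := by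
    have h1 := (Polynomial.basisMonomials _).linearIndependent.map'
      (Polynomial.aeval l : (Algebra.adjoin (cl Y) (range z))[X] →ₐ[_] W).toLinearMap
      (LinearMap.ker_eq_bot.2 (transcendental_iff_injective.1 htr))
    have e : (fun d : ℕ => l ^ d) =
        (Polynomial.aeval l : (Algebra.adjoin (cl Y) (range z))[X] →ₐ[_] W).toLinearMap ∘
          Polynomial.basisMonomials _ := by
      funext d
      simp
    rw [e]
    exact h1
  have h3 := fsp_cone (L := cl Y) (w := S.w) (fun d : ℕ => l ^ d) (pow_zero l) (pow_add l) hli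
    (z := z) (fun i => Algebra.subset_adjoin ⟨i, rfl⟩) (z' := S.sc ρ b) fun d Q hQ h0 => by
      have e1 := fsp_scale hQ (fun d : ℕ => ρ ^ d) (pow_zero ρ) (pow_add ρ) b
      have e2 := fsp_scale hQ (fun d : ℕ => l ^ d) (pow_zero l) (pow_add l) z
      rw [← hbz, h0, mul_zero] at e2
      rw [e2, mul_zero] at e1
      exact e1
  rwa [← hbz] at h3

omit [IsAlgClosed W] [Field K] [Algebra ℂ K] in
theorem phi_top {L κ : Type} [Field L] [Algebra L W] [Field κ] [Algebra L κ] {P : Place L W κ}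
    {u s : W} {R₁ R₂ : Fin S.M → κ[X]} (hd : ∀ i, (G i).natDegree ≤ 2 * S.w i) (hs : s ≠ 0)
    (r1 : P.RedP (dil u G) R₁) (r2 : P.RedP (dil u (S.rev 2 G)) R₂) (h1 : P.Red (u / s) 0)
    (h2 : P.Red (u * s) 0) : P.RedV (S.sc (u / s) (S.ev G s)) (S.top 1 R₁) := by
  intro i
  have e : S.sc (u / s) (S.ev G s) i = ∑ k ∈ Finset.range (2 * S.w i + 1),
      (u / s) ^ S.w i * ((G i).coeff k * s ^ k) := by
    rw [← Finset.mul_sum, ← eval_eq_sum_range' (Nat.lt_succ_of_le (hd i))]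
    rfl
  have e' : S.top 1 R₁ i = ∑ k ∈ Finset.range (2 * S.w i + 1),
      if k = S.w i then (R₁ i).coeff k else 0 := by
    rw [Finset.sum_ite_eq', if_pos (Finset.mem_range.2 (by omega)), Cn.top, one_mul]
  rw [e, e']
  refine Place.Red.sum _ fun k hk => ?_
  have hk' := Finset.mem_range.1 hk
  rcases le_or_gt k (S.w i) with h | h
  · obtain ⟨c, hc⟩ := Nat.exists_eq_add_of_le h
    have h3 := (r1 i k).mul (h1.pow c)
    rw [coeff_dil] at h3
    have e1 : (u / s) ^ S.w i * ((G i).coeff k * s ^ k) =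
        u ^ k * (G i).coeff k * (u / s) ^ c := by
      rw [hc, pow_add, div_pow u s k]
      field_simp
    have e2 : (if k = S.w i then (R₁ i).coeff k else 0) = (R₁ i).coeff k * 0 ^ c := by
      rcases Nat.eq_zero_or_pos c with h0 | h0
      · rw [if_pos (by omega), h0, pow_zero, mul_one]
      · rw [if_neg (by omega), zero_pow h0.ne', mul_zero]
    rw [e1, e2]
    exact h3
  · obtain ⟨c, hc⟩ := Nat.exists_eq_add_of_lt h
    obtain ⟨d, hd'⟩ : ∃ d, S.w i = d + (c + 1) := ⟨S.w i - (c + 1), by omega⟩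
    have h3 := (r2 i d).mul (h2.pow (c + 1))
    rw [coeff_dil, Cn.rev, coeff_reflect, revAt_le (by omega), zero_pow c.succ_ne_zero, mul_zero,
      show 2 * S.w i - d = k by omega] at h3
    have e1 : (u / s) ^ S.w i * ((G i).coeff k * s ^ k) =
        u ^ d * (G i).coeff k * (u * s) ^ (c + 1) := by
      have e3 : s ^ k = s ^ S.w i * s ^ (c + 1) := by rw [← pow_add, hc, add_assoc]
      have e4 : u ^ S.w i = u ^ d * u ^ (c + 1) := by rw [← pow_add, ← hd']
      rw [e3, div_pow, e4, mul_pow]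
      field_simp
    rw [e1, if_neg h.ne']
    exact h3

omit [IsAlgClosed W] in
theorem phi_cases {L κ : Type} [Field L] [Algebra L W] [Field κ] [Algebra L κ] {P : Place L W κ}
    {u s : W} {R₁ R₂ : Fin S.M → κ[X]} (hG : S.LC 2 G) (hu : u ≠ 0)
    (r1 : P.RedP (dil u G) R₁) (r2 : P.RedP (dil u (S.rev 2 G)) R₂)
    (hc : ∀ ρ : W, Sp L (S.ev G s) (S.sc ρ (S.ev G s))) :
    (∃ a, Sp L (S.ev G s) (S.ev R₁ a)) ∨ (∃ a, Sp L (S.ev G s) (S.ev R₂ a)) ∨
      Sp L (S.ev G s) (S.top 1 R₁) := by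
  by_cases h1 : s / u ∈ P.O
  · obtain ⟨a, ha⟩ := Place.exists_red_mem h1
    have h2 : Sp L (S.ev (dil u G) (s / u)) (S.ev R₁ a) := (r1.eval ha).sp
    rw [(hG.dil hu).2.2.2.2, mul_div_cancel₀ _ hu] at h2
    exact Or.inl ⟨a, h2⟩
  have hs : s ≠ 0 := by
    rintro rfl
    exact h1 (by rw [zero_div]; exact zero_mem _)
  by_cases h2 : s⁻¹ / u ∈ P.O
  · obtain ⟨a, ha⟩ := Place.exists_red_mem h2
    have h3 : Sp L (S.ev (dil u (S.rev 2 G)) (s⁻¹ / u)) (S.ev R₂ a) := (r2.eval ha).sp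
    rw [(hG.rev.1.dil hu).2.2.2.2, mul_div_cancel₀ _ hu, ev_rev hG.deg (inv_ne_zero hs),
      inv_inv] at h3
    exact Or.inr (Or.inl ⟨a, (hc _).trans h3⟩)
  have h3 := Place.red_inv h1
  have h4 := Place.red_inv h2
  rw [inv_div] at h3 h4
  rw [div_inv_eq_mul] at h4
  exact Or.inr (Or.inr ((hc _).trans (phi_top hG.deg hs r1 r2 h3 h4).sp))

omit [IsAlgClosed W] in
theorem phi_sub {C : Set W} (hA : A.Finite) (hC : C.Finite) (h : B ⊆ cl C) (hB : B.Finite)
    (hi : rk A + rk C ≤ rk (A ∪ C)) : rk A + rk B ≤ rk (A ∪ B) := by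
  have h1 := rk_rel hB hC hA h
  rw [union_comm C, union_comm B] at h1
  omega

omit [IsAlgClosed W] [Algebra ℂ W] in
theorem phi_fin {α : Type} [Finite α] (F : α → W[X]) : (cf F).Finite := by
  refine ((finite_iUnion fun i => (F i).coeffs.finite_toSet).insert 0).subset ?_
  rintro _ ⟨i, j, rfl⟩
  by_cases h : (F i).coeff j = 0
  · exact Or.inl h
  · exact Or.inr (mem_iUnion.2 ⟨i, coeff_mem_coeffs h⟩)

omit [IsAlgClosed W] in
theorem phi_im {V : Type} [Field V] [Algebra ℂ V] (ι : cl Y →ₐ[ℂ] V) :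
    rk (ι '' {a | (a : W) ∈ Y}) = rk Y ∧ ∀ a, ι a ∈ cl (ι '' {a | (a : W) ∈ Y}) := by
  have e : (cl Y).val '' {a | (a : W) ∈ Y} = Y := by
    ext y
    exact ⟨fun ⟨a, ha, e⟩ => e ▸ ha, fun hy => ⟨⟨y, subset_cl _ hy⟩, hy, rfl⟩⟩
  refine ⟨by rw [rk_image, ← rk_image (cl Y).val, e], fun a => (mem_cl_map ι).2 ?_⟩
  rw [← mem_cl_map (cl Y).val, e]
  exact a.2

omit [IsAlgClosed W] in
theorem phi_tr {V : Type} [Field V] [Algebra ℂ V] [Algebra (cl Y) V] [IsScalarTower ℂ (cl Y) V]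
    (hY : Y.Finite) {T : Set V} (hT : T.Finite)
    (h : rk Y + k ≤ rk (IsScalarTower.toAlgHom ℂ (cl Y) V '' {a | (a : W) ∈ Y} ∪ T)) :
    Indep (cl Y) T k := by
  obtain ⟨h1, h2⟩ := phi_im (IsScalarTower.toAlgHom ℂ (cl Y) V)
  rw [← h1] at h
  obtain ⟨y, hy, hi⟩ := (rel_iff_rk ((hY.preimage Subtype.val_injective.injOn).image _) hT).2 h
  let φ := (algebraMap (cl Y) V).codRestrict _ h2
  let _ := φ.toAlgebra
  have : IsScalarTower (cl Y) (cl (IsScalarTower.toAlgHom ℂ (cl Y) V '' {a | (a : W) ∈ Y})) V :=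
    IsScalarTower.of_algebraMap_eq fun _ => rfl
  exact ⟨y, hy, hi.restrictScalars φ.injective⟩

theorem phi_basis {L V : Type} [Field L] [Field V] [Algebra L V] [IsAlgClosed V] {s : Set V}
    (hs : s.Finite) : ∃ M : IntermediateField L V, s ⊆ M ∧ IsAlgClosed M ∧
      ∃ T : Set M, T.Finite ∧ IsTranscendenceBasis L ((↑) : T → M) := by
  let M : IntermediateField L V :=
    (algebraicClosure (IntermediateField.adjoin L s) V).restrictScalars L
  have h1 : s ⊆ M := fun x hx => mem_algebraicClosure_iff.2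
    (isAlgebraic_algebraMap (⟨x, IntermediateField.subset_adjoin _ _ hx⟩ :
      IntermediateField.adjoin L s))
  have h2 : ∀ x ∈ M, IsAlgebraic (Algebra.adjoin L s) x := fun x hx =>
    IntermediateField.isAlgebraic_adjoin_iff.1 (mem_algebraicClosure_iff.1 hx)
  refine ⟨M, h1, (algebraicClosure.isAlgClosure (IntermediateField.adjoin L s) V).isAlgClosed, ?_⟩
  have e : Algebra.adjoin L s = (Algebra.adjoin L (M.val ⁻¹' s)).map M.val := by
    rw [AlgHom.map_adjoin, image_preimage_eq_of_subset fun x hx => ⟨⟨x, h1 hx⟩, rfl⟩]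
  rw [e] at h2
  have : Algebra.IsAlgebraic (Algebra.adjoin L (M.val ⁻¹' s)) M := ⟨fun x =>
    IsAlgebraic.of_ringHom_of_comp_eq (M.val.subalgebraMap _) M.val (h2 x x.2)
      (M.val.subalgebraMap_surjective _) Subtype.val_injective rfl⟩
  obtain ⟨T, hT, hb⟩ := exists_isTranscendenceBasis_subset (R := L) (M.val ⁻¹' s)
  exact ⟨T, (hs.preimage Subtype.val_injective.injOn).subset hT, hb⟩

theorem phi_emb (hW : Big W) (hY : Y.Finite) {V : Type} [Field V] [Algebra (cl Y) V] [IsAlgClosed V]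
    {s : Set V} (hs : s.Finite) :
    ∃ M : IntermediateField (cl Y) V, s ⊆ M ∧ IsAlgClosed M ∧ Nonempty (M →ₐ[cl Y] W) := by
  obtain ⟨M, h1, h2, T, hT, hb⟩ := phi_basis (L := cl Y) hs
  have := hT.fintype
  obtain ⟨u, hu⟩ := exists_fresh_fam hW hY T
  obtain ⟨f, -⟩ := amal_lift hb hu
  exact ⟨M, h1, h2, ⟨f⟩⟩

section

variable {V V' : Type} [Field V] [Algebra ℂ V] [Field V'] [Algebra ℂ V'] {R : Fin S.M → V[X]}

theorem phi_desc (f : V →ₐ[ℂ] V') (h : S.LC δ fun i => (R i).map (f : V →+* V')) : S.LC δ R := by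
  refine ⟨fun k P hP h0 => Polynomial.map_injective _ f.injective ?_,
    fun i => (natDegree_map_eq_of_injective f.injective (R i)).ge.trans (h.deg i),
    fun a e => h.prim (f a) (funext fun i => ?_), fun e => h.top (funext fun i => ?_)⟩
  · have h1 := MvPolynomial.comp_aeval_apply R (Polynomial.mapAlgHom f) P
    rw [Polynomial.map_zero]
    exact h1.trans (h.on k P hP h0)
  · exact (eval_map_apply (f : V →+* V') a).trans ((congrArg f (congrFun e i)).trans (map_zero f))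
  · exact (coeff_map _ _).trans ((congrArg f (congrFun e i)).trans (map_zero f))

omit [Field K] [Algebra ℂ K] in
theorem phi_ends (δ : ℕ) (R : Fin S.M → V[X]) (f : V →ₐ[ℂ] V') :
    S.ends δ (fun i => (R i).map (f : V →+* V')) = f '' S.ends δ R ∧
      cf (fun i => (R i).map (f : V →+* V')) = f '' cf R ∧
        ∀ a, S.ev (fun i => (R i).map (f : V →+* V')) (f a) = fun i => f (S.ev R a i) := by
  refine ⟨?_, ?_, fun a => funext fun i => eval_map_apply (f : V →+* V') a⟩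
  · rw [Cn.ends, Cn.ends, image_union, ← range_comp, ← range_comp]
    congr 2
    · funext i
      exact coeff_map _ _
    · funext i
      exact coeff_map _ _
  · ext a
    constructor
    · rintro ⟨i, j, rfl⟩
      exact ⟨_, ⟨i, j, rfl⟩, (coeff_map (f : V →+* V') _).symm⟩
    · rintro ⟨_, ⟨i, j, rfl⟩, rfl⟩
      exact ⟨i, j, (coeff_map (f : V →+* V') _).symm⟩

end

theorem phi_back (hW : Big W) (hY : Y.Finite) {V : Type} [Field V] [Algebra ℂ V] [IsAlgClosed V]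
    [Algebra (cl Y) V] [IsScalarTower ℂ (cl Y) V] {R : Fin S.M → V[X]} (hR : S.FL n R)
    (hi : rk Y + rk (cf R) ≤
      rk (IsScalarTower.toAlgHom ℂ (cl Y) V '' {a | (a : W) ∈ Y} ∪ cf R)) {a : V}
    {b : Fin S.M → W} (h1 : Sp (cl Y) b (S.ev R a)) (h2 : Sp (cl Y) (S.ev R a) b) :
    S.Hit n Y b := by
  obtain ⟨M, m1, _, ⟨f⟩⟩ := phi_emb hW hY ((phi_fin R).insert a)
  choose R' hR' using fun i => (mem_lifts (R i)).1 ((lifts_iff_coeff_lifts
    (f := (M.val.restrictScalars ℂ : M →+* V)) _).2 fun k => ⟨⟨_, m1 (Or.inr ⟨i, k, rfl⟩)⟩, rfl⟩)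
  obtain rfl : R = fun i => (R' i).map (M.val.restrictScalars ℂ : M →+* V) :=
    funext fun i => (hR' i).symm
  obtain ⟨a', rfl⟩ : ∃ a' : M, a = M.val.restrictScalars ℂ a' := ⟨⟨a, m1 (mem_insert _ _)⟩, rfl⟩
  have l1 : S.LC 1 R' := phi_desc _ hR.1
  obtain ⟨p1, p2, p3⟩ := phi_ends 1 R' (M.val.restrictScalars ℂ)
  obtain ⟨q1, q2, q3⟩ := phi_ends 1 R' (f.restrictScalars ℂ)
  rw [p3] at h1 h2
  refine ⟨fun i => (R' i).map (f.restrictScalars ℂ : M →+* W), f.restrictScalars ℂ a',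
    ⟨l1.map _, ?_⟩, ?_, ?_, ?_⟩
  · have h3 := hR.2
    rw [p1, rk_image] at h3
    rwa [q1, rk_image]
  · have e1 : Y ∪ f.restrictScalars ℂ '' cf R' =
        f.restrictScalars ℂ '' (algebraMap (cl Y) M '' {a | (a : W) ∈ Y} ∪ cf R') := by
      rw [image_union, image_image]
      refine congrArg (· ∪ _) (Set.ext fun y => ⟨fun hy => ⟨⟨y, subset_cl _ hy⟩, hy, f.commutes _⟩, ?_⟩)
      rintro ⟨c, hc, rfl⟩
      show f (algebraMap _ _ c) ∈ Y
      rw [f.commutes]
      exact hc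
    have e2 : IsScalarTower.toAlgHom ℂ (cl Y) V '' {a | (a : W) ∈ Y} =
        M.val.restrictScalars ℂ '' (algebraMap (cl Y) M '' {a | (a : W) ∈ Y}) := by
      rw [image_image]
      rfl
    rw [p2, e2, ← image_union, rk_image, rk_image] at hi
    rwa [q2, e1, rk_image, rk_image]
  · rw [q3]
    exact h1.trans ((sp_of_inj M.val M.val.injective _).trans (sp_map f _))
  · rw [q3]
    exact (sp_of_inj f f.injective _).trans ((sp_map M.val _).trans h2)

theorem phi_line (hS : S.Ok t n m) (hW : Big W) (hY : Y.Finite) {V : Type} [Field V] [Algebra ℂ V]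
    [IsAlgClosed V] [Algebra (cl Y) V] [IsScalarTower ℂ (cl Y) V] {R : Fin S.M → V[X]}
    (hR : S.FL n R) (hi : rk Y + rk (cf R) ≤
      rk (IsScalarTower.toAlgHom ℂ (cl Y) V '' {a | (a : W) ∈ Y} ∪ cf R)) {a : V}
    {b : Fin S.M → W} (hb : rk (Y ∪ range b) ≤ rk Y + (2 * n + 1))
    (h1 : Sp (cl Y) b (S.ev R a)) : S.Hit n Y b := by
  refine phi_back hW hY hR hi h1 (sp_of_indep h1 fun k hk => phi_tr hY (finite_range _) ?_)
  have e := (phi_im (IsScalarTower.toAlgHom ℂ (cl Y) V)).1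
  have h2 := (rel_iff_rk hY (finite_range _)).1 hk
  have h3 := (rk_ev hS (δ := 1) (Or.inl ⟨rfl, hR⟩)
    ((hY.preimage Subtype.val_injective.injOn).image (IsScalarTower.toAlgHom ℂ (cl Y) V))
    (e ▸ hi) a).1
  exact le_trans (by omega) (e ▸ h3)

theorem hit (hS : S.Ok t n m) (hW : Big W) (hY : Y.Finite) (h0 : S.FC n G₀) (h : Cn.Cj G₀ G)
    (hi : rk Y + rk (cf G) ≤ rk (Y ∪ cf G)) {κ : Type} [Field κ] [Algebra ℂ κ] [IsAlgClosed κ]
    {P : Place ℂ W κ} {u : W} {R₁ R₂ : Fin S.M → κ[X]} (hN : S.Node P G₀ u R₁ R₂)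
    (h1 : S.FL n R₁) (h2 : S.FL n R₂) (h3 : S.GenO n ∅ (S.top 1 R₁)) {s : W}
    (hs : rk (Y ∪ pj (S.ev G s ∘ S.e0)) ≤ rk Y + 2 * n) : S.Hit n Y (S.ev G s) := by
  obtain ⟨V, _, _, _, Q, u, R₁, R₂, ι, hN, h1, h2, h3, hι, hind⟩ :=
    node_over hS hW hY h hi hN h1 h2 h3
  have hG := cj_fc hS h h0
  obtain ⟨hup, hc⟩ := phi_cone hS hY (hG.1.ev_on s) (hG.1.prim s)
    (rk_ev hS (δ := 2) (Or.inr ⟨rfl, hG⟩) hY hi s).1 hs
  let _ : Algebra (cl Y) V := ι.toRingHom.toAlgebra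
  have : IsScalarTower ℂ (cl Y) V := IsScalarTower.of_algebraMap_eq fun c => (ι.commutes c).symm
  let P' : Place (cl Y) W V :=
    { O := Q.O, r := Q.r, surj := Q.surj, ker := Q.ker, mem := fun c => (hι c).1,
      alg := fun c => (hι c).2 }
  have e : {b | ∃ a : cl Y, (a : W) ∈ Y ∧ b = ι a} =
      IsScalarTower.toAlgHom ℂ (cl Y) V '' {a | (a : W) ∈ Y} :=
    Set.ext fun _ => ⟨fun ⟨a, ha, e⟩ => ⟨a, ha, e.symm⟩, fun ⟨a, ha, e⟩ => ⟨a, ha, e.symm⟩⟩
  have e' := (phi_im (IsScalarTower.toAlgHom ℂ (cl Y) V)).1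
  have hY' : (IsScalarTower.toAlgHom ℂ (cl Y) V '' {a | (a : W) ∈ Y}).Finite :=
    (hY.preimage Subtype.val_injective.injOn).image _
  have hC := (phi_fin R₁).union (phi_fin R₂)
  rw [e, ← e'] at hind
  rcases phi_cases (P := P') hG.1 hN.ne hN.r1 hN.r2 hc with ⟨a, ha⟩ | ⟨a, ha⟩ | ha
  · exact phi_line hS hW hY h1 (e' ▸ phi_sub hY' hC (subset_union_left.trans (subset_cl _))
      (phi_fin R₁) hind) hup ha
  · exact phi_line hS hW hY h2 (e' ▸ phi_sub hY' hC (subset_union_right.trans (subset_cl _))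
      (phi_fin R₂) hind) hup ha
  · have h4 := phi_sub (B := range (S.top 1 R₁)) hY' hC (by
      rintro _ ⟨i, rfl⟩
      exact subset_cl _ (Or.inl ⟨i, _, rfl⟩)) (finite_range _) hind
    have h5 := h3.2.2
    rw [empty_union] at h5
    have h6 := (rel_iff_rk hY (finite_range _)).1 (ha.indep (phi_tr (k := 2 * n + 2) hY
      (finite_range _) (by omega)))
    omega

end Vale.Agent.P292
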