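import Vale.Agent.P292.P.Eta

/-! P292 P/JetA (split from P/Jet). Jets. Helper names start with `pjea_`.
Take `σ` fresh, `G = sh (-σ) H` (`cj_shift`), `D` from `Thru.spec`; `D^[i] (x j) = i! * (H j).coeff i`.
`D g = - ξ ⬝ᵥ vec g` (`der_eq_dot`) with `ξ = (a(x) *ᵥ cv H 1) / q(x)` from `Ok.inv`. Let `Cl j c` say: for all `i`,
`D^[i] c ∈ cl (cf H)`, and `r ^ (j + i) * D^[i] c ∈ O` whenever `Ov (range x) O` and `dil r H` is integral. It is closed
under sums, products (degrees add) and `D` (degree + 1); `x j`, `q(x)⁻¹` have degree 0. Induction gives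
`D^[j] g = ∑ c l * hI l g` with `Cl j (c l)`. Finally `D^[2 k] f = (2 k)! * q.coeff (2 k)` and `exists_eta`. -/

open Polynomial Set Matrix

noncomputable section

namespace Vale.Agent.P292

open Vale.Agent.P271 Vale.Agent.P276

variable {K : Type} [Field K] [Algebra ℂ K] {N n m : ℕ} {t : Fin (N + 1) → K} {S : Cn K N}
  {W : Type} [Field W] [Algebra ℂ W]

variable [IsAlgClosed W] {δ k : ℕ} {G G₀ H : Fin S.M → W[X]} {O : ValuationSubring W}
  {A B Y : Set W} {x : Fin S.M → W} {f g σ : W} {𝓕 : (Fin S.M → W[X]) → Prop}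

/-- Homogeneous expressions in the coefficients of `H` and in `u`. -/
inductive pjea_Gr {α : Type} (H : α → W[X]) (u : W) : ℕ → W → Prop
  | coeff (j : α) (i : ℕ) : pjea_Gr H u i ((H j).coeff i)
  | inv : pjea_Gr H u 0 u
  | const (c : ℂ) : pjea_Gr H u 0 (algebraMap ℂ W c)
  | zero (e : ℕ) : pjea_Gr H u e 0
  | add {e : ℕ} {a b : W} : pjea_Gr H u e a → pjea_Gr H u e b → pjea_Gr H u e (a + b)
  | mul {e e' s : ℕ} {a b : W} : pjea_Gr H u e a → pjea_Gr H u e' b → e + e' = s →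
      pjea_Gr H u s (a * b)

section
omit [IsAlgClosed W]
variable {α : Type} {F : α → W[X]} {u a : W} {e : ℕ} {D : Derivation ℂ W W}

theorem pjea_neg (h : pjea_Gr F u e a) : pjea_Gr F u e (-a) := by
  have h1 := (pjea_Gr.const (-1)).mul h (zero_add e)
  rwa [map_neg, map_one, neg_one_mul] at h1

theorem pjea_leib {b : W} {e' s : ℕ} (h1 : pjea_Gr F u e a) (h2 : pjea_Gr F u e' b)
    (h3 : pjea_Gr F u (e + 1) (D a)) (h4 : pjea_Gr F u (e' + 1) (D b)) (h : e + e' = s) :
    pjea_Gr F u (s + 1) (D (a * b)) := by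
  rw [D.leibniz, smul_eq_mul, smul_eq_mul]
  exact (h1.mul h4 (by omega)).add (h2.mul h3 (by omega))

theorem pjea_dc (hD : ∀ i j, D^[i] (cv F 0 j) = (i.factorial : W) * (F j).coeff i) (j : α)
    (i : ℕ) : pjea_Gr F u (i + 1) (D ((F j).coeff i)) := by
  have : CharZero W := charZero_of_injective_algebraMap (algebraMap ℂ W).injective
  have h1 := hD (i + 1) j
  rw [Function.iterate_succ_apply', hD, D.leibniz, D.map_natCast, smul_zero, add_zero,
    smul_eq_mul, Nat.factorial_succ, Nat.cast_mul, mul_comm ((i + 1 : ℕ) : W), mul_assoc] at h1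
  rw [mul_left_cancel₀ (Nat.cast_ne_zero.2 i.factorial_ne_zero) h1, ← map_natCast (algebraMap ℂ W)]
  exact (pjea_Gr.const _).mul (.coeff j (i + 1)) (zero_add _)

theorem pjea_poly (hD : ∀ i j, D^[i] (cv F 0 j) = (i.factorial : W) * (F j).coeff i)
    (P : MvPolynomial α ℂ) : pjea_Gr F u 0 (MvPolynomial.aeval (cv F 0) P) ∧
      pjea_Gr F u 1 (D (MvPolynomial.aeval (cv F 0) P)) := by
  induction P using MvPolynomial.induction_on with
  | C c =>
    rw [MvPolynomial.aeval_C, D.map_algebraMap]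
    exact ⟨.const c, .zero 1⟩
  | add P Q hP hQ =>
    rw [map_add, map_add]
    exact ⟨hP.1.add hQ.1, hP.2.add hQ.2⟩
  | mul_X P j hP =>
    rw [map_mul, MvPolynomial.aeval_X]
    exact ⟨hP.1.mul (.coeff j 0) rfl, pjea_leib hP.1 (.coeff j 0) hP.2 (pjea_dc hD j 0) rfl⟩

theorem pjea_der (hD : ∀ i j, D^[i] (cv F 0 j) = (i.factorial : W) * (F j).coeff i)
    {q : MvPolynomial α ℂ} (h : pjea_Gr F (MvPolynomial.aeval (cv F 0) q)⁻¹ e a) :
    pjea_Gr F (MvPolynomial.aeval (cv F 0) q)⁻¹ (e + 1) (D a) := by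
  induction h with
  | coeff j i => exact pjea_dc hD j i
  | inv =>
    rw [D.leibniz_inv, smul_eq_mul, neg_mul, sq]
    exact pjea_neg ((pjea_Gr.inv.mul .inv rfl).mul (pjea_poly hD q).2 rfl)
  | const c =>
    rw [D.map_algebraMap]
    exact .zero _
  | zero e =>
    rw [map_zero]
    exact .zero _
  | add _ _ h1 h2 =>
    rw [map_add]
    exact h1.add h2
  | mul h1 h2 h3 h4 h5 => exact pjea_leib h1 h2 h4 h5 h3

theorem pjea_cl {A : Set W} {z : α → W} (h : range z ⊆ A) (q : MvPolynomial α ℂ) :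
    (MvPolynomial.aeval z q)⁻¹ ∈ cl A := by
  refine inv_mem ?_
  induction q using MvPolynomial.induction_on with
  | C c =>
    rw [MvPolynomial.aeval_C]
    exact (cl A).algebraMap_mem c
  | add P Q hP hQ =>
    rw [map_add]
    exact add_mem hP hQ
  | mul_X P j hP =>
    rw [map_mul, MvPolynomial.aeval_X]
    exact mul_mem hP (subset_cl _ (h ⟨j, rfl⟩))

theorem pjea_mem (hu : u ∈ cl (cf F)) (h : pjea_Gr F u e a) : a ∈ cl (cf F) := by
  induction h with
  | coeff j i => exact subset_cl _ ⟨j, i, rfl⟩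
  | inv => exact hu
  | const c => exact (cl _).algebraMap_mem c
  | zero e => exact zero_mem _
  | add _ _ h1 h2 => exact add_mem h1 h2
  | mul _ _ _ h1 h2 => exact mul_mem h1 h2

theorem pjea_int {A : Set W} {O : ValuationSubring W} (hO : Ov A O) (hu : u ∈ cl A) {r : W}
    (hr : ∀ a ∈ cf (dil r F), a ∈ O) (h : pjea_Gr F u e a) : r ^ e * a ∈ O := by
  induction h with
  | coeff j i =>
    refine hr _ ⟨j, i, ?_⟩
    rw [dil, C_0, zero_add, comp_C_mul_X_coeff, mul_comm]
  | inv =>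
    rw [pow_zero, one_mul]
    exact hO _ hu
  | const c =>
    rw [pow_zero, one_mul]
    exact hO _ ((cl A).algebraMap_mem c)
  | zero e =>
    rw [mul_zero]
    exact zero_mem _
  | add _ _ h1 h2 =>
    rw [mul_add]
    exact add_mem h1 h2
  | mul _ _ h h1 h2 =>
    rw [← h, pow_add, mul_mul_mul_comm]
    exact mul_mem h1 h2

theorem pjea_sum {β : Type} (s : Finset β) {c : β → W} (h : ∀ b, pjea_Gr F u e (c b)) :
    pjea_Gr F u e (∑ b ∈ s, c b) :=
  Finset.sum_induction c _ (fun _ _ => pjea_Gr.add) (.zero e) fun b _ => h b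

theorem pjea_single {β : Type} (h : pjea_Gr F u e a) (l l' : β) :
    pjea_Gr F u e (Finsupp.single l a l') := by
  rcases Finsupp.single_apply_mem (a := l) (b := a) l' with h1 | h1
  · rw [h1]
    exact .zero e
  · rw [Set.mem_singleton_iff.1 h1]
    exact h

end

theorem hI_mem (hS : S.Ok t n m) (hx : S.GenO n Y x) (hf : f ∈ cl (Y ∪ range x))
    (l : List (Fin S.M)) : S.hI Y x l f ∈ cl (Y ∪ range x) := by
  induction l with
  | nil => exact hf
  | cons i l ih => exact (vec_tan hS hx ih).2 i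

theorem jet_der (hS : S.Ok t n m) (hx : S.GenO n Y x) (h : S.LC 2 H) (h0 : cv H 0 = x)
    {D : Derivation ℂ W W} (hD : ∀ a ∈ cl Y, D a = 0)
    (hD' : ∀ i j, D^[i] (x j) = (i.factorial : W) * (H j).coeff i) (e : ℕ) :
    ∃ (Λ : Finset (List (Fin S.M))) (c : List (Fin S.M) → W), (∀ l, c l ∈ cl (cf H)) ∧
      (∀ O, Ov (range x) O → ∀ r : W, (∀ a ∈ cf (dil r H), a ∈ O) → ∀ l, r ^ e * c l ∈ O) ∧
      ∀ g ∈ cl (Y ∪ range x), D^[e] g = ∑ l ∈ Λ, c l * S.hI Y x l g := by
  subst h0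
  obtain ⟨q, a, hq, hi⟩ := hS.inv W _ hx.2.1 hx.ne
  obtain ⟨ξ, hξ, h1⟩ : ∃ ξ : Fin S.M → W, (S.pm (cv H 0) *ᵥ ξ = fun j => D (cv H 0 j)) ∧
      ∀ i, pjea_Gr H (MvPolynomial.aeval (cv H 0) q)⁻¹ 1 (ξ i) := by
    refine ⟨(MvPolynomial.aeval (cv H 0) q)⁻¹ •
      (a.map (MvPolynomial.aeval (cv H 0)) *ᵥ fun j => D (cv H 0 j)), ?_, fun i => ?_⟩
    · rw [mulVec_smul, hi W _ _ hx.2.1 (hx.2.1.der D), smul_smul, inv_mul_cancel₀ hq, one_smul]
    · exact pjea_Gr.inv.mul (pjea_sum (e := 1) Finset.univ fun j =>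
        (pjea_poly hD' (a i j)).1.mul (pjea_dc hD' j 0) (zero_add 1)) (zero_add 1)
  have key : ∃ c : List (Fin S.M) →₀ W,
      (∀ l, pjea_Gr H (MvPolynomial.aeval (cv H 0) q)⁻¹ e (c l)) ∧
      ∀ g ∈ cl (Y ∪ range (cv H 0)),
        D^[e] g = Finsupp.linearCombination W (fun l => S.hI Y (cv H 0) l g) c := by
    induction e with
    | zero =>
      refine ⟨Finsupp.single [] 1, pjea_single (map_one (algebraMap ℂ W) ▸ .const 1) _,
        fun g _ => ?_⟩
      rw [Finsupp.linearCombination_single, one_smul]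
      rfl
    | succ e ih =>
      obtain ⟨c, h2, h3⟩ := ih
      refine ⟨∑ l ∈ c.support, (Finsupp.single l (D (c l)) +
        ∑ i, Finsupp.single (i :: l) (-(c l * ξ i))), fun l' => ?_, fun g hg => ?_⟩
      · rw [Finsupp.finset_sum_apply]
        refine pjea_sum _ fun l => ?_
        rw [Finsupp.add_apply, Finsupp.finset_sum_apply]
        exact (pjea_single (pjea_der hD' (h2 l)) _ _).add
          (pjea_sum _ fun i => pjea_single (pjea_neg ((h2 l).mul (h1 i) rfl)) _ _)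
      · rw [Function.iterate_succ_apply', h3 g hg, Finsupp.linearCombination_apply, Finsupp.sum,
          map_sum, map_sum]
        refine Finset.sum_congr rfl fun l _ => ?_
        rw [smul_eq_mul, D.leibniz, der_eq_dot hS hx hD (hI_mem hS hx hg l) hξ, map_add, map_sum]
        simp only [Finsupp.linearCombination_single, smul_eq_mul, dotProduct, mul_neg, neg_mul,
          Finset.sum_neg_distrib, Finset.mul_sum, mul_assoc]
        rw [add_comm, mul_comm]
        rfl
  obtain ⟨c, h2, h3⟩ := key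
  refine ⟨c.support, c, fun l => pjea_mem (pjea_cl ?_ q) (h2 l),
    fun O hO r hr l => pjea_int hO (pjea_cl subset_rfl q) hr (h2 l), h3⟩
  rintro _ ⟨j, rfl⟩
  exact ⟨j, 0, rfl⟩

end Vale.Agent.P292
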