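import Vale.Agent.P292.P.Eta
import Vale.Agent.P292.P.JetA

/-! P292 P/Jet. Jets. Helper names start with `pje_`.
Take `σ` fresh, `G = sh (-σ) H` (`cj_shift`), `D` from `Thru.spec`; `D^[i] (x j) = i! * (H j).coeff i`.
`D g = - ξ ⬝ᵥ vec g` (`der_eq_dot`) with `ξ = (a(x) *ᵥ cv H 1) / q(x)` from `Ok.inv`. Let `Cl j c` say: for all `i`,
`D^[i] c ∈ cl (cf H)`, and `r ^ (j + i) * D^[i] c ∈ O` whenever `Ov (range x) O` and `dil r H` is integral. It is closed
under sums, products (degrees add) and `D` (degree + 1); `x j`, `q(x)⁻¹` have degree 0. Induction gives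
`D^[j] g = ∑ c l * hI l g` with `Cl j (c l)`. Finally `D^[2 k] f = (2 k)! * q.coeff (2 k)` and `exists_eta`. -/

open Polynomial Set Matrix

noncomputable section

namespace Vale.Agent.P292

open Vale.Agent.P271 Vale.Agent.P276

variable {K : Type} [Field K] [Algebra ℂ K] {N n m : ℕ} {t : Fin (N + 1) → K} {S : Cn K N}
  {W : Type} [Field W] [Algebra ℂ W]

variable [IsAlgClosed W] {δ k : ℕ} {G G₀ H : Fin S.M → W[X]} {O : ValuationSubring W}
  {A B Y : Set W} {x : Fin S.M → W} {f g σ : W} {𝓕 : (Fin S.M → W[X]) → Prop}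

omit [IsAlgClosed W] in
theorem pje_iter {D : Derivation ℂ W W} (hσ : D σ = 1) (i : ℕ) : ∀ q : W[X],
    (∀ j, D (q.coeff j) = 0) → D^[i] (q.eval σ) = (derivative^[i] q).eval σ := by
  induction i with
  | zero => exact fun _ _ => rfl
  | succ i ih =>
    intro q hq
    have h1 : D (q.eval σ) = (derivative q).eval σ := by
      rw [derivative_eval, eval_eq_sum, sum_def, sum_def, map_sum]
      refine Finset.sum_congr rfl fun j _ => ?_
      rw [Derivation.leibniz, hq, smul_zero, add_zero, Derivation.leibniz_pow, hσ, smul_eq_mul,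
        smul_eq_mul, nsmul_eq_mul, mul_one, mul_assoc]
    rw [Function.iterate_succ_apply, Function.iterate_succ_apply, h1]
    refine ih _ fun j => ?_
    rw [coeff_derivative, ← Nat.cast_succ, Derivation.leibniz, hq, Derivation.map_natCast,
      smul_zero, smul_zero, add_zero]

omit [IsAlgClosed W] in
theorem pje_jet {D : Derivation ℂ W W} (hσ : D σ = 1) (i : ℕ) {q : W[X]}
    (hq : ∀ j, D (q.coeff j) = 0) :
    D^[i] (q.eval σ) = (i.factorial : W) * (taylor σ q).coeff i := by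
  rw [pje_iter hσ i q hq, ← factorial_smul_hasseDeriv, taylor_coeff, LinearMap.smul_apply,
    eval_smul, nsmul_eq_mul]

omit [Algebra ℂ W] [IsAlgClosed W] in
theorem pje_top {q : W[X]} {e : ℕ} (h : q.natDegree ≤ e) (a : W) :
    (taylor a q).coeff e = q.coeff e := by
  rcases h.eq_or_lt with rfl | h
  · exact coeff_taylor_natDegree a q
  · rw [coeff_eq_zero_of_natDegree_lt h,
      coeff_eq_zero_of_natDegree_lt (by rwa [natDegree_taylor])]

omit [Algebra ℂ W] [IsAlgClosed W] in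
theorem pje_fin {α : Type} [Finite α] (F : α → W[X]) : (cf F).Finite := by
  refine ((finite_iUnion fun s : α => (F s).coeffs.finite_toSet).insert 0).subset ?_
  rintro _ ⟨s, j, rfl⟩
  by_cases h : (F s).coeff j = 0
  · exact Or.inl h
  · exact Or.inr (mem_iUnion.2 ⟨s, coeff_mem_coeffs h⟩)

theorem jet (hS : S.Ok t n m) (hW : Big W) (hG : S.FC n G₀) (h : Cn.Cj G₀ H) (hY : Y.Finite)
    (hi : rk Y + rk (cf H) ≤ rk (Y ∪ cf H)) (k : ℕ) :
    ∃ (Λ : Finset (List (Fin S.M))) (c : List (Fin S.M) → W), (∀ l, c l ∈ cl (cf H)) ∧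
      (∀ O, Ov (range (cv H 0)) O → ∀ r : W, (∀ a ∈ cf (dil r H), a ∈ O) →
        ∀ l, r ^ (2 * k) * c l ∈ O) ∧
      ∀ (ι : Type) [Fintype ι] (f : ι → W), (∀ i, S.Pol (Cn.Cj G₀) 2 Y (cv H 0) k (f i)) →
        ∃ η : W ≃ₐ[ℂ] W, Fx (cl Y) η ∧ (∀ j, η (cv H 0 j) = S.top 2 H j) ∧
          ∀ i, η (f i) = ∑ l ∈ Λ, c l * S.hI Y (cv H 0) l (f i) := by
  have : CharZero W := charZero_of_injective_algebraMap (algebraMap ℂ W).injective
  obtain ⟨σ, hσ⟩ := exists_fresh hW (hY.union (pje_fin H))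
  obtain ⟨hc, ht⟩ := cj_shift hS hW hG h hY hi hσ
  obtain ⟨-, hi', D, d1, d2, -⟩ := ht.spec hY
  have hH := cj_fc hS h hG
  have hG' := cj_fc hS hc hG
  have hx : S.GenO n Y (cv H 0) :=
    (hH.gen hS hY hi).1.mono hS hY (subset_union_left.trans (subset_cl _))
  have hy : S.GenO n Y (S.top 2 (S.sh (-σ) H)) :=
    (hG'.gen hS hY hi').2.mono hS hY (subset_union_left.trans (subset_cl _))
  obtain ⟨Λ, c, c1, c2, c3⟩ := jet_der hS hx hH.1 rfl (D := D)
    (fun a ha => d1 a (cl_mono subset_union_left ha)) (fun i j => by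
      have h1 := pje_jet d2 i (q := S.sh (-σ) H j) fun l =>
        d1 _ (subset_cl _ (Or.inr ⟨j, l, rfl⟩))
      rw [← congrFun ht.1 j, Cn.ev, h1, Cn.sh, taylor_taylor, add_neg_cancel, taylor_zero])
    (2 * k)
  have h0 : ((2 * k).factorial : W) ≠ 0 := Nat.cast_ne_zero.2 (Nat.factorial_ne_zero _)
  refine ⟨Λ, fun l => c l * ((2 * k).factorial : W)⁻¹,
    fun l => mul_mem (c1 l) (inv_mem (natCast_mem _ _)), fun O hO r hr l => ?_,
    fun ι _ f hf => ?_⟩
  · rw [← mul_assoc]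
    exact mul_mem (c2 O hO r hr l) (hO _ (inv_mem (natCast_mem _ _)))
  · choose q q1 q2 q3 using fun i => (hf i).2 _ σ hc ht
    obtain ⟨η, e1, e2, e3⟩ := exists_eta hS hW hx hG'.1 ht hy (fun i => (hf i).1) q1 q2 q3
    refine ⟨η, e1, fun j => (e2 j).trans (pje_top (hH.1.deg j) _), fun i => ?_⟩
    have h1 := pje_jet d2 (2 * k) fun j => d1 _ (q2 i j)
    rw [← q3, c3 _ (hf i).1.1, pje_top (q1 i)] at h1
    rw [e3, ← inv_mul_cancel_left₀ h0 ((q i).coeff _), ← h1, Finset.mul_sum]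
    exact Finset.sum_congr rfl fun l _ => by ring

end Vale.Agent.P292
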