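import Vale.Agent.P292.B.Main
import Vale.Agent.P276.E.RkB

/-! P292 P/Nrm. Normality after extension of the constants. Helper names start with `pnr_`.
The field `k = cl Y` is isomorphic to `ℂ` over the countable field generated by the coefficients of
the equations of the cone; apply `Ok.nrm` to `W` with the twisted algebra structure. -/

open Polynomial Set Matrix

noncomputable section

namespace Vale.Agent.P292

open Vale.Agent.P271 Vale.Agent.P276

variable {K : Type} [Field K] [Algebra ℂ K] {N n m : ℕ} {t : Fin (N + 1) → K} {S : Cn K N}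
  {W : Type} [Field W] [Algebra ℂ W]

theorem pnr_iso {k : Type} [Field k] [IsAlgClosed k] [Algebra ℂ k]
    (hk : Cardinal.mk k ≤ Cardinal.mk ℂ) {T : Set ℂ} (hT : T.Finite) :
    ∃ τ : ℂ ≃+* k, ∀ a ∈ T, τ a = algebraMap ℂ k a := by
  have h0 : Cardinal.mk (Subfield.closure T) ≤ Cardinal.aleph0 :=
    (Subfield.cardinalMk_closure_le_max T).trans (max_le hT.lt_aleph0.le le_rfl)
  have h1 : Cardinal.mk ℂ = Cardinal.mk k :=
    le_antisymm (Cardinal.mk_le_of_injective (algebraMap ℂ k).injective) hk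
  have h2 : Cardinal.aleph0 < Cardinal.mk ℂ :=
    Cardinal.mk_complex ▸ Cardinal.aleph0_lt_continuum
  obtain ⟨s, hs⟩ := exists_isTranscendenceBasis (Subfield.closure T) ℂ
  obtain ⟨s', hs'⟩ := exists_isTranscendenceBasis (Subfield.closure T) k
  obtain ⟨e⟩ := Cardinal.eq.1
    ((IsAlgClosed.cardinal_eq_cardinal_transcendence_basis_of_aleph0_lt' _ hs h0 h2).symm.trans
      (h1.trans (IsAlgClosed.cardinal_eq_cardinal_transcendence_basis_of_aleph0_lt' _ hs' h0
        (h1 ▸ h2))))
  have := IsAlgClosed.isAlgClosure_of_transcendence_basis _ hs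
  have := IsAlgClosed.isAlgClosure_of_transcendence_basis _ hs'
  let e' := hs.1.aevalEquiv.symm.trans ((MvPolynomial.renameEquiv _ e).trans hs'.1.aevalEquiv)
  refine ⟨IsAlgClosure.equivOfEquiv ℂ k e'.toRingEquiv, fun a ha => ?_⟩
  have h3 := IsAlgClosure.equivOfEquiv_algebraMap ℂ k e'.toRingEquiv
    (algebraMap (Subfield.closure T) _ ⟨a, Subfield.subset_closure ha⟩)
  exact h3.trans (congrArg Subtype.val (e'.commutes ⟨a, Subfield.subset_closure ha⟩))

theorem pnr_twist (hS : S.Ok t n m) {k V : Type} [Field k] [Field V] [Algebra k V] (τ : ℂ ≃+* k)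
    {x : Fin S.M → V} (h1 : ∀ (d : ℕ) (P : MvPolynomial (Fin S.M) ℂ),
      P.IsWeightedHomogeneous S.w d → MvPolynomial.aeval S.c P = 0 →
        MvPolynomial.eval₂ ((algebraMap k V).comp τ) x P = 0)
    (h2 : ∀ j, Indep k (range x) j ↔ j ≤ 2 * n + 2) {y : V}
    (hy : y ∈ IntermediateField.adjoin k (range x))
    (hi : IsIntegral (Algebra.adjoin k (range x)) y) : y ∈ Algebra.adjoin k (range x) := by
  let _ : Algebra ℂ k := (τ : ℂ →+* k).toAlgebra
  let _ : Algebra ℂ V := ((algebraMap k V).comp τ).toAlgebra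
  have : IsScalarTower ℂ k V := IsScalarTower.of_algebraMap_eq fun _ => rfl
  have hs : Function.Surjective (algebraMap ℂ k) := τ.surjective
  have := (Algebra.isIntegral_of_surjective hs).isAlgebraic
  have h3 : ∀ j, j ≤ rk (range x) ↔ j ≤ 2 * n + 2 := fun j =>
    (indep_iff_rk (finite_range x)).symm.trans (Iff.trans
      ⟨fun ⟨z, hz, h⟩ => ⟨z, hz, h.extendScalars k⟩,
        fun ⟨z, hz, h⟩ => ⟨z, hz, h.restrictScalars (algebraMap ℂ k).injective⟩⟩ (h2 j))
  have h4 : range (algebraMap k V) = range (algebraMap ℂ V) := by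
    rw [IsScalarTower.algebraMap_eq ℂ k V, RingHom.coe_comp, hs.range_comp]
  have h5 : ∀ z, z ∈ Algebra.adjoin k (range x) ↔ z ∈ Algebra.adjoin ℂ (range x) := fun z => by
    rw [← Subalgebra.mem_toSubring, ← Subalgebra.mem_toSubring, Algebra.adjoin_eq_ring_closure,
      Algebra.adjoin_eq_ring_closure, h4]
  refine (h5 y).2 (hS.nrm V x h1 (eq_of_forall_le_iff h3) y ?_ ?_)
  · rwa [← IntermediateField.mem_toSubfield, IntermediateField.adjoin_toSubfield, ← h4,
      ← IntermediateField.adjoin_toSubfield]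
  · exact hi.map_of_comp_eq ((algebraMap (Algebra.adjoin k (range x)) V).codRestrict
      (Algebra.adjoin ℂ (range x)) fun z => (h5 z).1 z.2) (RingHom.id V) rfl

theorem pnr_card (F L : Type) [Field F] [Field L] [Algebra F L] :
    Cardinal.mk (algebraicClosure F L) ≤ max (Cardinal.mk F) Cardinal.aleph0 :=
  Algebra.IsAlgebraic.cardinalMk_le_max F _

variable [IsAlgClosed W] {δ k : ℕ} {G G₀ H : Fin S.M → W[X]} {O : ValuationSubring W}
  {A B Y : Set W} {x : Fin S.M → W} {f g σ : W} {𝓕 : (Fin S.M → W[X]) → Prop}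

theorem nrm_rel (hS : S.Ok t n m) (hx : S.GenO n Y x) {y : W}
    (hy : y ∈ IntermediateField.adjoin (cl Y) (range x))
    (hi : IsIntegral (Algebra.adjoin (cl Y) (range x)) y) :
    y ∈ Algebra.adjoin (cl Y) (range x) := by
  classical
  have := cl_closed Y
  have h2 : Cardinal.aleph0 ≤ Cardinal.mk ℂ := Cardinal.aleph0_le_mk ℂ
  have hk : Cardinal.mk (cl Y) ≤ Cardinal.mk ℂ :=
    (pnr_card (IntermediateField.adjoin ℂ Y) W).trans (max_le
      ((IntermediateField.cardinalMk_adjoin_le ℂ Y).trans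
        (max_le (max_le le_rfl (hx.1.lt_aleph0.le.trans h2)) h2)) h2)
  obtain ⟨s, hs, he⟩ := (Submodule.fg_span_iff_fg_span_finset_subset
    (R := MvPolynomial (Fin S.M) ℂ) {P : MvPolynomial (Fin S.M) ℂ |
      ∃ d, P.IsWeightedHomogeneous S.w d ∧ MvPolynomial.aeval S.c P = 0}).1
        (IsNoetherian.noetherian _)
  obtain ⟨τ, hτ⟩ := pnr_iso hk (s.biUnion fun P => P.support.image P.coeff).finite_toSet
  refine pnr_twist hS τ (fun d P hP h0 => ?_) (fun j => ?_) hy hi
  · have h3 : Submodule.span (MvPolynomial (Fin S.M) ℂ) (s : Set (MvPolynomial (Fin S.M) ℂ)) ≤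
        RingHom.ker (MvPolynomial.eval₂Hom ((algebraMap (cl Y) W).comp τ) x) := by
      refine Submodule.span_le.2 fun Q hQ => ?_
      obtain ⟨e, h4, h5⟩ := hs hQ
      have h6 := hx.2.1 e Q h4 h5
      rw [MvPolynomial.aeval_def, MvPolynomial.eval₂_eq] at h6
      rw [SetLike.mem_coe, RingHom.mem_ker, MvPolynomial.coe_eval₂Hom, MvPolynomial.eval₂_eq, ← h6]
      refine Finset.sum_congr rfl fun a ha => ?_
      rw [RingHom.comp_apply, RingHom.coe_coe, hτ _ (Finset.mem_coe.2 (Finset.mem_biUnion.2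
        ⟨Q, hQ, Finset.mem_image_of_mem _ ha⟩)), ← IsScalarTower.algebraMap_apply]
    exact h3 (he ▸ Submodule.subset_span ⟨d, hP, h0⟩)
  · rw [rel_iff_rk hx.1 (finite_range x), hx.2.2, add_le_add_iff_left]

end Vale.Agent.P292
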