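import Vale.Agent.P292.P.Jet
import Vale.Agent.P292.P.HPol
import Vale.Agent.P292.P.Desc

/-! P292 P/TenA (split from P/Ten). Finite dimension and the tensor decomposition. Helper names start with `ptea_`.
`fin_dim`: `H` from `exists_con` with `cv H 0 = x`, `jet`; for `r > card Λ` the vectors `(hI l (f i))_l` over the field
`cl (range x)` are dependent, so `∑ a i * η (f i) = 0` with `η (f i) ∈ cl (range (top 2 H))`; `lin_disj`.
`tensor`: `Y = range (top 2 H)`, `h_pol`, a conic `H'` from `x` to `x'` independent of `Y`, `jet`: `η h = ∑ c l * hI l h`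
with `c l ∈ cl (x' ∪ x)` (`con_rigid`) and `hI l h ∈ cl (Y ∪ x)`; `desc` with `T = range x`, apply `η.symm`, `desc_li`,
`pol_down`. -/

open Polynomial Set Matrix

noncomputable section

namespace Vale.Agent.P292

open Vale.Agent.P271 Vale.Agent.P276

variable {K : Type} [Field K] [Algebra ℂ K] {N n m : ℕ} {t : Fin (N + 1) → K} {S : Cn K N}
  {W : Type} [Field W] [Algebra ℂ W]

variable [IsAlgClosed W] {δ k : ℕ} {G G₀ H : Fin S.M → W[X]} {O : ValuationSubring W}
  {A B Y : Set W} {x : Fin S.M → W} {f g σ : W} {𝓕 : (Fin S.M → W[X]) → Prop}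

theorem fin_dim (hS : S.Ok t n m) (hW : Big W) (hG : S.FC n G₀) (hx : S.GenO n ∅ x) :
    ∃ r : ℕ, ∀ f : Fin r → W, (∀ i, S.Pol (Cn.Cj G₀) 2 ∅ x 1 (f i)) → ¬ LinearIndependent ℂ f := by
  obtain ⟨⟨H, h1, rfl, h2⟩, -⟩ := exists_con hS hW hG hx
  obtain ⟨Λ, c, -, -, hj⟩ := jet hS hW hG h1 finite_empty h2 1
  refine ⟨Λ.card + 1, fun f hf hli => ?_⟩
  obtain ⟨η, -, e1, e2⟩ := hj _ f hf
  have h3 : ¬ LinearIndependent (cl (∅ ∪ range (cv H 0)))
      fun (i : Fin (Λ.card + 1)) (l : Λ) =>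
        (⟨_, hI_mem hS hx (hf i).1.1 l.1⟩ : cl (∅ ∪ range (cv H 0))) := fun h => by
    have := h.fintype_card_le_finrank
    simp at this
  obtain ⟨a, h4, i, h5⟩ := Fintype.not_linearIndependent_iff.1 h3
  have h6 : ∀ l ∈ Λ, ∑ i, (a i : W) * S.hI ∅ (cv H 0) l (f i) = 0 := fun l hl => by
    simpa using congrArg (fun v => (v ⟨l, hl⟩ : W)) h4
  have h7 : ∑ i, (a i : W) * η (f i) = 0 := by
    simp only [e2, Finset.mul_sum, mul_left_comm _ (c _)]
    rw [Finset.sum_comm]
    exact Finset.sum_eq_zero fun l hl => by rw [← Finset.mul_sum, h6 l hl, mul_zero]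
  have h8 := ((cj_fc hS h1 hG).spec hS).2.1.2.2
  have h9 := hx.2.2
  have h10 : rk (∅ : Set W) = 0 := by simp [rk]
  have h11 : (η : W →ₐ[ℂ] W) '' (∅ ∪ range (cv H 0)) = range (S.top 2 H) := by
    rw [empty_union, ← range_comp]
    exact congrArg range (funext e1)
  have h12 := lin_disj (A := range (S.top 2 H)) (B := ∅ ∪ range (cv H 0)) (finite_range _)
    (finite_empty.union (finite_range _)) (by rw [h9, empty_union]; omega)
    (f := fun i => η (f i)) (a := fun i => a i) (hli.map' η.toLinearMap η.toLinearEquiv.ker)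
    (fun i => h11 ▸ (mem_cl_map (η : W →ₐ[ℂ] W)).2 (hf i).1.1) (fun i => (a i).2) h7
  exact h5 (Subtype.ext (congrFun h12 i))

end Vale.Agent.P292
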