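import Vale.Agent.P292.P.Jet
import Vale.Agent.P292.P.HPol
import Vale.Agent.P292.P.Desc
import Vale.Agent.P292.P.TenA

/-! P292 P/Ten. Finite dimension and the tensor decomposition. Helper names start with `pte_`.
`fin_dim`: `H` from `exists_con` with `cv H 0 = x`, `jet`; for `r > card Λ` the vectors `(hI l (f i))_l` over the field
`cl (range x)` are dependent, so `∑ a i * η (f i) = 0` with `η (f i) ∈ cl (range (top 2 H))`; `lin_disj`.
`tensor`: `Y = range (top 2 H)`, `h_pol`, a conic `H'` from `x` to `x'` independent of `Y`, `jet`: `η h = ∑ c l * hI l h`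
with `c l ∈ cl (x' ∪ x)` (`con_rigid`) and `hI l h ∈ cl (Y ∪ x)`; `desc` with `T = range x`, apply `η.symm`, `desc_li`,
`pol_down`. -/

open Polynomial Set Matrix

noncomputable section

namespace Vale.Agent.P292

open Vale.Agent.P271 Vale.Agent.P276

variable {K : Type} [Field K] [Algebra ℂ K] {N n m : ℕ} {t : Fin (N + 1) → K} {S : Cn K N}
  {W : Type} [Field W] [Algebra ℂ W]

variable [IsAlgClosed W] {δ k : ℕ} {G G₀ H : Fin S.M → W[X]} {O : ValuationSubring W}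
  {A B Y : Set W} {x : Fin S.M → W} {f g σ : W} {𝓕 : (Fin S.M → W[X]) → Prop}

omit [IsAlgClosed W] in
theorem pte_map (θ : W ≃ₐ[ℂ] W) (h : ∀ a ∈ A, θ a ∈ cl B) (hf : f ∈ cl A) : θ f ∈ cl B := by
  have h1 : (θ : W →ₐ[ℂ] W) f ∈ cl ((θ : W →ₐ[ℂ] W) '' A) := (mem_cl_map _).2 hf
  refine cl_le (A := (θ : W →ₐ[ℂ] W) '' A) ?_ h1
  rintro _ ⟨a, ha, rfl⟩
  exact h a ha

theorem tensor (hS : S.Ok t n m) (hW : Big W) (hG : S.Good n G₀) (h : S.FC n H) :
    ∃ (r : ℕ) (a f : Fin r → W), (∀ i, a i ∈ cl (range (S.top 2 H))) ∧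
      (∀ i, S.Pol (Cn.Cj G₀) 2 ∅ (cv H 0) 1 (f i)) ∧ S.Av H ^ 2 = a ⬝ᵥ f := by
  have hx := (h.spec hS).2.1
  have hp := h_pol hS hW hG h
  have hY : (range (S.top 2 H)).Finite := finite_range _
  obtain ⟨H', hH, h0, hi⟩ := (exists_con hS hW hG.1 hx).1
  have hF := cj_fc hS hH hG.1
  have hg := (hF.gen hS hY hi).1
  have hr := con_rigid hS hF.1 hF.2.1
  obtain ⟨Λ, c, hc, -, hj⟩ := jet hS hW hG.1 hH hY hi 1
  rw [Cn.ends, h0] at hr
  rw [h0] at hj hg
  obtain ⟨η, h1, h2, h3⟩ := hj Unit (fun _ => S.Av H ^ 2) fun _ => hp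
  have h4 : (fun l : Λ => c l) ⬝ᵥ (fun l : Λ =>
      S.hI (range (S.top 2 H)) (cv H 0) l (S.Av H ^ 2)) = η (S.Av H ^ 2) := by
    rw [h3 (), ← Finset.sum_coe_sort Λ]
    rfl
  obtain ⟨c', e', hc', he', h5⟩ := desc (A := range (S.top 2 H')) (B := range (S.top 2 H))
    (T := range (cv H 0)) (finite_range _) hY (finite_range _)
    (by
      have h6 := rk_on hS hx.2.1
      have h7 := hg.2.2
      rw [union_comm (range (S.top 2 H'))]
      omega)
    (c := fun l : Λ => c l)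
    (e := fun l : Λ => S.hI (range (S.top 2 H)) (cv H 0) l (S.Av H ^ 2))
    (fun l => by
      rw [union_comm]
      exact cl_le hr (hc l))
    (fun l => hI_mem hS hx hp.1.1 l)
    (by
      rw [h4]
      refine pte_map η ?_ hp.1.1
      rintro a (ha | ⟨j, rfl⟩)
      · rw [h1 a (subset_cl _ ha)]
        exact subset_cl _ (Or.inr ha)
      · rw [h2]
        exact subset_cl _ (Or.inl ⟨j, rfl⟩))
  have h6 : ∀ l, η.symm (c' l) ∈ cl (range (cv H 0)) := fun l => by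
    refine pte_map η.symm ?_ (hc' l)
    rintro _ ⟨j, rfl⟩
    rw [← h2, AlgEquiv.symm_apply_apply]
    exact subset_cl _ ⟨j, rfl⟩
  have h7 : e' ⬝ᵥ (fun l => η.symm (c' l)) = S.Av H ^ 2 := by
    apply η.injective
    rw [← h4, ← h5, dotProduct, dotProduct, map_sum]
    refine Finset.sum_congr rfl fun l _ => ?_
    rw [map_mul, h1 _ (he' l), AlgEquiv.apply_symm_apply, mul_comm]
  obtain ⟨r, a, f, ha, hf, hl, h8⟩ := desc_li he' h6
  rw [h7] at h8
  refine ⟨r, a, f, ha, fun i => ?_, h8.symm⟩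
  refine pol_down (𝓕 := Cn.Cj G₀) hS hW hx hl ha hf (fun G θ hG' => cj_map hG' θ) ?_ i
  rw [h8]
  exact hp

end Vale.Agent.P292
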